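import Vale.Agent.P048.Full.Base

/-! # Block A2: sets of independence number two

A set of at least three vertices with independence number at most two has a spanning cycle or,
after deleting one vertex, consists of two cliques without edges between them. -/

namespace Vale.Agent.P048.Full

open Finset

variable {V : Type} {G : SimpleGraph V} {X S : Finset V} {a b c x y w : V}

theorem adj_of_two (hS : alpha G X ≤ 2) (ha : a ∈ X) (hb : b ∈ X) (hc : c ∈ X) (hab : a ≠ b)
    (hac : a ≠ c) (hbc : b ≠ c) (nab : ¬G.Adj a b) (nac : ¬G.Adj a c) : G.Adj b c := by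
  classical
  by_contra nbc
  have hI : Indep G ({a} ∪ {b, c}) := (Indep.singleton a).union (Indep.pair nbc) fun p hp r hr => by
    simp only [Finset.mem_insert, Finset.mem_singleton] at hp hr
    rcases hr with rfl | rfl <;> subst hp <;> assumption
  have := le_alpha (G := G) (W := X) (S := {a} ∪ {b, c}) (by simp [Finset.subset_iff, ha, hb, hc]) hI
  rw [Finset.card_union_of_disjoint (by simp [hab, hac]), Finset.card_pair hbc,
    Finset.card_singleton] at this
  omega

/-- `S` has a spanning cycle. -/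
def Ham (G : SimpleGraph V) (S : Finset V) : Prop :=
  ∃ a b, Pth G a b S.card (S : Set V) ∧ G.Adj b a

/-- `S` consists of a vertex and two non-empty cliques without edges between them. -/
def Split (G : SimpleGraph V) (S : Finset V) : Prop :=
  ∃ (w : V) (K L : Finset V), w ∈ S ∧ K ⊆ S ∧ L ⊆ S ∧ w ∉ K ∧ w ∉ L ∧ Disjoint K L ∧
    (∀ y ∈ S, y = w ∨ y ∈ K ∨ y ∈ L) ∧ K.Nonempty ∧ L.Nonempty ∧
    G.IsClique (K : Set V) ∧ G.IsClique (L : Set V) ∧ ∀ a ∈ K, ∀ b ∈ L, ¬G.Adj a b

/-- A spanning cycle extends over a vertex, unless the set is split. -/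
theorem ham_step [DecidableEq V] (hS : alpha G S ≤ 2) (hx : x ∈ S) (h4 : 4 ≤ S.card)
    (h : Ham G (S.erase x)) : Ham G S ∨ Split G S := by
  obtain ⟨a, b, ⟨p, hp, hpl, hps⟩, hba⟩ := h
  have hN : (S.erase x).card + 1 = S.card := Finset.card_erase_add_one hx
  set N := (S.erase x).card with hNdef
  by_cases htwo : ∃ u ∈ S.erase x, ∃ v ∈ S.erase x, u ≠ v ∧ G.Adj x u ∧ G.Adj x v
  · left
    obtain ⟨u, hu, v, hv, huv, hxu, hxv⟩ := htwo
    let g : ℕ → V := p.getVert
    have hmem : ∀ i, g i ∈ S.erase x := fun i => by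
      exact Finset.mem_coe.1 (hps _ (p.getVert_mem_support i))
    have hinj : ∀ i j, i < N → j < N → g i = g j → i = j := fun i j hi hj e =>
      hp.getVert_injOn (show i ∈ {k | k ≤ p.length} by simp only [Set.mem_ofPred_eq]; omega)
        (show j ∈ {k | k ≤ p.length} by simp only [Set.mem_ofPred_eq]; omega) e
    have hcl : G.Adj (g (N - 1)) (g 0) := by
      show G.Adj (p.getVert (N - 1)) (p.getVert 0)
      rw [show N - 1 = p.length by omega, p.getVert_length, p.getVert_zero]
      exact hba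
    have himg : (Finset.range N).image g = S.erase x := by
      refine Finset.eq_of_subset_of_card_le (by simp [Finset.image_subset_iff, hmem]) ?_
      rw [Finset.card_image_of_injOn fun i hi j hj =>
        hinj i j (Finset.mem_range.1 hi) (Finset.mem_range.1 hj), Finset.card_range]
    rw [← himg, Finset.mem_image] at hu hv
    obtain ⟨i, hi, rfl⟩ := hu
    obtain ⟨k, hk, rfl⟩ := hv
    rw [Finset.mem_range] at hi hk
    -- rotate so that the first neighbour gets index zero
    let f : ℕ → V := fun r => if r + i < N then g (r + i) else g (r + i - N)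
    have finj : ∀ r s, r < s → s < N → f r ≠ f s := by
      intro r s hrs hs e
      simp only [f] at e
      split_ifs at e <;> have := hinj _ _ (by omega) (by omega) e <;> omega
    have fadj : ∀ r, r + 1 < N → G.Adj (f r) (f (r + 1)) := by
      intro r hr
      simp only [f]
      split_ifs with h1 h2 h2
      · rw [show r + 1 + i = r + i + 1 by omega]
        exact p.adj_getVert_succ (by omega)
      · rw [show r + i = N - 1 by omega, show r + 1 + i - N = 0 by omega]
        exact hcl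
      · omega
      · rw [show r + 1 + i - N = r + i - N + 1 by omega]
        exact p.adj_getVert_succ (by omega)
    have fcl : G.Adj (f (N - 1)) (f 0) := by
      simp only [f, Nat.zero_add, if_pos hi]
      split_ifs with h1
      · obtain rfl : i = 0 := by omega
        exact hcl
      · rcases Nat.lt_or_ge 0 i with h0 | h0
        · rw [show N - 1 + i - N = i - 1 by omega]
          simpa [show i - 1 + 1 = i by omega] using
            p.adj_getVert_succ (show i - 1 < p.length by omega)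
        · omega
    have fmem : ∀ r, f r ∈ S.erase x := fun r => by simp only [f]; split_ifs <;> exact hmem _
    have hf0 : G.Adj x (f 0) := by simpa [f, hi] using hxu
    obtain ⟨j, hj0, hjN, hfj⟩ : ∃ j, 0 < j ∧ j < N ∧ G.Adj x (f j) := by
      have hne : i ≠ k := fun e => huv (congrArg g e)
      rcases Nat.lt_or_ge i k with h1 | h1
      · exact ⟨k - i, by omega, by omega, by
          simpa [f, show k - i + i = k by omega, hk] using hxv⟩
      · exact ⟨k + N - i, by omega, by omega, by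
          simpa [f, show k + N - i + i = k + N by omega] using hxv⟩
    have seg : ∀ r s, r ≤ s → s < N → Pth G (f r) (f s) (s - r + 1) (f '' Set.Icc r s) :=
      fun r s hrs hs => Pth.seg f hrs (fun p q _ h2 h3 => finj p q h2 (by omega))
        fun p _ h2 => fadj p (by omega)
    have hdis : ∀ r s r' s', s < r' → s' < N →
        Disjoint (f '' Set.Icc r s) (f '' Set.Icc r' s') := by
      intro r s r' s' h1 h2
      rw [Set.disjoint_left]
      rintro _ ⟨p, hp, rfl⟩ ⟨q, hq, e⟩
      exact finj p q (by have := hp.2; have := hq.1; omega) (by have := hq.2; omega) e.symm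
    have close : ∀ {u v : V} {n : ℕ} {T : Set V}, Pth G u v n T →
        T ⊆ (S.erase x : Finset V) → n = N → G.Adj x u → G.Adj x v → Ham G S := by
      intro u v n T P hT hn hu hv
      refine ⟨u, x, ?_, hu⟩
      have := P.snoc hv.symm (fun h => by simpa using hT h)
      rw [← hN, ← hn]
      exact this.mono (Set.union_subset (hT.trans (by simp))
        (by simpa using hx))
    have hsub : ∀ r s, f '' Set.Icc r s ⊆ (S.erase x : Finset V) := by
      rintro r s _ ⟨t, -, rfl⟩
      exact fmem t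
    by_cases hj1 : j + 1 < N
    · by_cases hxs : G.Adj x (f (j + 1))
      · exact close ((seg (j + 1) (N - 1) (by omega) (by omega)).append fcl
          (seg 0 j (by omega) hjN) (hdis 0 j (j + 1) (N - 1) (by omega) (by omega)).symm)
          (Set.union_subset (hsub _ _) (hsub _ _)) (by omega) hxs hfj
      by_cases hx1 : G.Adj x (f 1)
      · exact close ((seg 1 (N - 1) (by omega) (by omega)).append fcl (seg 0 0 le_rfl (by omega))
          (hdis 0 0 1 (N - 1) (by omega) (by omega)).symm)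
          (Set.union_subset (hsub _ _) (hsub _ _)) (by omega) hx1 hf0
      · have hj2 : 2 ≤ j := by
          rcases Nat.lt_or_ge j 2 with h2 | h2
          · exact absurd (show j = 1 by omega ▸ hfj) hx1
          · exact h2
        have hne : ∀ r, x ≠ f r := fun r e => by simpa [← e] using fmem r
        have hadj : G.Adj (f 1) (f (j + 1)) := adj_of_two hS hx
          (Finset.mem_of_mem_erase (fmem _)) (Finset.mem_of_mem_erase (fmem _)) (hne _) (hne _)
          (finj 1 (j + 1) (by omega) hj1) hx1 hxs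
        have P1 := ((seg (j + 1) (N - 1) (by omega) (by omega)).append fcl
          (seg 0 0 le_rfl (by omega)) (hdis 0 0 (j + 1) (N - 1) (by omega) (by omega)).symm).symm
        exact close (P1.append hadj.symm (seg 1 j (by omega) hjN) (Set.disjoint_union_left.2
          ⟨(hdis 1 j (j + 1) (N - 1) (by omega) (by omega)).symm,
            hdis 0 0 1 j (by omega) hjN⟩))
          (Set.union_subset (Set.union_subset (hsub _ _) (hsub _ _)) (hsub _ _)) (by omega) hf0 hfj
    · exact close (seg 0 (N - 1) (by omega) (by omega)) (hsub _ _) (by omega) hf0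
        (show j = N - 1 by omega ▸ hfj)
  · right
    push Not at htwo
    obtain ⟨u, hu, hun⟩ : ∃ u ∈ S.erase x, ∀ v ∈ S.erase x, v ≠ u → ¬G.Adj x v := by
      by_cases h1 : ∃ u ∈ S.erase x, G.Adj x u
      · obtain ⟨u, hu, hxu⟩ := h1
        exact ⟨u, hu, fun v hv hvu => htwo u hu v hv hvu.symm hxu⟩
      · push Not at h1
        obtain ⟨u, hu⟩ := Finset.card_pos.1 (show 0 < (S.erase x).card by omega)
        exact ⟨u, hu, fun v hv _ => h1 v hv⟩
    simp only [Finset.mem_erase] at hu hun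
    refine ⟨u, {x}, (S.erase x).erase u, hu.2, by simpa using hx,
      (Finset.erase_subset _ _).trans (Finset.erase_subset _ _), by simpa using hu.1, by simp,
      by simp, fun y hy => ?_, Finset.singleton_nonempty x, ?_, by simp, ?_, ?_⟩
    · by_cases hyu : y = u
      · exact .inl hyu
      · by_cases hyx : y = x
        · exact .inr (.inl (by simp [hyx]))
        · exact .inr (.inr (by simp [hyu, hyx, hy]))
    · rw [← Finset.card_pos, Finset.card_erase_of_mem (by simp [hu])]
      omega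
    · intro v hv v' hv' hne
      simp only [Finset.coe_erase, Set.mem_sdiff, Set.mem_singleton_iff, Finset.mem_coe] at hv hv'
      exact adj_of_two hS hx hv.1.1 hv'.1.1 (Ne.symm hv.1.2) (Ne.symm hv'.1.2) hne
        (hun v ⟨hv.1.2, hv.1.1⟩ hv.2) (hun v' ⟨hv'.1.2, hv'.1.1⟩ hv'.2)
    · intro p hp r hr
      simp only [Finset.mem_singleton, Finset.mem_erase] at hp hr
      exact hp ▸ hun r hr.2 hr.1

/-- A path through all of a clique with prescribed neighbours at its ends. -/
theorem side {K : Finset V} (hK : G.IsClique (K : Set V)) (hx : ∃ a ∈ K, G.Adj x a)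
    (hw : ∃ a ∈ K, G.Adj w a) :
    (∃ a a', G.Adj x a ∧ G.Adj w a' ∧ Pth G a a' K.card (K : Set V)) ∨
      (∃ b ∈ K, 2 ≤ K.card ∧ ∀ c ∈ K, c ≠ b → ¬G.Adj x c ∧ ¬G.Adj w c) := by
  obtain ⟨a, ha, hxa⟩ := hx
  obtain ⟨a', ha', hwa⟩ := hw
  by_cases h1 : K.card ≤ 1
  · obtain rfl : a = a' := Finset.card_le_one.1 h1 a ha a' ha'
    refine .inl ⟨a, a, hxa, hwa, ?_⟩
    rw [show K.card = 1 by have := Finset.card_pos.2 ⟨a, ha⟩; omega]
    exact (Pth.single a).mono (by simpa using ha)
  by_cases hd : ∃ c ∈ K, ∃ c' ∈ K, c ≠ c' ∧ G.Adj x c ∧ G.Adj w c'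
  · obtain ⟨c, hc, c', hc', hne, hxc, hwc⟩ := hd
    exact .inl ⟨c, c', hxc, hwc, clique_pth hK hc hc' hne (by omega) le_rfl⟩
  · push Not at hd
    have e : a = a' := by
      by_contra hne
      exact hd a ha a' ha' hne hxa hwa
    subst e
    exact .inr ⟨a, ha, by omega, fun c hc hca =>
      ⟨fun hxc => hd c hc a ha hca hxc hwa, fun hwc => hd a ha c hc (Ne.symm hca) hxa hwc⟩⟩

/-- A split set stays split or gets a spanning cycle. -/
theorem split_step [DecidableEq V] (hS : alpha G S ≤ 2) (hx : x ∈ S)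
    (h : Split G (S.erase x)) : Ham G S ∨ Split G S := by
  obtain ⟨w, K, L, hw, hK, hL, hwK, hwL, hKL, hcov, hKn, hLn, cK, cL, hno⟩ := h
  have hxK : x ∉ K := fun h => by simpa using hK h
  have hxL : x ∉ L := fun h => by simpa using hL h
  obtain ⟨hwx, hwS⟩ := Finset.mem_erase.1 hw
  have sK : K ⊆ S := hK.trans (Finset.erase_subset _ _)
  have sL : L ⊆ S := hL.trans (Finset.erase_subset _ _)
  have cov : ∀ y ∈ S, y = x ∨ y = w ∨ y ∈ K ∨ y ∈ L := fun y hy => by
    by_cases hyx : y = x
    · exact .inl hyx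
    · exact .inr (hcov y (Finset.mem_erase.2 ⟨hyx, hy⟩))
  -- one of `x`, `w` sees nothing on one side
  have lone : ∀ (u v : V) (P R : Finset V), (u = x ∧ v = w ∨ u = w ∧ v = x) →
      (P = K ∧ R = L ∨ P = L ∧ R = K) → (∀ r ∈ R, ¬G.Adj u r) → Split G S := by
    intro u v P R huv hPR hu
    have hPn : P.Nonempty := by rcases hPR with ⟨rfl, -⟩ | ⟨rfl, -⟩ <;> assumption
    have hRn : R.Nonempty := by rcases hPR with ⟨-, rfl⟩ | ⟨-, rfl⟩ <;> assumption
    have sP : P ⊆ S := by rcases hPR with ⟨rfl, -⟩ | ⟨rfl, -⟩ <;> assumption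
    have sR : R ⊆ S := by rcases hPR with ⟨-, rfl⟩ | ⟨-, rfl⟩ <;> assumption
    have cP : G.IsClique (P : Set V) := by rcases hPR with ⟨rfl, -⟩ | ⟨rfl, -⟩ <;> assumption
    have cR : G.IsClique (R : Set V) := by rcases hPR with ⟨-, rfl⟩ | ⟨-, rfl⟩ <;> assumption
    have hPR' : Disjoint P R ∧ ∀ a ∈ P, ∀ b ∈ R, ¬G.Adj a b := by
      rcases hPR with ⟨rfl, rfl⟩ | ⟨rfl, rfl⟩
      · exact ⟨hKL, hno⟩
      · exact ⟨hKL.symm, fun a ha b hb e => hno b hb a ha e.symm⟩
    have huS : u ∈ S ∧ v ∈ S ∧ u ≠ v ∧ u ∉ P ∧ u ∉ R ∧ v ∉ P ∧ v ∉ R := by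
      rcases hPR with ⟨rfl, rfl⟩ | ⟨rfl, rfl⟩ <;> rcases huv with ⟨rfl, rfl⟩ | ⟨rfl, rfl⟩ <;>
        simp [hx, hwS, hwx, hwx.symm, hxK, hxL, hwK, hwL]
    obtain ⟨uS, vS, hne, uP, uR, vP, vR⟩ := huS
    obtain ⟨r, hr⟩ := hRn
    have huP : ∀ a ∈ P, G.Adj u a := fun a ha => (adj_of_two hS (sR hr) uS (sP ha)
      (fun e => uR (e ▸ hr)) (fun e => Finset.disjoint_left.1 hPR'.1 ha (e ▸ hr))
      (fun e => uP (e ▸ ha)) (fun e => hu r hr e.symm) fun e => hPR'.2 a ha r hr e.symm)
    refine ⟨v, insert u P, R, vS, Finset.insert_subset uS sP, sR, by simp [hne.symm, vP], vR,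
      Finset.disjoint_insert_left.2 ⟨uR, hPR'.1⟩, fun y hy => ?_, Finset.insert_nonempty _ _,
      ⟨r, hr⟩, ?_, cR, fun a ha b hb => ?_⟩
    · rcases hPR with ⟨rfl, rfl⟩ | ⟨rfl, rfl⟩ <;> rcases huv with ⟨rfl, rfl⟩ | ⟨rfl, rfl⟩ <;>
        rcases cov y hy with h | h | h | h <;> simp [h]
    · rw [Finset.coe_insert]
      exact cP.insert fun a ha _ => huP a ha
    · rcases Finset.mem_insert.1 ha with rfl | ha
      · exact hu b hb
      · exact hPR'.2 a ha b hb
  -- both see only `b` on the side `P`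
  have pinch : ∀ (P R : Finset V), (P = K ∧ R = L ∨ P = L ∧ R = K) → ∀ b ∈ P, 2 ≤ P.card →
      (∀ c ∈ P, c ≠ b → ¬G.Adj x c ∧ ¬G.Adj w c) → Split G S := by
    intro P R hPR b hb hP hbb
    obtain ⟨c, hc⟩ : (P.erase b).Nonempty := by
      rw [← Finset.card_pos, Finset.card_erase_of_mem hb]; omega
    obtain ⟨hcb, hcP⟩ := Finset.mem_erase.1 hc
    have facts : P ⊆ S ∧ R ⊆ S ∧ R.Nonempty ∧ G.IsClique (P : Set V) ∧ G.IsClique (R : Set V) ∧
        Disjoint P R ∧ (∀ a ∈ P, ∀ b ∈ R, ¬G.Adj a b) ∧ x ∉ P ∧ w ∉ P ∧ x ∉ R ∧ w ∉ R := by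
      rcases hPR with ⟨rfl, rfl⟩ | ⟨rfl, rfl⟩
      · exact ⟨sK, sL, hLn, cK, cL, hKL, hno, hxK, hwK, hxL, hwL⟩
      · exact ⟨sL, sK, hKn, cL, cK, hKL.symm, fun a ha b hb e => hno b hb a ha e.symm,
          hxL, hwL, hxK, hwK⟩
    obtain ⟨sP, sR, ⟨r0, hr0⟩, cP, cR, hd, hno', xP, wP, xR, wR⟩ := facts
    obtain ⟨nxc, nwc⟩ := hbb c hcP hcb
    have hxw : G.Adj x w := adj_of_two hS (sP hcP) hx hwS (fun e => xP (e ▸ hcP))
      (fun e => wP (e ▸ hcP)) hwx.symm (fun e => nxc e.symm) fun e => nwc e.symm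
    have full : ∀ u, u ∈ S → u ∉ P → u ∉ R → ¬G.Adj u c → ∀ r ∈ R, G.Adj u r :=
      fun u uS uP uR nu r hr => adj_of_two hS (sP hcP) uS (sR hr) (fun e => uP (e ▸ hcP))
        (fun e => Finset.disjoint_left.1 hd hcP (e ▸ hr)) (fun e => uR (e ▸ hr))
        (fun e => nu e.symm) (hno' c hcP r hr)
    refine ⟨b, P.erase b, insert x (insert w R), sP hb, (Finset.erase_subset _ _).trans sP,
      Finset.insert_subset hx (Finset.insert_subset hwS sR), by simp, ?_, ?_, fun y hy => ?_,
      ⟨c, hc⟩, Finset.insert_nonempty _ _, ?_, ?_, ?_⟩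
    · simp only [Finset.mem_insert, not_or]
      exact ⟨fun e => xP (e ▸ hb), fun e => wP (e ▸ hb), Finset.disjoint_left.1 hd hb⟩
    · rw [Finset.disjoint_left]
      intro a ha
      obtain ⟨-, haP⟩ := Finset.mem_erase.1 ha
      simp only [Finset.mem_insert, not_or]
      exact ⟨fun e => xP (e ▸ haP), fun e => wP (e ▸ haP), Finset.disjoint_left.1 hd haP⟩
    · by_cases hyb : y = b
      · exact .inl hyb
      · rcases hPR with ⟨rfl, rfl⟩ | ⟨rfl, rfl⟩ <;>
          rcases cov y hy with h | h | h | h <;> simp [h, hyb]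
    · exact cP.subset (by simp)
    · rw [Finset.coe_insert, Finset.coe_insert]
      refine (cR.insert fun r hr _ => full w hwS wP wR nwc r hr).insert fun r hr _ => ?_
      rcases hr with rfl | hr
      · exact hxw
      · exact full x hx xP xR nxc r hr
    · intro a ha r hr
      obtain ⟨hab, haP⟩ := Finset.mem_erase.1 ha
      simp only [Finset.mem_insert] at hr
      rcases hr with rfl | rfl | hr
      · exact fun e => (hbb a haP hab).1 e.symm
      · exact fun e => (hbb a haP hab).2 e.symm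
      · exact hno' a haP r hr
  by_cases h1 : ∀ r ∈ L, ¬G.Adj x r
  · exact .inr (lone x w K L (.inl ⟨rfl, rfl⟩) (.inl ⟨rfl, rfl⟩) h1)
  by_cases h2 : ∀ r ∈ K, ¬G.Adj x r
  · exact .inr (lone x w L K (.inl ⟨rfl, rfl⟩) (.inr ⟨rfl, rfl⟩) h2)
  by_cases h3 : ∀ r ∈ L, ¬G.Adj w r
  · exact .inr (lone w x K L (.inr ⟨rfl, rfl⟩) (.inl ⟨rfl, rfl⟩) h3)
  by_cases h4 : ∀ r ∈ K, ¬G.Adj w r
  · exact .inr (lone w x L K (.inr ⟨rfl, rfl⟩) (.inr ⟨rfl, rfl⟩) h4)
  push Not at h1 h2 h3 h4
  rcases side cK h2 h4 with ⟨a, a', hxa, hwa, P1⟩ | ⟨b, hb, hc, hbb⟩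
  swap
  · exact .inr (pinch K L (.inl ⟨rfl, rfl⟩) b hb hc hbb)
  rcases side cL h3 h1 with ⟨c, c', hwc, hxc, P2⟩ | ⟨b, hb, hc, hbb⟩
  swap
  · exact .inr (pinch L K (.inr ⟨rfl, rfl⟩) b hb hc fun c h h' => (hbb c h h').symm)
  left
  have P := ((P1.snoc hwa.symm (by simpa using hwK)).append hwc P2 (Set.disjoint_union_left.2
    ⟨by exact_mod_cast hKL, by simpa using hwL⟩)).snoc hxc.symm
    (by simp [hxK, hxL, hwx.symm])
  refine ⟨a, x, ?_, hxa⟩
  have eS : S = insert x (insert w (K ∪ L)) := by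
    ext y
    constructor
    · intro hy
      rcases cov y hy with h | h | h | h <;> simp [h]
    · intro hy
      simp only [Finset.mem_insert, Finset.mem_union] at hy
      rcases hy with rfl | rfl | h | h
      exacts [hx, hwS, sK h, sL h]
  have e : S.card = K.card + 1 + L.card + 1 := by
    rw [eS, Finset.card_insert_of_notMem (by simp [hxK, hxL, hwx.symm]),
      Finset.card_insert_of_notMem (by simp [hwK, hwL]), Finset.card_union_of_disjoint hKL]
    omega
  rw [e]
  refine P.mono ?_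
  rw [eS]
  intro y hy
  simp only [Set.mem_union, Set.mem_singleton_iff, Finset.mem_coe] at hy
  simp only [Finset.coe_insert, Finset.coe_union, Set.mem_insert_iff, Set.mem_union,
    Finset.mem_coe]
  tauto

/-- Independence number two: a spanning cycle or a split. -/
theorem ham_or_split (S : Finset V) (hS : alpha G S ≤ 2) (h3 : 3 ≤ S.card) :
    Ham G S ∨ Split G S := by
  classical
  induction S using Finset.strongInduction with
  | H S ih =>
    by_cases h4 : 4 ≤ S.card
    · obtain ⟨x, hx⟩ := Finset.card_pos.1 (show 0 < S.card by omega)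
      have hc := Finset.card_erase_add_one hx
      rcases ih _ (Finset.erase_ssubset hx) ((alpha_mono (Finset.erase_subset _ _)).trans hS)
        (by omega) with h | h
      · exact ham_step hS hx h4 h
      · exact split_step hS hx h
    · have hc : S.card = 3 := by omega
      by_cases hcl : G.IsClique (S : Set V)
      · obtain ⟨a, ha, b, hb, hab⟩ := Finset.one_lt_card.1 (show 1 < S.card by omega)
        exact .inl ⟨a, b, clique_pth hcl ha hb hab (by omega) le_rfl, hcl hb ha hab.symm⟩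
      · right
        simp only [SimpleGraph.isClique_iff, Set.Pairwise, Finset.mem_coe] at hcl
        push Not at hcl
        obtain ⟨a, ha, b, hb, hab, nab⟩ := hcl
        obtain ⟨c, hc'⟩ : ((S.erase a).erase b).Nonempty := by
          rw [← Finset.card_pos, Finset.card_erase_of_mem (by simp [hb, hab.symm]),
            Finset.card_erase_of_mem ha]
          omega
        simp only [Finset.mem_erase] at hc'
        have eS : ({a, b, c} : Finset V) = S := Finset.eq_of_subset_of_card_le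
          (by simp [Finset.subset_iff, ha, hb, hc'.2.2])
          (by rw [Finset.card_insert_of_notMem (by simp [hab, Ne.symm hc'.2.1]),
                Finset.card_pair (Ne.symm hc'.1)]; omega)
        refine ⟨c, {a}, {b}, hc'.2.2, by simpa using ha, by simpa using hb,
          by simpa using hc'.2.1, by simpa using hc'.1, by simpa using hab, fun y hy => ?_,
          Finset.singleton_nonempty a, Finset.singleton_nonempty b, by simp, by simp,
          by simpa using nab⟩
        simp only [← eS, Finset.mem_insert, Finset.mem_singleton] at hy ⊢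
        tauto

/-- A path through `k` vertices of a clique between two vertices complete to it. -/
theorem mid {K : Finset V} {k : ℕ} (hK : G.IsClique (K : Set V)) (hx : ∀ a ∈ K, G.Adj x a)
    (hy : ∀ a ∈ K, G.Adj y a) (hxy : x ≠ y) (h1 : 1 ≤ k) (hk : k ≤ K.card) :
    Pth G x y (k + 2) ((K : Set V) ∪ {x, y}) := by
  classical
  have hxK : x ∉ K := fun h => G.irrefl (hx x h)
  have hyK : y ∉ K := fun h => G.irrefl (hy y h)
  obtain ⟨a, a', ha, ha', P⟩ : ∃ a a', a ∈ K ∧ a' ∈ K ∧ Pth G a a' k (K : Set V) := by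
    rcases Nat.lt_or_ge k 2 with h | h
    · obtain ⟨a, ha⟩ := Finset.card_pos.1 (show 0 < K.card by omega)
      refine ⟨a, a, ha, ha, ?_⟩
      rw [show k = 1 by omega]
      exact (Pth.single a).mono (by simpa using ha)
    · obtain ⟨a, ha, a', ha', hne⟩ := Finset.one_lt_card.1 (show 1 < K.card by omega)
      exact ⟨a, a', ha, ha', clique_pth hK ha ha' hne h hk⟩
  have R := ((Pth.single x).append (hx a ha) P (by simpa using hxK)).snoc (hy a' ha').symm
    (by simp [hxy.symm, hyK])
  rw [show k + 2 = 1 + k + 1 by omega]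
  refine R.mono fun z hz => ?_
  simp only [Set.mem_union, Set.mem_singleton_iff, Set.mem_insert_iff, Finset.mem_coe] at hz ⊢
  tauto

/-- Two non-adjacent vertices complete to the clique `K` and not to `L` give a long cycle. -/
theorem cyc_of_two {K L : Finset V} {m : ℕ} (hm : 5 ≤ m) (hS : alpha G X ≤ 2) (hL : L ⊆ X)
    (hc : K.card + L.card + 1 = m) (hKn : K.Nonempty) (cK : G.IsClique (K : Set V))
    (cL : G.IsClique (L : Set V)) (hd : Disjoint K L) (hx : x ∈ X) (hy : y ∈ X) (hxy : x ≠ y)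
    (n : ¬G.Adj x y) (hxK : ∀ a ∈ K, G.Adj x a) (hyK : ∀ a ∈ K, G.Adj y a) (xL : x ∉ L)
    (yL : y ∉ L) (hbx : ∃ b ∈ L, ¬G.Adj x b) (hby : ∃ b ∈ L, ¬G.Adj y b) : HasCyc G m := by
  classical
  obtain ⟨b, hb, nxb⟩ := hbx
  obtain ⟨b', hb', nyb⟩ := hby
  have nx : ∀ c ∈ L, x ≠ c := fun c hc e => xL (e ▸ hc)
  have ny : ∀ c ∈ L, y ≠ c := fun c hc e => yL (e ▸ hc)
  have hyb : G.Adj y b := adj_of_two hS hx hy (hL hb) hxy (nx b hb) (ny b hb) n nxb
  have hxb : G.Adj x b' :=
    adj_of_two hS hy hx (hL hb') hxy.symm (ny b' hb') (nx b' hb') (fun e => n e.symm) nyb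
  have hbb : b ≠ b' := fun e => nyb (e ▸ hyb)
  have h2 : 2 ≤ L.card := Finset.one_lt_card.2 ⟨b, hb, b', hb', hbb⟩
  have hK0 := Finset.card_pos.2 hKn
  have key : ∀ k l, 1 ≤ k → k ≤ K.card → 2 ≤ l → l ≤ L.card → k + 2 + l = m → HasCyc G m := by
    intro k l k1 k2 l1 l2 e
    have P := (mid cK hxK hyK hxy k1 k2).append hyb (clique_pth cL hb hb' hbb l1 l2)
      (Set.disjoint_union_left.2 ⟨by exact_mod_cast hd, by simp [xL, yL]⟩)
    rw [e] at P
    exact P.cycle hxb.symm (by omega)
  rcases Nat.lt_or_ge K.card 2 with h | h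
  · exact key 1 (L.card - 1) le_rfl hK0 (by omega) (by omega) (by omega)
  · exact key (K.card - 1) L.card (by omega) (by omega) h2 le_rfl (by omega)

theorem a2Pin : A2Pin := by
  intro V G m q X hm hfree hX hq
  classical
  by_contra hlt
  obtain ⟨S, hSX, hSc⟩ := Finset.exists_subset_card_eq (show m ≤ X.card by omega)
  rcases ham_or_split S ((alpha_mono hSX).trans hX) (by omega) with ⟨a, b, P, hba⟩ | hsp
  · exact hfree (hSc ▸ P.cycle hba (by omega))
  obtain ⟨w, K, L, hw, hKS, hLS, hwK, hwL, hd, hcov, hKn, hLn, cK, cL, hno⟩ := hsp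
  have hKX : K ⊆ X := hKS.trans hSX
  have hLX : L ⊆ X := hLS.trans hSX
  have hcard : K.card + L.card + 1 = m := by
    rw [← hSc, ← Finset.card_union_of_disjoint hd,
      ← Finset.card_insert_of_notMem (show w ∉ K ∪ L by simp [hwK, hwL])]
    congr 1
    ext y
    constructor
    · intro hy
      simp only [Finset.mem_insert, Finset.mem_union] at hy
      rcases hy with rfl | h | h
      exacts [hw, hKS h, hLS h]
    · intro hy
      rcases hcov y hy with h | h | h <;> simp [h]
  have hK0 := Finset.card_pos.2 hKn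
  have hL0 := Finset.card_pos.2 hLn
  let out : V → Finset V → Prop := fun x P => ∃ a ∈ P, x ≠ a ∧ ¬G.Adj x a
  have one : ∀ x ∈ X, out x K → out x L → False := by
    rintro x hx ⟨a, ha, hxa, na⟩ ⟨b, hb, hxb, nb⟩
    exact hno a ha b hb (adj_of_two hX hx (hKX ha) (hLX hb) hxa hxb
      (fun e => Finset.disjoint_left.1 hd ha (e ▸ hb)) na nb)
  have full : ∀ x P, ¬out x P → x ∉ P → ∀ a ∈ P, G.Adj x a := by
    intro x P h hxP a ha
    by_contra hn
    exact h ⟨a, ha, fun e => hxP (e ▸ ha), hn⟩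
  have Kout : ∀ x ∈ K, out x L ∧ ¬out x K := fun x hx =>
    ⟨by obtain ⟨b, hb⟩ := hLn
        exact ⟨b, hb, fun e => Finset.disjoint_left.1 hd hx (e ▸ hb), hno x hx b hb⟩,
      fun ⟨a, ha, hne, hn⟩ => hn (cK hx ha hne)⟩
  have Lout : ∀ x ∈ L, out x K ∧ ¬out x L := fun x hx =>
    ⟨by obtain ⟨a, ha⟩ := hKn
        exact ⟨a, ha, fun e => Finset.disjoint_left.1 hd ha (e ▸ hx),
          fun e => hno a ha x hx e.symm⟩,
      fun ⟨a, ha, hne, hn⟩ => hn (cL hx ha hne)⟩
  let X1 := X.filter fun x => out x L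
  let X2 := X.filter fun x => out x K
  have c1 : G.IsClique (X1 : Set V) := by
    intro x hx y hy hxy
    simp only [X1, Finset.coe_filter, Set.mem_ofPred_eq] at hx hy
    by_contra n
    have xL : x ∉ L := fun h => (Lout x h).2 hx.2
    have yL : y ∉ L := fun h => (Lout y h).2 hy.2
    have hxo : ¬out x K := fun h => one x hx.1 h hx.2
    have hyo : ¬out y K := fun h => one y hy.1 h hy.2
    by_cases xK : x ∈ K
    · by_cases yK : y ∈ K
      · exact n (cK xK yK hxy)
      · exact n (full y K hyo yK x xK).symm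
    by_cases yK : y ∈ K
    · exact n (full x K hxo xK y yK)
    exact hfree (cyc_of_two hm hX hLX hcard hKn cK cL hd hx.1 hy.1 hxy n (full x K hxo xK)
      (full y K hyo yK) xL yL (hx.2.imp fun _ h => ⟨h.1, h.2.2⟩)
      (hy.2.imp fun _ h => ⟨h.1, h.2.2⟩))
  have c2 : G.IsClique (X2 : Set V) := by
    intro x hx y hy hxy
    simp only [X2, Finset.coe_filter, Set.mem_ofPred_eq] at hx hy
    by_contra n
    have xK : x ∉ K := fun h => (Kout x h).2 hx.2
    have yK : y ∉ K := fun h => (Kout y h).2 hy.2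
    have hxo : ¬out x L := fun h => one x hx.1 hx.2 h
    have hyo : ¬out y L := fun h => one y hy.1 hy.2 h
    by_cases xL : x ∈ L
    · by_cases yL : y ∈ L
      · exact n (cL xL yL hxy)
      · exact n (full y L hyo yL x xL).symm
    by_cases yL : y ∈ L
    · exact n (full x L hxo xL y yL)
    exact hfree (cyc_of_two hm hX hKX (by omega) hLn cL cK hd.symm hx.1 hy.1 hxy n
      (full x L hxo xL) (full y L hyo yL) xK yK (hx.2.imp fun _ h => ⟨h.1, h.2.2⟩)
      (hy.2.imp fun _ h => ⟨h.1, h.2.2⟩))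
  have key : ∀ x y : V, x ≠ y → (∀ a ∈ K, G.Adj x a) → (∀ a ∈ K, G.Adj y a) →
      (∀ a ∈ L, G.Adj x a) → (∀ a ∈ L, G.Adj y a) → False := by
    intro x y hxy xK yK xL yL
    have nxL : x ∉ L := fun h => G.irrefl (xL x h)
    have nyL : y ∉ L := fun h => G.irrefl (yL y h)
    have run : ∀ k l, 1 ≤ k → k ≤ K.card → 1 ≤ l → l ≤ L.card → k + l + 2 = m → False := by
      intro k l k1 k2 l1 l2 e
      obtain ⟨b, b', hb, hb', P2⟩ : ∃ b b', b ∈ L ∧ b' ∈ L ∧ Pth G b b' l (L : Set V) := by
        rcases Nat.lt_or_ge l 2 with h | h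
        · obtain ⟨b, hb⟩ := hLn
          refine ⟨b, b, hb, hb, ?_⟩
          rw [show l = 1 by omega]
          exact (Pth.single b).mono (by simpa using hb)
        · obtain ⟨b, hb, b', hb', hne⟩ := Finset.one_lt_card.1 (show 1 < L.card by omega)
          exact ⟨b, b', hb, hb', clique_pth cL hb hb' hne h l2⟩
      have P := (mid cK xK yK hxy k1 k2).append (yL b hb) P2
        (Set.disjoint_union_left.2 ⟨by exact_mod_cast hd, by simp [nxL, nyL]⟩)
      rw [show k + 2 + l = m by omega] at P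
      exact hfree (P.cycle (xL b' hb').symm (by omega))
    rcases Nat.lt_or_ge K.card 2 with h | h
    · exact run 1 (L.card - 1) le_rfl hK0 (by omega) (by omega) (by omega)
    · exact run (K.card - 1) L.card (by omega) (by omega) hL0 le_rfl (by omega)
  let X0 := X.filter fun x => ¬out x K ∧ ¬out x L
  have X0out : ∀ x ∈ X0, x ∉ K ∧ x ∉ L ∧ (∀ a ∈ K, G.Adj x a) ∧ (∀ a ∈ L, G.Adj x a) := by
    intro x hx
    obtain ⟨-, h1, h2⟩ := Finset.mem_filter.1 hx
    have xK : x ∉ K := fun h => h2 (Kout x h).1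
    have xL : x ∉ L := fun h => h1 (Lout x h).1
    exact ⟨xK, xL, full x K h1 xK, full x L h2 xL⟩
  have cov : X ⊆ X1 ∪ X2 ∪ X0 := fun x hx => by
    by_cases h1 : out x L
    · exact Finset.mem_union_left _ (Finset.mem_union_left _ (by simp [X1, hx, h1]))
    by_cases h2 : out x K
    · exact Finset.mem_union_left _ (Finset.mem_union_right _ (by simp [X2, hx, h2]))
    exact Finset.mem_union_right _ (by simp [X0, hx, h1, h2])
  have two : ∀ Y Z : Finset V, Y ⊆ X → Z ⊆ X → X ⊆ Y ∪ Z → G.IsClique (Y : Set V) →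
      G.IsClique (Z : Set V) → False := by
    intro Y Z hY hZ hc cY cZ
    have := hq Y hY cY
    have := hq Z hZ cZ
    have := Finset.card_le_card hc
    have := Finset.card_union_le Y Z
    omega
  rcases X0.eq_empty_or_nonempty with h0 | ⟨x0, hx0⟩
  · refine two X1 X2 (Finset.filter_subset _ _) (Finset.filter_subset _ _) ?_ c1 c2
    simpa [h0] using cov
  obtain ⟨x0K, x0L, fK, fL⟩ := X0out x0 hx0
  have uniq : ∀ z ∈ X0, z = x0 := fun z hz => by
    by_contra hne
    obtain ⟨-, -, zK, zL⟩ := X0out z hz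
    exact key z x0 hne zK fK zL fL
  have hx0X : x0 ∈ X := (Finset.mem_filter.1 hx0).1
  have cov' : ∀ z ∈ X, z = x0 ∨ z ∈ X1 ∨ z ∈ X2 := fun z hz => by
    rcases Finset.mem_union.1 (cov hz) with h | h
    · exact .inr (Finset.mem_union.1 h)
    · exact .inl (uniq z h)
  by_cases j1 : ∀ y ∈ X1, x0 ≠ y → G.Adj x0 y
  · refine two (insert x0 X1) X2 (Finset.insert_subset hx0X (Finset.filter_subset _ _))
      (Finset.filter_subset _ _) ?_ ?_ c2
    · intro z hz
      rcases cov' z hz with h | h | h <;> simp [h]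
    · rw [Finset.coe_insert]
      exact c1.insert j1
  by_cases j2 : ∀ y ∈ X2, x0 ≠ y → G.Adj x0 y
  · refine two X1 (insert x0 X2) (Finset.filter_subset _ _)
      (Finset.insert_subset hx0X (Finset.filter_subset _ _)) ?_ c1 ?_
    · intro z hz
      rcases cov' z hz with h | h | h <;> simp [h]
    · rw [Finset.coe_insert]
      exact c2.insert j2
  push Not at j1 j2
  obtain ⟨y1, hy1, h01, n1⟩ := j1
  obtain ⟨y2, hy2, h02, n2⟩ := j2
  obtain ⟨hy1X, hy1o⟩ := Finset.mem_filter.1 hy1
  obtain ⟨hy2X, hy2o⟩ := Finset.mem_filter.1 hy2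
  have y1K : y1 ∉ K := fun h => n1 (fK y1 h)
  have y1L : y1 ∉ L := fun h => n1 (fL y1 h)
  have y2K : y2 ∉ K := fun h => n2 (fK y2 h)
  have y2L : y2 ∉ L := fun h => n2 (fL y2 h)
  have a1 := full y1 K (fun h => one y1 hy1X h hy1o) y1K
  have a2 := full y2 L (fun h => one y2 hy2X hy2o h) y2L
  have h12 : y1 ≠ y2 := fun e => one y1 hy1X (e ▸ hy2o) hy1o
  have e12 : G.Adj y1 y2 := adj_of_two hX hx0X hy1X hy2X h01 h02 h12 n1 n2
  have run : ∀ k l, 1 ≤ k → k ≤ K.card → 1 ≤ l → l ≤ L.card → k + l + 3 = m → False := by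
    intro k l k1 k2 l1 l2 e
    have P1 := mid cK a1 fK (Ne.symm h01) k1 k2
    obtain ⟨b, hb, b', hb', P3⟩ :
        ∃ b ∈ L, ∃ b' ∈ L, Pth G b b' l (L : Set V) := by
      rcases Nat.lt_or_ge l 2 with h | h
      · obtain ⟨b, hb⟩ := hLn
        refine ⟨b, hb, b, hb, ?_⟩
        rw [show l = 1 by omega]
        exact (Pth.single b).mono (by simpa using hb)
      · obtain ⟨b, hb, b', hb', hne⟩ := Finset.one_lt_card.1 (show 1 < L.card by omega)
        exact ⟨b, hb, b', hb', clique_pth cL hb hb' hne h l2⟩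
    have P := (P1.append (fL b hb) P3 (Set.disjoint_union_left.2
      ⟨by exact_mod_cast hd, by simp [x0L, y1L]⟩)).snoc (a2 b' hb').symm
      (by simp [y2K, y2L, h12.symm, h02.symm])
    rw [show k + 2 + l + 1 = m by omega] at P
    exact hfree (P.cycle e12.symm (by omega))
  rcases Nat.lt_or_ge K.card 3 with h | h
  · exact run 1 (L.card - (3 - K.card)) le_rfl hK0 (by omega) (by omega) (by omega)
  · exact run (K.card - 2) L.card (by omega) (by omega) hL0 le_rfl (by omega)

end Vale.Agent.P048.Full
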