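import Vale.Agent.P048.Full.Base

/-! # The theorem from the blocks -/

namespace Vale.Agent.P048.Full

open Finset

variable {V : Type} {G : SimpleGraph V} {m A : ℕ}

theorem alpha_outside [Fintype V] {X : Finset V} {x : V} {b : ℕ} (hx : x ∈ X)
    (hb : alpha G X ≤ b) : ∃ U : Finset V, U ⊆ X ∧ alpha G U + 1 ≤ b ∧
      X.card ≤ (nb G X x).card + 1 + U.card := by
  classical
  refine ⟨X.filter fun y => y ≠ x ∧ ¬G.Adj x y, Finset.filter_subset _ _, ?_, ?_⟩
  · have h := alpha_add_le (G := G) (W := X) (X := {x})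
      (Y := X.filter fun y => y ≠ x ∧ ¬G.Adj x y) (Finset.singleton_subset_iff.2 hx)
      (Finset.filter_subset _ _) (by simp) (fun p hp r hr => by
        rw [Finset.mem_singleton] at hp
        rw [Finset.mem_filter] at hr
        exact hp ▸ hr.2.2)
    have := alpha_pos (G := G) (Finset.mem_singleton_self x)
    omega
  · calc X.card ≤ (insert x (nb G X x) ∪ X.filter fun y => y ≠ x ∧ ¬G.Adj x y).card :=
          Finset.card_le_card fun y hy => by
            simp only [Finset.mem_union, Finset.mem_insert, mem_nb, Finset.mem_filter, hy,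
              true_and]
            tauto
      _ ≤ _ := le_trans (Finset.card_union_le _ _) (by
          have := Finset.card_insert_le x (nb G X x)
          omega)

/-- A largest clique inside `X`. -/
theorem exists_max_clique (X : Finset V) : ∃ Q ⊆ X, G.IsClique (Q : Set V) ∧
    CliqueLE G X Q.card := by
  classical
  obtain ⟨Q, hQ, hmax⟩ := (X.powerset.filter fun K : Finset V => G.IsClique (K : Set V))
    |>.exists_max_image Finset.card ⟨∅, by simp⟩
  rw [Finset.mem_filter, Finset.mem_powerset] at hQ
  exact ⟨Q, hQ.1, hQ.2, fun K hK hc =>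
    hmax K (Finset.mem_filter.2 ⟨Finset.mem_powerset.2 hK, hc⟩)⟩

theorem cliqueLE_of_free (hm : 3 ≤ m) (h : ¬HasCyc G m) (X : Finset V) :
    CliqueLE G X (m - 1) := fun K _ hc => by
  by_contra hk
  exact h (clique_cycle hc hm (by omega))

/-- Sets of small independence number and bounded clique number are small. -/
theorem small_part [Fintype V] (p2 : A2Pin) (pC : ClashPin) (hm : 9 ≤ m)
    (hM : ∀ (X : Finset V) (b : ℕ), 2 ≤ b → b ≤ (m - 1) / 2 → alpha G X ≤ b →
      CliqueLE G X ((m - 1) / 2) → X.card ≤ (m - 1) * (b - 1))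
    (hfree : ¬HasCyc G m) : ∀ (b : ℕ) (X : Finset V) (q : ℕ), 2 ≤ b → b ≤ (m - 1) / 2 →
      (m - 1) / 2 + 1 ≤ q → q + 1 ≤ m → alpha G X ≤ b → CliqueLE G X q →
      X.card + m ≤ (m - 1) * (b - 1) + 2 * q + 1 := by
  classical
  intro b
  induction b using Nat.strong_induction_on with
  | _ b ih =>
  intro X q hb2 hbh hq1 hq2 hα hω
  by_cases hb : b = 2
  · subst hb
    have := p2 V G m q X (by omega) hfree hα hω
    omega
  obtain ⟨Q, hQX, hQ, hmax⟩ := exists_max_clique (G := G) X
  have hqq := hω Q hQX hQ
  by_cases hsmall : Q.card ≤ (m - 1) / 2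
  · have := hM X b hb2 hbh hα
      (fun K hK hc => (hmax K hK hc).trans hsmall)
    omega
  by_contra hbig
  obtain ⟨c, rfl⟩ : ∃ c, b = c + 1 := ⟨b - 1, by omega⟩
  refine pC V G m (c + 1) Q.card X Q ⟨hm, hfree, by omega, by omega, by omega, hα, hQX, hQ, rfl,
    hmax, fun x hx => ?_, fun R U₁ U₂ hcov h1 h2 hR a1 a2 => ?_⟩
  · obtain ⟨U, hU, hUa, hUc⟩ := alpha_outside (b := c + 1) hx hα
    have := ih c (Nat.lt_succ_self c) U q (by omega) (by omega) hq1 hq2 (by omega) (hω.mono hU)
    obtain ⟨d, rfl⟩ : ∃ d, c = d + 1 := ⟨c - 1, by omega⟩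
    simp only [Nat.add_sub_cancel, Nat.mul_add, Nat.mul_one] at *
    omega
  · by_contra hsum
    have e1 := ih _ (show alpha G U₁ < c + 1 by omega) U₁ Q.card a1 (by omega) (by omega)
      (by omega) le_rfl (hmax.mono h1)
    have e2 := ih _ (show alpha G U₂ < c + 1 by omega) U₂ Q.card a2 (by omega) (by omega)
      (by omega) le_rfl (hmax.mono h2)
    have hc : X.card ≤ R.card + U₁.card + U₂.card := by
      calc X.card ≤ (R ∪ U₁ ∪ U₂).card := Finset.card_le_card fun x hx => by
            rcases hcov x hx with h | h | h <;> simp [h]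
        _ ≤ _ := by
            have := Finset.card_union_le (R ∪ U₁) U₂
            have := Finset.card_union_le R U₁
            omega
    have e3 : (m - 1) * (alpha G U₁ - 1) + (m - 1) * (alpha G U₂ - 1) ≤ (m - 1) * (c - 1) := by
      rw [← Nat.mul_add]
      exact Nat.mul_le_mul_left _ (by omega)
    have e4 : (m - 1) * (c - 1) + (m - 1) = (m - 1) * c := by
      rw [← Nat.mul_succ, show (c - 1).succ = c by omega]
    simp only [Nat.add_sub_cancel] at *
    omega

/-- A smallest counterexample has no large clique. -/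
theorem Bad.no_big_clique_of [Fintype V] (p2 : A2Pin) (pC : ClashPin) (h : Bad G m A)
    (hm : 9 ≤ m) (hM : ∀ (X : Finset V) (b : ℕ), 2 ≤ b → b ≤ (m - 1) / 2 → alpha G X ≤ b →
      CliqueLE G X ((m - 1) / 2) → X.card ≤ (m - 1) * (b - 1)) :
    CliqueLE G Finset.univ ((m - 1) / 2) := by
  classical
  intro K hK hc
  by_contra hbig
  obtain ⟨Q, hQX, hQ, hmax⟩ := exists_max_clique (G := G) (Finset.univ : Finset V)
  have hKQ := hmax K hK hc
  have hqm := cliqueLE_of_free (by omega) h.free _ Q hQX hQ
  have hA2 := h.hA2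
  have hAm := h.hAm
  have hcard := h.big
  obtain ⟨B, rfl⟩ : ∃ B, A = B + 1 := ⟨A - 1, by omega⟩
  refine pC V G m (B + 1) Q.card Finset.univ Q ⟨hm, h.free, by omega, by omega, by omega, h.hA,
    hQX, hQ, rfl, hmax, fun x hx => ?_, fun R U₁ U₂ hcov _ _ hR a1 a2 => ?_⟩
  · obtain ⟨U, -, hUa, hUc⟩ := alpha_outside (b := B + 1) hx h.hA
    have := (h.small U (by omega)).trans (Nat.mul_le_mul_left (m - 1) (show alpha G U ≤ B by omega))
    rw [Finset.card_univ] at hUc
    rw [Nat.mul_add, Nat.mul_one] at hcard
    omega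
  · by_contra hsum
    wlog hle : alpha G U₂ ≤ alpha G U₁ generalizing U₁ U₂
    · exact this U₂ U₁ (fun x hx => by rcases hcov x hx with e | e | e <;> simp [e])
        (Finset.subset_univ _) (Finset.subset_univ _) a2 a1 (by omega) (by omega)
    have e1 := h.small U₁ (by omega)
    have e2 := small_part p2 pC hm hM h.free _ U₂ Q.card a2 (by omega) (by omega) (by omega)
      le_rfl (hmax.mono (Finset.subset_univ _))
    have hc : Fintype.card V ≤ R.card + U₁.card + U₂.card := by
      calc Fintype.card V = (Finset.univ : Finset V).card := Finset.card_univ.symm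
        _ ≤ (R ∪ U₁ ∪ U₂).card := Finset.card_le_card fun x hx => by
            rcases hcov x hx with e | e | e <;> simp [e]
        _ ≤ _ := by
            have := Finset.card_union_le (R ∪ U₁) U₂
            have := Finset.card_union_le R U₁
            omega
    have e3 : (m - 1) * alpha G U₁ + (m - 1) * (alpha G U₂ - 1) ≤ (m - 1) * B := by
      rw [← Nat.mul_add]
      exact Nat.mul_le_mul_left _ (by omega)
    rw [Nat.mul_add, Nat.mul_one] at hcard
    omega

/-- A smallest counterexample on cycles longer than ten has no large clique. -/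
theorem Bad.no_big_clique [Fintype V] (p2 : A2Pin) (pM : MPin) (pC : ClashPin) (h : Bad G m A)
    (hm : 11 ≤ m) : CliqueLE G Finset.univ ((m - 1) / 2) :=
  h.no_big_clique_of p2 pC (by omega) fun X b h2 hb => pM V G m hm h.free X b h2 (by omega)

/-- There is no counterexample on cycles longer than ten, given the blocks. -/
theorem Bad.false_large [Fintype V] (p2 : A2Pin) (pM : MPin) (pC : ClashPin) (pCol : ColourPin)
    (pF : FinalPin) (h : Bad G m A) (hm : 11 ≤ m) : False := by
  have hω := h.no_big_clique p2 pM pC hm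
  have hM := pM V G m hm h.free
  exact pF V G m A h hm hω hM (pCol V G m A h hm hω hM)

/-- There is no counterexample, given the blocks. -/
theorem Bad.false [Fintype V] (p2 : A2Pin) (pM : MPin) (pC : ClashPin) (pCol : ColourPin)
    (pF : FinalPin) (pS : SmallPin) (h : Bad G m A) : False := by
  by_cases hm : m ≤ 10
  · exact pS V G m A h hm
  · exact h.false_large p2 pM pC pCol pF (by omega)

/-- The upper bound for one cycle length, when it has no counterexample. -/
theorem card_le_of (m : ℕ) (hbad : ∀ (V : Type) [Fintype V] (G : SimpleGraph V) (A : ℕ),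
    Bad G m A → False) : ∀ (A : ℕ) (V : Type) [Fintype V] (G : SimpleGraph V), 4 ≤ m →
    A + 1 ≤ m → ¬HasCyc G m → alpha G Finset.univ ≤ A → Fintype.card V ≤ (m - 1) * A := by
  classical
  intro A
  induction A using Nat.strong_induction_on with
  | _ A ih =>
  intro V _ G hm hAm hfree hA
  by_contra hbig
  have hne : (Finset.univ : Finset V).Nonempty := by
    rw [Finset.univ_nonempty_iff]
    exact Fintype.card_pos_iff.1 (by omega)
  obtain ⟨v, hv⟩ := hne
  have hpos := alpha_pos (G := G) hv
  by_cases h1 : A = 1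
  · subst h1
    exact hfree (clique_cycle (isClique_of_alpha_le_one hA) (by omega)
      (by rw [Finset.card_univ]; omega))
  refine hbad V G A
    ⟨hm, by omega, hAm, hfree, hA, fun U hU => ?_, by omega⟩
  have := ih (alpha G U) hU U (G.induce (U : Set V)) hm (by omega) ?_ ?_
  · simpa using this
  · rintro ⟨u, w, hw, hl⟩
    let f := (SimpleGraph.Embedding.induce (G := G) (U : Set V)).toHom
    exact hfree ⟨f u, w.map f, hw.map Subtype.val_injective, by simpa using hl⟩
  · obtain ⟨S, -, hS, hc⟩ := exists_alpha (G := G.induce (U : Set V)) Finset.univ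
    have := le_alpha (G := G) (W := U) (S := S.map (Function.Embedding.subtype _))
      (fun z hz => by
        obtain ⟨s, -, rfl⟩ := Finset.mem_map.1 hz
        exact s.2)
      (fun a ha b hb => by
        obtain ⟨s, hs, rfl⟩ := Finset.mem_map.1 ha
        obtain ⟨s', hs', rfl⟩ := Finset.mem_map.1 hb
        exact hS s hs s' hs')
    rw [Finset.card_map, hc] at this
    exact this

/-- The upper bound, given the blocks. -/
theorem card_le (p2 : A2Pin) (pM : MPin) (pC : ClashPin) (pCol : ColourPin) (pF : FinalPin)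
    (pS : SmallPin) (A : ℕ) (V : Type) [Fintype V] (G : SimpleGraph V) (m : ℕ) (hm : 4 ≤ m)
    (hAm : A + 1 ≤ m) (hfree : ¬HasCyc G m) (hA : alpha G Finset.univ ≤ A) :
    Fintype.card V ≤ (m - 1) * A :=
  card_le_of m (fun _ _ _ _ h => h.false p2 pM pC pCol pF pS) A V G hm hAm hfree hA

end Vale.Agent.P048.Full
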