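import Vale.Agent.P048.Paths

/-! # Cycle-complete Ramsey numbers for all `m ≥ n`: common definitions and the list of blocks

`Bad` is a smallest counterexample. The blocks are stated as propositions; `Assemble` deduces the
theorem from them. -/

namespace Vale.Agent.P048.Full

open Finset

variable {V : Type}

/-- No two members of `S` are adjacent. -/
def Indep (G : SimpleGraph V) (S : Finset V) : Prop := ∀ a ∈ S, ∀ b ∈ S, ¬G.Adj a b

open Classical in
/-- The independence number inside `W`. -/
noncomputable def alpha (G : SimpleGraph V) (W : Finset V) : ℕ :=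
  (W.powerset.filter (Indep G)).sup Finset.card

/-- Every clique inside `X` has at most `q` vertices. -/
def CliqueLE (G : SimpleGraph V) (X : Finset V) (q : ℕ) : Prop :=
  ∀ K ⊆ X, G.IsClique (K : Set V) → K.card ≤ q

open Classical in
/-- The neighbours of `x` inside `X`. -/
noncomputable def nb (G : SimpleGraph V) (X : Finset V) (x : V) : Finset V :=
  X.filter (G.Adj x)

variable {G : SimpleGraph V} {X Y W : Finset V} {x a b : V} {m n q : ℕ}

theorem mem_nb {y : V} : y ∈ nb G X x ↔ y ∈ X ∧ G.Adj x y := by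
  classical simp [nb]

theorem le_alpha {S : Finset V} (h : S ⊆ W) (hS : Indep G S) : S.card ≤ alpha G W := by
  classical
  exact Finset.le_sup (f := Finset.card) (Finset.mem_filter.2 ⟨Finset.mem_powerset.2 h, hS⟩)

theorem exists_alpha (W : Finset V) : ∃ S, S ⊆ W ∧ Indep G S ∧ S.card = alpha G W := by
  classical
  have hne : (W.powerset.filter (Indep G)).Nonempty :=
    ⟨∅, Finset.mem_filter.2 ⟨Finset.empty_mem_powerset W, by simp [Indep]⟩⟩
  obtain ⟨S, hS, h⟩ := Finset.exists_mem_eq_sup _ hne Finset.card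
  rw [Finset.mem_filter, Finset.mem_powerset] at hS
  exact ⟨S, hS.1, hS.2, h.symm⟩

theorem alpha_mono (h : X ⊆ Y) : alpha G X ≤ alpha G Y := by
  obtain ⟨S, h1, h2, h3⟩ := exists_alpha (G := G) X
  exact h3 ▸ le_alpha (h1.trans h) h2

theorem alpha_le_card (X : Finset V) : alpha G X ≤ X.card := by
  obtain ⟨S, h1, -, h3⟩ := exists_alpha (G := G) X
  exact h3 ▸ Finset.card_le_card h1

theorem Indep.singleton (x : V) : Indep G {x} := by
  intro a ha b hb
  rw [Finset.mem_singleton] at ha hb
  subst ha hb
  exact G.irrefl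

theorem Indep.pair [DecidableEq V] (h : ¬G.Adj a b) : Indep G {a, b} := by
  intro p hp r hr
  simp only [Finset.mem_insert, Finset.mem_singleton] at hp hr
  rcases hp with rfl | rfl <;> rcases hr with rfl | rfl
  · exact G.irrefl
  · exact h
  · exact fun e => h e.symm
  · exact G.irrefl

theorem Indep.union [DecidableEq V] {S S' : Finset V} (h : Indep G S) (h' : Indep G S')
    (hx : ∀ a ∈ S, ∀ b ∈ S', ¬G.Adj a b) : Indep G (S ∪ S') := by
  intro a ha b hb
  rcases Finset.mem_union.1 ha with ha | ha <;> rcases Finset.mem_union.1 hb with hb | hb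
  · exact h a ha b hb
  · exact hx a ha b hb
  · exact fun e => hx b hb a ha e.symm
  · exact h' a ha b hb

theorem alpha_pos (hx : x ∈ X) : 1 ≤ alpha G X := by
  simpa using le_alpha (G := G) (Finset.singleton_subset_iff.2 hx) (Indep.singleton x)

theorem two_le_alpha (ha : a ∈ X) (hb : b ∈ X) (hne : a ≠ b) (h : ¬G.Adj a b) :
    2 ≤ alpha G X := by
  classical
  simpa [hne] using le_alpha (G := G) (W := X) (S := {a, b})
    (Finset.insert_subset ha (Finset.singleton_subset_iff.2 hb)) (Indep.pair h)

/-- A set of independence number at most one is a clique. -/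
theorem isClique_of_alpha_le_one (h : alpha G X ≤ 1) : G.IsClique (X : Set V) := by
  intro a ha b hb hne
  by_contra hn
  have := two_le_alpha ha hb hne hn
  omega

/-- A set with more vertices than its clique bound has two non-adjacent vertices. -/
theorem two_le_alpha_of_card (hc : CliqueLE G X q) (hW : W ⊆ X) (h : q < W.card) :
    2 ≤ alpha G W := by
  by_contra h2
  have := hc W hW (isClique_of_alpha_le_one (by omega))
  omega

/-- Independence numbers add over two sets without edges between them. -/
theorem alpha_add_le (hX : X ⊆ W) (hY : Y ⊆ W) (hd : Disjoint X Y)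
    (hXY : ∀ a ∈ X, ∀ b ∈ Y, ¬G.Adj a b) : alpha G X + alpha G Y ≤ alpha G W := by
  classical
  obtain ⟨S, s1, s2, s3⟩ := exists_alpha (G := G) X
  obtain ⟨S', t1, t2, t3⟩ := exists_alpha (G := G) Y
  have := le_alpha (G := G) (W := W) (Finset.union_subset (s1.trans hX) (t1.trans hY))
    (s2.union t2 fun a ha b hb => hXY a (s1 ha) b (t1 hb))
  rw [Finset.card_union_of_disjoint (hd.mono s1 t1)] at this
  omega

theorem CliqueLE.mono (h : CliqueLE G X q) (hY : Y ⊆ X) : CliqueLE G Y q :=
  fun K hK hc => h K (hK.trans hY) hc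

/-- Inside a clique there is a path of every admissible order between two of its vertices. -/
theorem clique_pth {K : Finset V} (hK : G.IsClique (K : Set V)) (ha : a ∈ K) (hb : b ∈ K)
    (hab : a ≠ b) (h2 : 2 ≤ n) (hn : n ≤ K.card) : Pth G a b n (K : Set V) := by
  classical
  induction n, h2 using Nat.le_induction generalizing a K with
  | base =>
    refine ((Pth.single a).snoc (hK ha hb hab) (by simpa using hab.symm)).mono ?_
    exact Set.union_subset (Set.singleton_subset_iff.2 ha) (Set.singleton_subset_iff.2 hb)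
  | succ j hj ih =>
    obtain ⟨c, hc⟩ : ((K.erase a).erase b).Nonempty := by
      rw [← Finset.card_pos, Finset.card_erase_of_mem (Finset.mem_erase.2 ⟨hab.symm, hb⟩),
        Finset.card_erase_of_mem ha]
      omega
    simp only [Finset.mem_erase] at hc
    have P := ih (K := K.erase a) (a := c) (hK.subset (by simp [Set.diff_subset]))
      (Finset.mem_erase.2 ⟨hc.2.1, hc.2.2⟩) (Finset.mem_erase.2 ⟨hab.symm, hb⟩) hc.1
      (by rw [Finset.card_erase_of_mem ha]; omega)
    rw [Nat.add_comm j 1]
    refine ((Pth.single a).append (hK ha hc.2.2 (Ne.symm hc.2.1)) P ?_).mono ?_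
    · simp
    · exact Set.union_subset (Set.singleton_subset_iff.2 ha) (by simp [Set.diff_subset])

/-- A clique contains cycles of every order up to its own. -/
theorem clique_cycle {K : Finset V} (hK : G.IsClique (K : Set V)) (h3 : 3 ≤ n)
    (hn : n ≤ K.card) : HasCyc G n := by
  obtain ⟨a, ha, b, hb, hab⟩ := Finset.one_lt_card.1 (show 1 < K.card by omega)
  exact (clique_pth hK ha hb hab (by omega) hn).cycle (hK hb ha hab.symm) h3

/-! ## The blocks -/

/-- A hypothetical smallest counterexample. -/
structure Bad [Fintype V] (G : SimpleGraph V) (m A : ℕ) : Prop where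
  hm : 4 ≤ m
  hA2 : 2 ≤ A
  hAm : A + 1 ≤ m
  free : ¬HasCyc G m
  hA : alpha G Finset.univ ≤ A
  small : ∀ U : Finset V, alpha G U < A → U.card ≤ (m - 1) * alpha G U
  big : (m - 1) * A < Fintype.card V

/-- Sets with small independence number and no clique above half of `m` are small. -/
def MBound (G : SimpleGraph V) (m : ℕ) : Prop :=
  ∀ (X : Finset V) (b : ℕ), 2 ≤ b → b ≤ (m - 1) / 2 + 2 → alpha G X ≤ b →
    CliqueLE G X ((m - 1) / 2) → X.card ≤ (m - 1) * (b - 1)

/-- The situation in which a large clique is refuted: `Q` is a largest clique of `X`, of more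
than `(m - 1) / 2` vertices, degrees are large and no small set separates. -/
structure Clash (G : SimpleGraph V) (m a q : ℕ) (X Q : Finset V) : Prop where
  hm : 9 ≤ m
  free : ¬HasCyc G m
  hq1 : (m - 1) / 2 + 1 ≤ q
  hq2 : q + 1 ≤ m
  ha : a + 1 ≤ m
  hX : alpha G X ≤ a
  hQX : Q ⊆ X
  hQ : G.IsClique (Q : Set V)
  hQc : Q.card = q
  hω : CliqueLE G X q
  deg : ∀ x ∈ X, m ≤ (nb G X x).card + 1
  sep : ∀ R U₁ U₂ : Finset V, (∀ x ∈ X, x ∈ R ∨ x ∈ U₁ ∨ x ∈ U₂) → U₁ ⊆ X → U₂ ⊆ X →
    R.card + 2 * q + 2 ≤ 2 * m → 2 ≤ alpha G U₁ → 2 ≤ alpha G U₂ →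
    a < alpha G U₁ + alpha G U₂

/-- Block A2: independence number two. -/
def A2Pin : Prop :=
  ∀ (V : Type) (G : SimpleGraph V) (m q : ℕ) (X : Finset V), 5 ≤ m → ¬HasCyc G m →
    alpha G X ≤ 2 → CliqueLE G X q → X.card ≤ max (m - 1) (2 * q)

/-- Block M: independence number at most about half of `m`. -/
def MPin : Prop :=
  ∀ (V : Type) (G : SimpleGraph V) (m : ℕ), 11 ≤ m → ¬HasCyc G m → MBound G m

/-- Block Clash: no large clique. -/
def ClashPin : Prop :=
  ∀ (V : Type) (G : SimpleGraph V) (m a q : ℕ) (X Q : Finset V), Clash G m a q X Q → False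

/-- Block Colour: without large cliques the radius exceeds half of `m`. -/
def ColourPin : Prop :=
  ∀ (V : Type) [Fintype V] (G : SimpleGraph V) (m A : ℕ), Bad G m A → 11 ≤ m →
    CliqueLE G Finset.univ ((m - 1) / 2) → MBound G m → ∀ v : V,
    ∃ k : V, ∀ w : G.Walk v k, (m - 1) / 2 < w.length

/-- Block Final: the ball argument. -/
def FinalPin : Prop :=
  ∀ (V : Type) [Fintype V] (G : SimpleGraph V) (m A : ℕ), Bad G m A → 11 ≤ m →
    CliqueLE G Finset.univ ((m - 1) / 2) → MBound G m →
    (∀ v : V, ∃ k : V, ∀ w : G.Walk v k, (m - 1) / 2 < w.length) → False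

/-- Block Small: short cycles. -/
def SmallPin : Prop :=
  ∀ (V : Type) [Fintype V] (G : SimpleGraph V) (m A : ℕ), Bad G m A → m ≤ 10 → False

end Vale.Agent.P048.Full
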