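import Vale.Agent.P048.Mixed

/-! # The degenerate case, given a bound for the detour -/

namespace Vale.Agent.P048.Full

open Finset

variable {V : Type*} {G : SimpleGraph V}

/-- A shortest route from `C` to a layer at most `i` avoiding `p`. -/
theorem exists_route_min (T : Lay G) {i : ℕ} {p : V} (hp : p ≠ T.root)
    (hcut : ∀ X : Set V, X.Nonempty → p ∉ X → (∃ w, w ≠ p ∧ w ∉ X) →
      ∃ a ∈ X, ∃ b, b ∉ X ∧ b ≠ p ∧ G.Adj a b)
    {C : Set V} (hC : C.Nonempty) (hCd : ∀ z ∈ C, T.d z = i + 1) (hpi : T.d p = i) :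
    ∃ (n : ℕ) (f : ℕ → V), 1 ≤ n ∧ f 0 ∈ C ∧ (∀ t, t < n → G.Adj (f t) (f (t + 1))) ∧
      (∀ t, t < n → i + 1 ≤ T.d (f t)) ∧ T.d (f n) = i ∧ f n ≠ p ∧
      (∀ t, 1 ≤ t → t < n → f t ∉ C) ∧
      (∀ s t, s < t → t ≤ n → f s ≠ f t) ∧ (∀ (t : ℕ) (g : ℕ → V), t < n → g 0 ∈ C →
        (∀ q, q < t → G.Adj (g q) (g (q + 1))) → (∀ q, q ≤ t → g q ≠ p) → i + 1 ≤ T.d (g t)) := by
  classical
  let Good := fun (n : ℕ) (f : ℕ → V) => f 0 ∈ C ∧ (∀ t, t < n → G.Adj (f t) (f (t + 1))) ∧
    (∀ t, t ≤ n → f t ≠ p)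
  have hex : ∃ n, ∃ f, Good n f ∧ T.d (f n) ≤ i := by
    by_contra h
    let X : Set V := {x | ∃ n f, Good n f ∧ f n = x}
    have h0 : X.Nonempty := by
      obtain ⟨z, hz⟩ := hC
      exact ⟨z, 0, fun _ => z, ⟨hz, fun t ht => absurd ht (by omega),
        fun _ _ e => by have := hCd z hz; simp only at e; rw [e, hpi] at this; omega⟩, rfl⟩
    have hp' : p ∉ X := fun ⟨n, f, hf, he⟩ => hf.2.2 n le_rfl he
    have hr' : T.root ∉ X := fun ⟨n, f, hf, he⟩ =>
      h ⟨n, f, hf, by rw [he, T.d_root]; omega⟩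
    obtain ⟨a, ⟨n, f, hf, rfl⟩, b, hb, hbp, hab⟩ := hcut X h0 hp' ⟨T.root, hp.symm, hr'⟩
    refine hb ⟨n + 1, fun t => if t ≤ n then f t else b, ⟨?_, ?_, ?_⟩, by simp⟩
    · simpa using hf.1
    · intro t ht
      rcases lt_or_eq_of_le (Nat.lt_succ_iff.1 ht) with h1 | h1
      · simpa [h1.le, Nat.succ_le_of_lt h1] using hf.2.1 t h1
      · subst h1
        simpa using hab
    · intro t _
      by_cases h1 : t ≤ n
      · simpa [h1] using hf.2.2 t h1
      · simpa [h1] using hbp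
  let n := Nat.find hex
  obtain ⟨f, hf, hfn⟩ : ∃ f, Good n f ∧ T.d (f n) ≤ i := Nat.find_spec hex
  have hn : 1 ≤ n := by
    by_contra h
    have := hCd _ hf.1
    have h0 : n = 0 := by omega
    rw [h0] at hfn
    omega
  have high : ∀ t, t < n → i + 1 ≤ T.d (f t) := fun t ht => by
    by_contra h
    exact Nat.find_min hex ht
      ⟨f, ⟨hf.1, fun q hq => hf.2.1 q (hq.trans ht), fun q hq => hf.2.2 q (hq.trans ht.le)⟩,
        by omega⟩
  have chord : ∀ s t, s + 1 < t → t ≤ n → ¬G.Adj (f s) (f t) := fun s t hst ht hadj => by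
    refine Nat.find_min hex (show n - (t - s - 1) < n by omega)
      ⟨fun q => if q ≤ s then f q else f (q + (t - s - 1)), ⟨by simpa using hf.1, ?_, ?_⟩, ?_⟩
    · intro q hq
      rcases lt_trichotomy q s with h1 | h1 | h1
      · simpa [h1.le, Nat.succ_le_of_lt h1] using hf.2.1 q (by omega)
      · subst h1
        simpa [show q + 1 + (t - q - 1) = t by omega] using hadj
      · simpa [show ¬q ≤ s by omega, show ¬q + 1 ≤ s by omega,
          show q + 1 + (t - s - 1) = q + (t - s - 1) + 1 by omega]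
          using hf.2.1 (q + (t - s - 1)) (by omega)
    · intro q hq
      by_cases h1 : q ≤ s
      · simpa [h1] using hf.2.2 q (by omega)
      · simpa [h1] using hf.2.2 (q + (t - s - 1)) (by omega)
    · simpa [show ¬n - (t - s - 1) ≤ s by omega, show n - (t - s - 1) + (t - s - 1) = n by omega]
        using hfn
  have hmin : ∀ (t : ℕ) (g : ℕ → V), t < n → g 0 ∈ C →
      (∀ q, q < t → G.Adj (g q) (g (q + 1))) → (∀ q, q ≤ t → g q ≠ p) → i + 1 ≤ T.d (g t) :=
    fun t g ht g1 g2 g3 => by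
      by_contra hc
      exact Nat.find_min hex ht ⟨g, ⟨g1, g2, g3⟩, by omega⟩
  refine ⟨n, f, hn, hf.1, hf.2.1, high, ?_, hf.2.2 n le_rfl, ?_, ?_, hmin⟩
  · have := high (n - 1) (by omega)
    have := T.adj_d _ _ (hf.2.1 (n - 1) (by omega))
    rw [show n - 1 + 1 = n by omega] at this
    omega
  · intro t h1 h2 h3
    exact Nat.find_min hex (show n - t < n by omega) ⟨fun q => f (q + t),
      ⟨by simpa using h3, fun q hq => by
        simpa [show q + 1 + t = q + t + 1 by omega] using hf.2.1 (q + t) (by omega),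
        fun q hq => hf.2.2 (q + t) (by omega)⟩,
      by simpa [show n - t + t = n by omega] using hfn⟩
  · intro s t hst ht he
    rcases lt_or_eq_of_le ht with h1 | h1
    · exact chord s (t + 1) (by omega) h1 (he ▸ hf.2.1 t h1)
    · have := high s (by omega)
      rw [he, h1] at this
      omega

variable {T : Lay G} {i k r m : ℕ} {F : Cfg T i k r}

/-- The degenerate case. -/
theorem cfg_extend (hi : 1 ≤ i) (hsum : m ≤ k + r + 1)
    (hD : 2 ≤ k → 2 * T.dl (F.u 1) (F.u k) ≤ r + 1) (hdeg : F.c r = F.u k)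
    (hcut : ∀ p : V, ∀ X : Set V, X.Nonempty → p ∉ X → (∃ w, w ≠ p ∧ w ∉ X) →
      ∃ a ∈ X, ∃ b, b ∉ X ∧ b ≠ p ∧ G.Adj a b)
    (hroute : ∀ (n : ℕ) (C : Set V), 1 ≤ n → C.Nonempty → (∀ z ∈ C, T.d z = i + 1) →
      (∀ (t : ℕ) (g : ℕ → V), t < n → g 0 ∈ C → (∀ q, q < t → G.Adj (g q) (g (q + 1))) →
        (∀ q, q ≤ t → g q ≠ F.u k) → i + 1 ≤ T.d (g t)) →
      n + 2 * i + 1 ≤ m) : HasCyc G m := by
  classical
  have hp : T.d (F.u k) = i := F.hu k F.hk le_rfl
  have hr := F.hr
  obtain ⟨C, hC, hCp, hCdeg⟩ := T.sib (F.u k) r F.y F.hr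
    (fun l h1 h2 => ⟨by rw [F.hy l h1 h2, hp],
      T.inj _ _ (by rw [show T.par (F.y l) = F.c l from rfl, F.dc h1 h2, hp]) <| le_antisymm
        (F.c_le_top h1 h2) (hdeg ▸ F.cKle h1 h2 le_rfl)⟩)
    (fun l h1 h2 => ⟨F.yadj l h1 h2, F.yK l (l + 1) h1 (by omega) h2⟩)
  have hCd : ∀ z ∈ C, T.d z = i + 1 := fun z hz => hp ▸ (hCp z hz).1
  obtain ⟨n, f, hn, hf0, hfadj, hhigh, hfd, hfp, hfC, hfinj, hmin⟩ :=
    exists_route_min T (p := F.u k) (fun h => by rw [h, T.d_root] at hp; omega) (hcut _)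
      (C := (C : Set V)) hC (fun z hz => hCd z hz) hp
  have hshort : n + 2 * i + 1 ≤ m := hroute n C hn hC hCd hmin
  -- flexible lower parts
  have grow : ∀ q, 1 ≤ q → q ≤ r → ∃ a, Pth G a (f 0) q (C : Set V) := by
    intro q h1
    induction q, h1 using Nat.le_induction with
    | base => exact fun _ => ⟨f 0, (Pth.single _).mono (by simpa using hf0)⟩
    | succ q hq ih =>
      intro hle
      obtain ⟨a, w, hw1, hw2, hw3⟩ := ih (by omega)
      obtain ⟨W, hWC, hWc, hWa⟩ := hCdeg a (hw3 a w.start_mem_support)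
      obtain ⟨z, hzW, hz⟩ : ∃ z ∈ W, z ∉ w.support := by
        by_contra h
        push Not at h
        have hs : W ⊆ w.support.toFinset.erase a := fun z hz => Finset.mem_erase.2
          ⟨(hWa z hz).ne.symm, List.mem_toFinset.2 (h z hz)⟩
        have := Finset.card_le_card hs
        have := List.toFinset_card_le w.support
        rw [Finset.card_erase_of_mem (List.mem_toFinset.2 w.start_mem_support)] at *
        rw [SimpleGraph.Walk.length_support] at *
        omega
      refine ⟨z, .cons (hWa z hzW).symm w, hw1.cons hz, by simpa using hw2, ?_⟩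
      simp only [SimpleGraph.Walk.support_cons, List.forall_mem_cons]
      exact ⟨hWC hzW, hw3⟩
  have low : ∀ q, 1 ≤ q → q ≤ r → ∃ a S, G.Adj (F.u k) a ∧ (∀ w ∈ S, i + 1 ≤ T.d w) ∧
      Pth G a (f (n - 1)) (q + n - 1) S := by
    intro q h1 h2
    obtain ⟨a, hP⟩ := grow q h1 h2
    have haC : a ∈ C := by
      obtain ⟨w, -, -, h⟩ := hP
      exact h a w.start_mem_support
    have step : ∀ t, t < n → Pth G a (f t) (q + t) ((C : Set V) ∪ f '' Set.Icc 1 t) := by
      intro t ht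
      induction t with
      | zero => exact hP.mono Set.subset_union_left
      | succ t ih =>
        refine ((ih (by omega)).snoc (hfadj t (by omega)) ?_).mono ?_
        · rintro (h | ⟨s, ⟨s1, s2⟩, he⟩)
          · exact hfC (t + 1) (by omega) ht h
          · exact hfinj s (t + 1) (by omega) (by omega) he
        · rintro w ((h | ⟨s, ⟨s1, s2⟩, he⟩) | h)
          · exact Or.inl h
          · exact Or.inr ⟨s, ⟨s1, by omega⟩, he⟩
          · exact Or.inr ⟨t + 1, ⟨by omega, le_rfl⟩, (Set.mem_singleton_iff.1 h).symm⟩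
    refine ⟨a, (C : Set V) ∪ f '' Set.Icc 1 (n - 1), ?_, ?_, ?_⟩
    · have := T.par_adj a (by rw [hCd a haC]; omega)
      rwa [(hCp a haC).2] at this
    · rintro w (h | ⟨s, ⟨s1, s2⟩, rfl⟩)
      · exact (hCd w h).ge
      · exact hhigh s (by omega)
    · rw [show q + n - 1 = q + (n - 1) by omega]
      exact step (n - 1) (by omega)
  have hlast : G.Adj (f (n - 1)) (f n) := by
    have := hfadj (n - 1) (by omega)
    rwa [show n - 1 + 1 = n by omega] at this
  have udisj : ∀ a b (S : Set V), 1 ≤ a → b ≤ k → (∀ w ∈ S, i + 1 ≤ T.d w) →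
      Disjoint (F.u '' Set.Icc a b) S := fun a b S h1 h2 hS => by
    rw [Set.disjoint_left]
    rintro w ⟨p, ⟨p1, p2⟩, rfl⟩ h
    have := F.hu p (h1.trans p1) (p2.trans h2)
    have := hS _ h
    omega
  have dstep : ∀ a z, 1 ≤ a → a < k → T.d z = i → F.u (a + 1) ≠ z →
      1 + 2 * T.dl (F.u a) z ≤ 2 * T.dl (F.u (a + 1)) z + r := fun a z h1 h2 hz hne => by
    have := T.dl_max (F.hu a h1 h2.le) (F.hu (a + 1) (by omega) h2) hz
    have := T.dl_right (F.hu 1 le_rfl F.hk) (F.hu a h1 h2.le) (F.hu (a + 1) (by omega) h2)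
      (F.uKle le_rfl h1 h2.le) (F.uKle h1 (by omega) h2)
    have := T.dl_left (F.hu 1 le_rfl F.hk) (F.hu (a + 1) (by omega) h2) hp
      (F.uKle le_rfl (by omega) h2) (F.uKle (by omega) h2 le_rfl)
    have := T.one_le_dl (F.hu (a + 1) (by omega) h2) hz hne
    have := hD (by omega)
    omega
  by_cases hon : ∃ b, 1 ≤ b ∧ b ≤ k ∧ f n = F.u b
  · obtain ⟨b, hb1, hb2, hb⟩ := hon
    have hbk : b < k := lt_of_le_of_ne hb2 fun h => hfp (by rw [hb, h])
    have mk : ∀ a a' q, 1 ≤ a → a ≤ b → b < a' → a' ≤ k → 1 ≤ q → q ≤ r →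
        HasCyc G ((k - a' + 1) + (q + n - 1) + (b - a + 1) +
          2 * T.dl (F.u a) (F.u a') - 1) := by
      intro a a' q h1 h2 h3 h4 h5 h6
      obtain ⟨z, S, hzp, hS, hQ⟩ := low q h5 h6
      have hd : Disjoint (F.u '' Set.Icc a' k ∪ S) (F.u '' Set.Icc a b) := by
        rw [Set.disjoint_union_left]
        refine ⟨?_, (udisj a b S h1 hb2 hS).symm⟩
        rw [Set.disjoint_left]
        rintro w ⟨p, ⟨p1, p2⟩, rfl⟩ ⟨p', ⟨q1, q2⟩, he⟩
        exact F.u_ne (h1.trans q1) (show p' < p by omega) p2 he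
      have P := ((F.useg (by omega) h4 le_rfl).append hzp hQ
        (udisj a' k S (by omega) le_rfl hS)).append (hb ▸ hlast) (F.useg h1 h2 hb2).symm hd
      have C := T.close (i := i) P (by
        rintro w ((h | h) | h)
        · exact F.high_u (by omega) le_rfl w h
        · exact (Nat.le_succ i).trans (hS w h)
        · exact F.high_u h1 hb2 w h) (F.hu a' (by omega) h4) (F.hu a h1 (by omega))
        (F.u_ne h1 (by omega) h4).symm (by omega)
      rw [T.dl_comm] at C
      exact C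
    have d0 := T.one_le_dl (F.hu b hb1 hb2) hp (F.u_ne hb1 hbk le_rfl)
    have d1 := T.dl_le (F.hu b hb1 hb2) hp
    by_cases h : m < b + n + 2 * T.dl (F.u 1) (F.u k) + r
    · obtain ⟨a, a1, a2, a3, a4⟩ := exists_near_of_step (m := m) (r := r)
        (f := fun a => n + (b - a + 1) + 2 * T.dl (F.u a) (F.u k)) hb1
        (by omega) (by simp only [Nat.sub_self]; omega) (fun s s1 s2 => by
          have := dstep s (F.u k) s1 (by omega) hp (F.u_ne (by omega) (by omega) le_rfl)
          omega)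
      have C := mk a k (m - (n + (b - a + 1) + 2 * T.dl (F.u a) (F.u k)) + 1) a1 a2 hbk le_rfl
        (by omega) (by omega)
      convert C using 2
      omega
    · have := T.one_le_dl (F.hu 1 le_rfl F.hk) (F.hu (b + 1) (by omega) hbk)
        (F.u_ne le_rfl (by omega) hbk)
      obtain ⟨a, a1, a2, a3, a4⟩ := exists_near_of_step (m := m) (r := r)
        (f := fun a => (k - a + 1) + n + b + 2 * T.dl (F.u 1) (F.u a) - 1)
        (show b + 1 ≤ k from hbk) (by omega) (by simp only [Nat.sub_self]; omega)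
        (fun s s1 s2 => by
          have := T.dl_left (F.hu 1 le_rfl F.hk) (F.hu s (by omega) s2.le)
            (F.hu (s + 1) (by omega) s2) (F.uKle le_rfl (by omega) s2.le)
            (F.uKle (by omega) (by omega) s2)
          omega)
      have C := mk 1 a (m - ((k - a + 1) + n + b + 2 * T.dl (F.u 1) (F.u a) - 1) + 1) le_rfl hb1
        (by omega) a2 (by omega) (by omega)
      convert C using 2
      omega
  · have hoff : ∀ p, 1 ≤ p → p ≤ k → F.u p ≠ f n := fun p h1 h2 he => hon ⟨p, h1, h2, he.symm⟩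
    have d0 := T.dl_le hp hfd
    have d1 := T.one_le_dl (F.hu 1 le_rfl F.hk) hfd (hoff 1 le_rfl F.hk)
    obtain ⟨a, a1, a2, a3, a4⟩ := exists_near_of_step (m := m) (r := r)
      (f := fun a => (k - a + 1) + n + 2 * T.dl (F.u a) (f n)) F.hk
      (by have := F.hk; omega) (by simp only [Nat.sub_self]; omega) (fun s s1 s2 => by
        have := dstep s (f n) s1 s2 hfd (hoff (s + 1) (by omega) s2)
        omega)
    obtain ⟨z, S, hzp, hS, hQ⟩ := low (m - ((k - a + 1) + n + 2 * T.dl (F.u a) (f n)) + 1)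
      (by omega) (by omega)
    have P := ((F.useg a1 a2 le_rfl).append hzp hQ (udisj a k S a1 le_rfl hS)).snoc hlast (by
      rintro (⟨p, ⟨p1, p2⟩, he⟩ | h)
      · exact hoff p (a1.trans p1) p2 he
      · have := hS _ h
        omega)
    have C := T.close (i := i) P (by
      rintro w ((h | h) | h)
      · exact F.high_u a1 le_rfl w h
      · exact (Nat.le_succ i).trans (hS w h)
      · rw [Set.mem_singleton_iff] at h
        exact h ▸ hfd.ge) (F.hu a a1 a2) hfd (hoff a a1 a2) (by omega)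
    convert C using 2
    omega

end Vale.Agent.P048.Full
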