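import Vale.Agent.P048.Full.Base

/-! # Splitting a smallest counterexample into two parts and at most one vertex -/

namespace Vale.Agent.P048.Full

open Finset

variable {V : Type} [Fintype V] {G : SimpleGraph V} {m A e : ℕ}

/-- The hypotheses of the colouring block, with `MBound` up to `(m - 1) / 2 + e`. -/
structure CBad (G : SimpleGraph V) (m A e : ℕ) : Prop where
  bad : Bad G m A
  hm11 : 5 ≤ m
  hω : CliqueLE G Finset.univ ((m - 1) / 2)
  hM : ∀ (X : Finset V) (b : ℕ), 2 ≤ b → b ≤ (m - 1) / 2 + e → alpha G X ≤ b →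
    CliqueLE G X ((m - 1) / 2) → X.card ≤ (m - 1) * (b - 1)

theorem CBad.small (h : CBad G m A e) {U : Finset V} (hU : alpha G U < A) :
    U.card ≤ (m - 1) * alpha G U := h.bad.small U hU

theorem CBad.part_one (h : CBad G m A e) {U : Finset V} (hU : alpha G U ≤ 1) :
    U.card ≤ (m - 1) / 2 := h.hω U (Finset.subset_univ _) (isClique_of_alpha_le_one hU)

theorem CBad.part_two (h : CBad G m A e) {U : Finset V} (h2 : 2 ≤ alpha G U)
    (hh : alpha G U ≤ (m - 1) / 2 + e) : U.card + (m - 1) ≤ (m - 1) * alpha G U := by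
  have h3 := h.hM U (alpha G U) h2 hh le_rfl (h.hω.mono (Finset.subset_univ _))
  obtain ⟨x, hx⟩ : ∃ x, alpha G U = x + 1 := ⟨alpha G U - 1, by omega⟩
  rw [hx] at h3 ⊢
  rw [Nat.mul_add, Nat.mul_one]
  simp only [Nat.add_sub_cancel] at h3
  omega

/-- One vertex and two parts: the independence numbers add up to more than `A`. -/
theorem CBad.cover_one (h : CBad G m A e) {U₁ U₂ : Finset V}
    (hc : Fintype.card V ≤ U₁.card + U₂.card + 1) (h1 : alpha G U₁ < A) (h2 : alpha G U₂ < A) :
    A + 1 ≤ alpha G U₁ + alpha G U₂ := by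
  by_contra hsum
  wlog hle : alpha G U₁ ≤ alpha G U₂ generalizing U₁ U₂
  · exact this (U₁ := U₂) (U₂ := U₁) (by omega) h2 h1 (by omega) (by omega)
  have hbig := h.bad.big
  have hA := h.bad.hAm
  have hm := h.hm11
  have e2 := h.small h2
  have p2 := Nat.mul_le_mul_left (m - 1) (show alpha G U₂ + 1 ≤ A by omega)
  rw [Nat.mul_add, Nat.mul_one] at p2
  by_cases hx : alpha G U₁ ≤ 1
  · have e1 := h.part_one hx
    omega
  · have e1 := h.part_two (U := U₁) (by omega) (by omega)
    have p := Nat.mul_le_mul_left (m - 1) (show alpha G U₁ + alpha G U₂ ≤ A by omega)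
    rw [Nat.mul_add] at p
    omega

/-- The same with both parts in the range of `MBound`. -/
theorem CBad.cover_two (h : CBad G m A e) {U₁ U₂ : Finset V}
    (hc : Fintype.card V ≤ U₁.card + U₂.card + 1) (h1 : alpha G U₁ < A) (h2 : alpha G U₂ < A)
    (b1 : alpha G U₁ ≤ (m - 1) / 2 + e) (b2 : alpha G U₂ ≤ (m - 1) / 2 + e) :
    A + 2 ≤ alpha G U₁ + alpha G U₂ := by
  by_contra hsum
  wlog hle : alpha G U₁ ≤ alpha G U₂ generalizing U₁ U₂
  · exact this (U₁ := U₂) (U₂ := U₁) (by omega) h2 h1 b2 b1 (by omega) (by omega)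
  have hbig := h.bad.big
  have hm := h.hm11
  have p2 := Nat.mul_le_mul_left (m - 1) (show alpha G U₂ + 1 ≤ A by omega)
  rw [Nat.mul_add, Nat.mul_one] at p2
  by_cases hx : alpha G U₁ ≤ 1
  · have e1 := h.part_one hx
    have e2 := h.small h2
    omega
  · have e1 := h.part_two (U := U₁) (by omega) b1
    have e2 := h.part_two (U := U₂) (by omega) b2
    have p := Nat.mul_le_mul_left (m - 1) (show alpha G U₁ + alpha G U₂ ≤ A + 1 by omega)
    rw [Nat.mul_add, Nat.mul_add, Nat.mul_one] at p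
    omega

/-- Two parts: the independence numbers add up to at least `A + 2`. -/
theorem CBad.slope (h : CBad G m A e) (hs : A ≤ 2 * ((m - 1) / 2) ∨ 1 ≤ e) {U₁ U₂ : Finset V}
    (hc : Fintype.card V ≤ U₁.card + U₂.card) (h1 : alpha G U₁ < A) (h2 : alpha G U₂ < A) :
    A + 2 ≤ alpha G U₁ + alpha G U₂ := by
  by_contra hsum
  wlog hle : alpha G U₁ ≤ alpha G U₂ generalizing U₁ U₂
  · exact this (U₁ := U₂) (U₂ := U₁) (by omega) h2 h1 (by omega) (by omega)
  have hbig := h.bad.big
  have hA := h.bad.hAm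
  have hm := h.hm11
  have e2 := h.small h2
  have p2 := Nat.mul_le_mul_left (m - 1) (show alpha G U₂ + 1 ≤ A by omega)
  rw [Nat.mul_add, Nat.mul_one] at p2
  by_cases hx : alpha G U₁ ≤ 1
  · have e1 := h.part_one hx
    omega
  · have e1 := h.part_two (U := U₁) (by omega) (by omega)
    have p := Nat.mul_le_mul_left (m - 1) (show alpha G U₁ + alpha G U₂ ≤ A + 1 by omega)
    rw [Nat.mul_add, Nat.mul_add, Nat.mul_one] at p
    omega

/-- Two parts in the range of `MBound` add up to at least `A + 3`. -/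
theorem CBad.slope_three (h : CBad G m A e) {U₁ U₂ : Finset V}
    (hc : Fintype.card V ≤ U₁.card + U₂.card) (h1 : alpha G U₁ < A) (h2 : alpha G U₂ < A)
    (b1 : alpha G U₁ ≤ (m - 1) / 2 + e) (b2 : alpha G U₂ ≤ (m - 1) / 2 + e) :
    A + 3 ≤ alpha G U₁ + alpha G U₂ := by
  by_contra hsum
  wlog hle : alpha G U₁ ≤ alpha G U₂ generalizing U₁ U₂
  · exact this (U₁ := U₂) (U₂ := U₁) (by omega) h2 h1 b2 b1 (by omega) (by omega)
  have hbig := h.bad.big
  have hm := h.hm11
  have e2 := h.small h2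
  have p2 := Nat.mul_le_mul_left (m - 1) (show alpha G U₂ + 1 ≤ A by omega)
  rw [Nat.mul_add, Nat.mul_one] at p2
  by_cases hx : alpha G U₁ ≤ 1
  · have e1 := h.part_one hx
    omega
  · have e1 := h.part_two (U := U₁) (by omega) b1
    have e2' := h.part_two (U := U₂) (by omega) b2
    have p := Nat.mul_le_mul_left (m - 1) (show alpha G U₁ + alpha G U₂ ≤ A + 2 by omega)
    rw [Nat.mul_add, Nat.mul_add] at p
    omega

end Vale.Agent.P048.Full
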