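import Vale.Agent.P048.Layer
import Vale.Agent.P048.Full.ColourCover

/-! # A detour around the top of a degenerate configuration is short -/

namespace Vale.Agent.P048.Full

open Finset

variable {V : Type} [Fintype V] {G : SimpleGraph V} {m A e : ℕ}

theorem CBad.add_le (h : CBad G m A e) {X Y : Finset V} (hXY : ∀ a ∈ X, ∀ b ∈ Y, ¬G.Adj a b)
    (hd : Disjoint X Y) : alpha G X + alpha G Y ≤ A :=
  (alpha_add_le (Finset.subset_univ X) (Finset.subset_univ Y) hd hXY).trans h.bad.hA

/-- What the route bound needs beyond `CBad`, seen from the root. -/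
def RouteHyp (G : SimpleGraph V) (m A e : ℕ) (v : V) : Prop :=
  A + 2 ≤ m ∧ A ≤ 2 * ((m - 1) / 2) ∨ 2 ≤ e ∨ 1 ≤ e ∧ m ≤ 9 ∨
    (m ≤ 8 ∧ ∃ W : Finset V, 4 ≤ alpha G W ∧ ∀ z ∈ W, z = v ∨ G.Adj v z) ∨
    (m = 10 ∧ 1 ≤ e ∧ ∀ U : Finset V, alpha G U ≤ 4 →
      CliqueLE G U ((m - 1) / 2) → U.card + 1 ≤ (m - 1) * 3)

/-- Walks from `C` avoiding `p` that are too short to come back below layer `i + 1` are short. -/
theorem CBad.route_short (h : CBad G m A e) (T : Lay G) {i n : ℕ} {p : V} {C : Set V} (hi : 1 ≤ i)
    (hih : i + 1 ≤ (m - 1) / 2) (hE : RouteHyp G m A e T.root) (hpi : T.d p = i) (hC : C.Nonempty)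
    (hCd : ∀ z ∈ C, T.d z = i + 1) (hn : 1 ≤ n)
    (hmin : ∀ (t : ℕ) (g : ℕ → V), t < n → g 0 ∈ C → (∀ q, q < t → G.Adj (g q) (g (q + 1))) →
      (∀ q, q ≤ t → g q ≠ p) → i + 1 ≤ T.d (g t)) :
    n + 2 * i + 1 ≤ m := by
  classical
  obtain ⟨c₀, hc₀⟩ := hC
  let X : ℕ → Finset V := fun r => Finset.univ.filter fun z => ∃ t, t ≤ r ∧ ∃ g : ℕ → V,
    g 0 ∈ C ∧ (∀ q, q < t → G.Adj (g q) (g (q + 1))) ∧ (∀ q, q ≤ t → g q ≠ p) ∧ g t = z
  let B : ℕ → Finset V := fun l => Finset.univ.filter fun z => T.d z ≤ l
  let x : ℕ → ℕ := fun r => alpha G (X r)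
  let s : ℕ → ℕ := fun l => alpha G (B l)
  have hcp : c₀ ≠ p := fun e => by
    have := hCd c₀ hc₀
    rw [e, hpi] at this
    omega
  have hX0 : ∀ r, c₀ ∈ X r := fun r => by
    simp only [X, Finset.mem_filter, Finset.mem_univ, true_and]
    exact ⟨0, Nat.zero_le r, fun _ => c₀, hc₀, fun q hq => absurd hq (by omega),
      fun _ _ => hcp, rfl⟩
  have hXp : ∀ r, p ∉ X r := fun r hp => by
    simp only [X, Finset.mem_filter, Finset.mem_univ, true_and] at hp
    obtain ⟨t, -, g, -, -, g3, g4⟩ := hp
    exact g3 t le_rfl g4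
  have hXhigh : ∀ r, r < n → ∀ z ∈ X r, i + 1 ≤ T.d z := fun r hr z hz => by
    simp only [X, Finset.mem_filter, Finset.mem_univ, true_and] at hz
    obtain ⟨t, ht, g, g1, g2, g3, rfl⟩ := hz
    exact hmin t g (by omega) g1 g2 g3
  have hXnext : ∀ r, ∀ a ∈ X r, ∀ b, G.Adj a b → b ≠ p → b ∈ X (r + 1) := by
    intro r a ha b hab hbp
    simp only [X, Finset.mem_filter, Finset.mem_univ, true_and] at ha ⊢
    obtain ⟨t, ht, g, g1, g2, g3, rfl⟩ := ha
    refine ⟨t + 1, by omega, fun q => if q ≤ t then g q else b, by simpa using g1, ?_, ?_, by simp⟩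
    · intro q hq
      rcases lt_or_eq_of_le (Nat.lt_succ_iff.1 hq) with h1 | h1
      · simpa [h1.le, Nat.succ_le_of_lt h1] using g2 q h1
      · subst h1
        simpa using hab
    · intro q _
      by_cases h1 : q ≤ t
      · simpa [h1] using g3 q h1
      · simpa [h1] using hbp
  have hXsub : ∀ r, X r ⊆ X (r + 1) := fun r z hz => by
    simp only [X, Finset.mem_filter, Finset.mem_univ, true_and] at hz ⊢
    obtain ⟨t, ht, g, hg⟩ := hz
    exact ⟨t, by omega, g, hg⟩
  -- balls around the root
  have hBtop : ∀ l, l + 1 ≤ i → alpha G (B l) < A := by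
    intro l hl
    have := h.add_le (X := B l) (Y := {c₀}) (fun a ha b hb e => by
      simp only [B, Finset.mem_filter, Finset.mem_univ, true_and] at ha
      rw [Finset.mem_singleton] at hb
      subst hb
      have := T.adj_d b a e.symm
      have := hCd b hc₀
      omega) (Finset.disjoint_singleton_right.2 fun e => by
      simp only [B, Finset.mem_filter, Finset.mem_univ, true_and] at e
      have := hCd c₀ hc₀
      omega)
    have := alpha_pos (G := G) (Finset.mem_singleton_self c₀)
    omega
  have hs0 : 1 ≤ s 0 := alpha_pos (G := G) (show T.root ∈ B 0 by simp [B, T.d_root])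
  have sstep : ∀ l, l + 2 ≤ i → s l + 2 ≤ s (l + 1) ∧
      (s (l + 1) ≤ (m - 1) / 2 + e → A ≤ s l + ((m - 1) / 2 + e) → s l + 3 ≤ s (l + 1)) := by
    intro l hl
    let U := Finset.univ.filter fun z => ¬T.d z ≤ l + 1
    have hsum : s l + alpha G U ≤ A := h.add_le (fun a ha b hb e => by
      simp only [B, U, Finset.mem_filter, Finset.mem_univ, true_and] at ha hb
      have := T.adj_d b a e.symm
      omega) (Finset.disjoint_filter.2 fun z _ a b => by omega)
    have hpos : 1 ≤ s l := hs0.trans (alpha_mono fun z hz => by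
      simp only [B, Finset.mem_filter, Finset.mem_univ, true_and] at hz ⊢
      omega)
    have hc : Fintype.card V ≤ (B (l + 1)).card + U.card :=
      (Finset.card_filter_add_card_filter_not (s := Finset.univ) (fun z => T.d z ≤ l + 1)).ge
    have hlt := hBtop (l + 1) (by omega)
    refine ⟨?_, fun b1 b2 => ?_⟩
    · by_cases hs : A ≤ 2 * ((m - 1) / 2) ∨ 1 ≤ e
      · have := h.slope hs hc hlt (by omega)
        simp only [s] at hsum ⊢
        omega
      · -- here `i ≤ 2` and the closed neighbourhood of the root is rich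
        have h4 : 4 ≤ s 1 ∧ m ≤ 8 := by
          rcases hE with e1 | e1 | e1 | ⟨e1, W, hW, hWv⟩ | e1
          iterate 3 omega
          · exact ⟨hW.trans (alpha_mono fun z hz => by
              simp only [B, Finset.mem_filter, Finset.mem_univ, true_and]
              rcases hWv z hz with rfl | hz'
              · rw [T.d_root]; omega
              · have := T.adj_d z T.root hz'.symm
                rw [T.d_root] at this
                omega), e1⟩
          · omega
        have hA8 := h.bad.hAm
        have hm5 := h.hm11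
        obtain rfl : l = 0 := by omega
        have h0 : s 0 ≤ 1 := (alpha_le_card _).trans (Finset.card_le_one.2 fun a ha b hb => by
          simp only [B, Finset.mem_filter, Finset.mem_univ, true_and, Nat.le_zero] at ha hb
          rw [T.d_zero a ha, T.d_zero b hb])
        simp only [Nat.zero_add]
        omega
    · have := h.slope_three hc hlt (by omega) b1 (by simp only [s] at b2 hsum; omega)
      simp only [s] at hsum ⊢
      omega
  have smono : ∀ l d, l + d + 1 ≤ i → s l + 2 * d ≤ s (l + d) := by
    intro l d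
    induction d with
    | zero => simp
    | succ d ih =>
      intro he
      have h1 := ih (by omega)
      have h2 := (sstep (l + d) (by omega)).1
      rw [show l + (d + 1) = l + d + 1 by omega]
      omega
  -- balls around the start of the walks
  have hXB : ∀ r, r < n → x r + s (i - 1) ≤ A := fun r hr =>
    h.add_le (fun a ha b hb e => by
      have := hXhigh r hr a ha
      simp only [B, Finset.mem_filter, Finset.mem_univ, true_and] at hb
      have := T.adj_d a b e
      omega) (Finset.disjoint_left.2 fun a ha hb => by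
      have := hXhigh r hr a ha
      simp only [B, Finset.mem_filter, Finset.mem_univ, true_and] at hb
      omega)
  have hsi : 1 ≤ s (i - 1) := by
    have := smono 0 (i - 1) (by omega)
    rw [Nat.zero_add] at this
    omega
  have xstep : ∀ r, r + 1 < n → x r + 1 ≤ x (r + 1) ∧
      (x (r + 1) ≤ (m - 1) / 2 + e → A ≤ x r + ((m - 1) / 2 + e) → x r + 2 ≤ x (r + 1)) := by
    intro r hr
    let U := Finset.univ.filter fun z => z ∉ X (r + 1) ∧ z ≠ p
    have hsum : x r + alpha G U ≤ A := h.add_le (fun a ha b hb e => by
      simp only [U, Finset.mem_filter, Finset.mem_univ, true_and] at hb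
      exact hb.1 (hXnext r a ha b e hb.2)) (Finset.disjoint_left.2 fun a ha hb => by
      simp only [U, Finset.mem_filter, Finset.mem_univ, true_and] at hb
      exact hb.1 (hXsub r ha))
    have hpos : 1 ≤ x r := alpha_pos (G := G) (hX0 r)
    have hc : Fintype.card V ≤ (X (r + 1)).card + U.card + 1 := by
      calc Fintype.card V = (Finset.univ : Finset V).card := Finset.card_univ.symm
        _ ≤ (insert p (X (r + 1) ∪ U)).card := Finset.card_le_card fun z _ => by
            simp only [U, Finset.mem_insert, Finset.mem_union, Finset.mem_filter, Finset.mem_univ,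
              true_and]
            tauto
        _ ≤ _ := by
            have := Finset.card_insert_le p (X (r + 1) ∪ U)
            have := Finset.card_union_le (X (r + 1)) U
            omega
    have hlt : alpha G (X (r + 1)) < A := by
      have := hXB (r + 1) hr
      simp only [x] at this
      omega
    refine ⟨?_, fun b1 b2 => ?_⟩
    · have := h.cover_one hc hlt (by omega)
      simp only [x] at hsum ⊢
      omega
    · have := h.cover_two hc hlt (by omega) b1 (by simp only [x] at b2 hsum; omega)
      simp only [x] at hsum ⊢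
      omega
  have xmono : ∀ r d, r + d + 1 ≤ n → x r + d ≤ x (r + d) := by
    intro r d
    induction d with
    | zero => simp
    | succ d ih =>
      intro he
      have h1 := ih (by omega)
      have h2 := (xstep (r + d) (by omega)).1
      rw [show r + (d + 1) = r + d + 1 by omega]
      omega
  have hx0 : 1 ≤ x 0 := alpha_pos (G := G) (hX0 0)
  have ex := xmono 0 (n - 1) (by omega)
  have es := smono 0 (i - 1) (by omega)
  rw [Nat.zero_add] at ex es
  have htot := hXB (n - 1) (by omega)
  have hA := h.bad.hAm
  by_contra hlong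
  -- both balls would have to grow exactly as slowly as possible
  rcases hE with ⟨hE1, -⟩ | hE | ⟨he, hE⟩ | ⟨hE, W, hW, hWv⟩ | ⟨hm10, he, hfour⟩
  · omega
  · by_cases hw : A - ((m - 1) / 2 + e) - 1 + 2 ≤ n
    · obtain ⟨r, hr⟩ : ∃ r, r = A - ((m - 1) / 2 + e) - 1 := ⟨_, rfl⟩
      have e1 := xmono 0 r (by omega)
      have e2 := xmono (r + 1) (n - 1 - (r + 1)) (by omega)
      rw [Nat.zero_add] at e1
      rw [show r + 1 + (n - 1 - (r + 1)) = n - 1 by omega] at e2
      have e3 := xstep r (by omega)
      have := e3.2 (by omega) (by omega)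
      omega
    by_cases hv : (A - ((m - 1) / 2 + e)) / 2 + 2 ≤ i
    · obtain ⟨l, hl⟩ : ∃ l, l = (A - ((m - 1) / 2 + e)) / 2 := ⟨_, rfl⟩
      have e1 := smono 0 l (by omega)
      have e2 := smono (l + 1) (i - 1 - (l + 1)) (by omega)
      rw [Nat.zero_add] at e1
      rw [show l + 1 + (i - 1 - (l + 1)) = i - 1 by omega] at e2
      have e3 := sstep l (by omega)
      have := e3.2 (by omega) (by omega)
      omega
    omega
  · by_cases hw : A - ((m - 1) / 2 + e) - 1 + 2 ≤ n
    · obtain ⟨r, hr⟩ : ∃ r, r = A - ((m - 1) / 2 + e) - 1 := ⟨_, rfl⟩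
      have e1 := xmono 0 r (by omega)
      have e2 := xmono (r + 1) (n - 1 - (r + 1)) (by omega)
      rw [Nat.zero_add] at e1
      rw [show r + 1 + (n - 1 - (r + 1)) = n - 1 by omega] at e2
      have e3 := xstep r (by omega)
      have := e3.2 (by omega) (by omega)
      omega
    by_cases hv : (A - ((m - 1) / 2 + e)) / 2 + 2 ≤ i
    · obtain ⟨l, hl⟩ : ∃ l, l = (A - ((m - 1) / 2 + e)) / 2 := ⟨_, rfl⟩
      have e1 := smono 0 l (by omega)
      have e2 := smono (l + 1) (i - 1 - (l + 1)) (by omega)
      rw [Nat.zero_add] at e1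
      rw [show l + 1 + (i - 1 - (l + 1)) = i - 1 by omega] at e2
      have e3 := sstep l (by omega)
      have := e3.2 (by omega) (by omega)
      omega
    omega
  · -- `m ≤ 8`
    have h4 : 4 ≤ alpha G (B 1) := hW.trans (alpha_mono fun z hz => by
      simp only [B, Finset.mem_filter, Finset.mem_univ, true_and]
      rcases hWv z hz with rfl | hz'
      · rw [T.d_root]; omega
      · have := T.adj_d z T.root hz'.symm
        rw [T.d_root] at this
        omega)
    by_cases hi2 : 2 ≤ i
    · have es' := smono 1 (i - 1 - 1) (by omega)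
      rw [show 1 + (i - 1 - 1) = i - 1 by omega] at es'
      have h4' : 4 ≤ s 1 := h4
      omega
    · obtain rfl : i = 1 := by omega
      have e1 := xmono 0 (n - 2) (by omega)
      rw [Nat.zero_add] at e1
      have hBp : alpha G (B 1) ≤ alpha G ((B 1).erase p) + 1 := by
        obtain ⟨S, s1, s2, s3⟩ := exists_alpha (G := G) (B 1)
        have := le_alpha (G := G) (W := (B 1).erase p) (S := S.erase p)
          (Finset.erase_subset_erase p s1) (fun a ha b hb =>
            s2 a (Finset.mem_of_mem_erase ha) b (Finset.mem_of_mem_erase hb))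
        have := Finset.pred_card_le_card_erase (a := p) (s := S)
        omega
      have hsum := h.add_le (X := X (n - 2)) (Y := (B 1).erase p) (fun a ha b hb e => by
        obtain ⟨hbp, hbB⟩ := Finset.mem_erase.1 hb
        simp only [B, Finset.mem_filter, Finset.mem_univ, true_and] at hbB
        have := hXnext (n - 2) a ha b e hbp
        have := hXhigh (n - 2 + 1) (by omega) b this
        omega) (Finset.disjoint_left.2 fun a ha hb => by
        have := hXhigh (n - 2) (by omega) a ha
        have hbB := (Finset.mem_erase.1 hb).2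
        simp only [B, Finset.mem_filter, Finset.mem_univ, true_and] at hbB
        omega)
      have hsum' : x (n - 2) + alpha G ((B 1).erase p) ≤ A := hsum
      omega
  · -- `m = 10`
    by_cases hn : n = 4 ∧ i = 3
    swap
    · by_cases hw : A - ((m - 1) / 2 + e) - 1 + 2 ≤ n
      · obtain ⟨r, hr⟩ : ∃ r, r = A - ((m - 1) / 2 + e) - 1 := ⟨_, rfl⟩
        have e1 := xmono 0 r (by omega)
        have e2 := xmono (r + 1) (n - 1 - (r + 1)) (by omega)
        rw [Nat.zero_add] at e1
        rw [show r + 1 + (n - 1 - (r + 1)) = n - 1 by omega] at e2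
        have e3 := xstep r (by omega)
        have := e3.2 (by omega) (by omega)
        omega
      by_cases hv : (A - ((m - 1) / 2 + e)) / 2 + 2 ≤ i
      · obtain ⟨l, hl⟩ : ∃ l, l = (A - ((m - 1) / 2 + e)) / 2 := ⟨_, rfl⟩
        have e1 := smono 0 l (by omega)
        have e2 := smono (l + 1) (i - 1 - (l + 1)) (by omega)
        rw [Nat.zero_add] at e1
        rw [show l + 1 + (i - 1 - (l + 1)) = i - 1 by omega] at e2
        have e3 := sstep l (by omega)
        have := e3.2 (by omega) (by omega)
        omega
      omega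
    obtain ⟨rfl, rfl⟩ := hn
    subst hm10
    have e2 : x 0 + 2 ≤ x 2 := xmono 0 2 (by omega)
    have e3 := xstep 2 (by omega)
    have t3 := hXB 3 (by omega)
    let U := Finset.univ.filter fun z => z ∉ X 3 ∧ z ≠ p
    have hsum : x 2 + alpha G U ≤ A := h.add_le (fun a ha b hb e => by
      simp only [U, Finset.mem_filter, Finset.mem_univ, true_and] at hb
      exact hb.1 (hXnext 2 a ha b e hb.2)) (Finset.disjoint_left.2 fun a ha hb => by
      simp only [U, Finset.mem_filter, Finset.mem_univ, true_and] at hb
      exact hb.1 (hXsub 2 ha))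
    have hx3 : alpha G (X 3) ≤ 4 := by
      show x 3 ≤ 4
      omega
    have c3 := hfour (X 3) hx3 (h.hω.mono (Finset.subset_univ _))
    have cU := (h.small (U := U) (by omega)).trans
      (Nat.mul_le_mul_left (10 - 1) (show alpha G U ≤ 6 by omega))
    have hc : Fintype.card V ≤ (X 3).card + U.card + 1 := by
      calc Fintype.card V = (Finset.univ : Finset V).card := Finset.card_univ.symm
        _ ≤ (insert p (X 3 ∪ U)).card := Finset.card_le_card fun z _ => by
            simp only [U, Finset.mem_insert, Finset.mem_union, Finset.mem_filter, Finset.mem_univ,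
              true_and]
            tauto
        _ ≤ _ := by
            have := Finset.card_insert_le p (X 3 ∪ U)
            have := Finset.card_union_le (X 3) U
            omega
    have hbig := h.bad.big
    have hA9 : A = 9 := by omega
    subst hA9
    omega

end Vale.Agent.P048.Full
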