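import Vale.Agent.P048.Build
import Vale.Agent.P048.Full.ColourExtend
import Vale.Agent.P048.Full.ColourRoute

/-! # Without large cliques the radius exceeds half of the cycle length -/

namespace Vale.Agent.P048.Full

open Finset

variable {V : Type} [Fintype V] {G : SimpleGraph V} {m A e : ℕ}

theorem CBad.connected (h : CBad G m A e) : G.Connected := by
  classical
  have : Nonempty V := Fintype.card_pos_iff.1 (lt_of_le_of_lt (Nat.zero_le _) h.bad.big)
  refine ⟨fun u v => ?_⟩
  by_contra huv
  let X := Finset.univ.filter fun w => G.Reachable u w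
  let Y := Finset.univ.filter fun w => ¬G.Reachable u w
  have hx := alpha_pos (G := G) (show u ∈ X by simp [X])
  have hy := alpha_pos (G := G) (show v ∈ Y by simpa [Y] using huv)
  have hs := h.add_le (X := X) (Y := Y) (fun a ha b hb e => by
    simp only [X, Y, Finset.mem_filter, Finset.mem_univ, true_and] at ha hb
    exact hb (ha.trans e.reachable)) (Finset.disjoint_filter.2 fun w _ a b => b a)
  have c1 := h.bad.small X (by omega)
  have c2 := h.bad.small Y (by omega)
  have c3 : X.card + Y.card = Fintype.card V :=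
    Finset.card_filter_add_card_filter_not (s := Finset.univ) (fun w => G.Reachable u w)
  have := h.bad.big
  nlinarith [Nat.mul_le_mul_left (m - 1) hs]

theorem CBad.cut (h : CBad G m A e) (p : V) (X : Set V) (hX : X.Nonempty) (hp : p ∉ X)
    (hw : ∃ w, w ≠ p ∧ w ∉ X) : ∃ a ∈ X, ∃ b, b ∉ X ∧ b ≠ p ∧ G.Adj a b := by
  classical
  by_contra hno
  push Not at hno
  let P := Finset.univ.filter fun z => z ∈ X
  let Q := Finset.univ.filter fun z => z ∉ X ∧ z ≠ p
  obtain ⟨x, hx⟩ := hX
  obtain ⟨w, hwp, hwX⟩ := hw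
  have hpx := alpha_pos (G := G) (show x ∈ P by simp [P, hx])
  have hqw := alpha_pos (G := G) (show w ∈ Q by simp [Q, hwp, hwX])
  have hpq : ∀ a ∈ P, ∀ b ∈ Q, ¬G.Adj a b := fun a ha b hb => by
    simp only [P, Q, Finset.mem_filter, Finset.mem_univ, true_and] at ha hb
    exact fun e => hb.2 (hno a ha b hb.1 hb.2 e).elim
  have hd : Disjoint P Q := Finset.disjoint_filter.2 fun z _ a b => b.1 a
  have hsum := h.add_le hpq hd
  have cP := h.bad.small P (by omega)
  have cQ := h.bad.small Q (by omega)
  have hpP : p ∉ P := by simp [P, hp]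
  have hpQ : p ∉ Q := by simp [Q]
  have huniv : Finset.univ = insert p (P ∪ Q) := by
    ext z
    simp only [P, Q, Finset.mem_univ, Finset.mem_insert, Finset.mem_union, Finset.mem_filter,
      true_and, true_iff]
    tauto
  have hcard : Fintype.card V = P.card + Q.card + 1 := by
    rw [← Finset.card_univ, huniv, Finset.card_insert_of_notMem (by simp [hpP, hpQ]),
      Finset.card_union_of_disjoint hd]
  have hbig := h.bad.big
  have hm := h.hm11
  have hmul := Nat.mul_le_mul_left (m - 1) hsum
  rw [Nat.mul_add] at hmul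
  have eA : A ≤ alpha G P + alpha G Q := by
    by_contra hh
    have := Nat.mul_le_mul_left (m - 1) (show alpha G P + alpha G Q + 1 ≤ A by omega)
    rw [Nat.mul_add, Nat.mul_add, Nat.mul_one] at this
    omega
  have ext : ∀ R : Finset V, p ∉ R → alpha G R < A → (m - 1) * alpha G R ≤ R.card →
      ∃ S, S ⊆ insert p R ∧ Indep G S ∧ alpha G R + 1 ≤ S.card ∧ p ∈ S := by
    intro R hpR hlt hle
    obtain ⟨S, s1, s2, s3⟩ := exists_alpha (G := G) (insert p R)
    have hgt : alpha G R < alpha G (insert p R) := by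
      by_contra hh
      have := h.bad.small (insert p R) (by omega)
      rw [Finset.card_insert_of_notMem hpR] at this
      have := Nat.mul_le_mul_left (m - 1) (not_lt.1 hh)
      omega
    refine ⟨S, s1, s2, by omega, ?_⟩
    by_contra hps
    have := le_alpha (G := G) (W := R) (fun z hz => (Finset.mem_insert.1 (s1 hz)).resolve_left
      (fun e => hps (e ▸ hz))) s2
    omega
  obtain ⟨S, s1, s2, s3, s4⟩ := ext P hpP (by omega) (by omega)
  obtain ⟨S', t1, t2, t3, t4⟩ := ext Q hpQ (by omega) (by omega)
  have hind : Indep G (S ∪ S') := by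
    refine s2.union t2 fun a ha b hb => ?_
    rcases Finset.mem_insert.1 (s1 ha) with rfl | ha'
    · exact t2 a t4 b hb
    rcases Finset.mem_insert.1 (t1 hb) with rfl | hb'
    · exact s2 a ha b s4
    exact hpq a ha' b hb'
  have hint : S ∩ S' ⊆ {p} := fun z hz => by
    obtain ⟨z1, z2⟩ := Finset.mem_inter.1 hz
    rcases Finset.mem_insert.1 (s1 z1) with e | e
    · simp [e]
    rcases Finset.mem_insert.1 (t1 z2) with e' | e'
    · simp [e']
    exact absurd e' (Finset.disjoint_left.1 hd e)
  have := (le_alpha (W := Finset.univ) (Finset.subset_univ _) hind).trans h.bad.hA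
  have := Finset.card_union_add_card_inter S S'
  have := Finset.card_le_card hint
  rw [Finset.card_singleton] at this
  omega

variable {T : Lay G}

/-- Dropping the first vertex of the upper path. -/
def cfgDrop {i k r : ℕ} (F : Cfg T i (k + 1) r) (hk : 1 ≤ k) : Cfg T i k r where
  u a := F.u (a + 1)
  y := F.y
  hk := hk
  hr := F.hr
  hu a h1 h2 := F.hu (a + 1) (by omega) (by omega)
  hy := F.hy
  uK a b h1 h2 h3 := F.uK (a + 1) (b + 1) (by omega) (by omega) (by omega)
  yK := F.yK
  uadj a h1 h2 := F.uadj (a + 1) (by omega) (by omega)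
  yadj := F.yadj
  link := F.link

/-- A two-layer monotone path that is too long gives a cycle. -/
theorem CBad.mixed (h : CBad G m A e) (hE : RouteHyp G m A e T.root) {i k r : ℕ} (F : Cfg T i k r) (hi : 1 ≤ i) (hih : i + 1 ≤ (m - 1) / 2)
    (hsum : m ≤ k + r ∨ i = 1 ∧ m ≤ k + r + 1) : HasCyc G m := by
  have hm := h.hm11
  have hr : ∀ {k r : ℕ} (F : Cfg T i k r) (n : ℕ) (C : Set V), 1 ≤ n → C.Nonempty →
      (∀ z ∈ C, T.d z = i + 1) →
      (∀ (t : ℕ) (g : ℕ → V), t < n → g 0 ∈ C → (∀ q, q < t → G.Adj (g q) (g (q + 1))) →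
        (∀ q, q ≤ t → g q ≠ F.u k) → i + 1 ≤ T.d (g t)) → n + 2 * i + 1 ≤ m :=
    fun {k r} F n C hn hC hCd hmin =>
      h.route_short T hi hih hE (F.hu k F.hk le_rfl) hC hCd hn hmin
  have core : ∀ {k : ℕ} (F : Cfg T i k r), m ≤ k + r + 1 →
      (2 ≤ k → k + 2 * T.dl (F.u 1) (F.u k) + 1 ≤ m) → HasCyc G m := fun {k} F hs hU => by
    by_cases hd : F.c r = F.u k
    · exact cfg_extend hi hs (fun hk => by have := hU hk; omega) hd h.cut (hr F)
    · exact F.core (by omega) hs hU hd
  by_cases hk : k ≤ 1
  · exact core F (by omega) (fun h2 => by omega)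
  have hD1 := T.one_le_dl (F.hu 1 le_rfl F.hk) (F.hu k F.hk le_rfl) (F.u_ne le_rfl (by omega) le_rfl)
  have hDi := T.dl_le (F.hu 1 le_rfl F.hk) (F.hu k F.hk le_rfl)
  rcases Nat.lt_trichotomy (k + 2 * T.dl (F.u 1) (F.u k)) m with hlt | heq | hgt
  · exact core F (by omega) fun _ => by omega
  · by_cases hs : m ≤ k + r
    · obtain ⟨k', rfl⟩ : ∃ k', k = k' + 1 := ⟨k - 1, by omega⟩
      refine core (cfgDrop F (by omega)) (by omega) fun hk2 => ?_
      have := T.dl_right (F.hu 1 le_rfl F.hk) (F.hu 2 (by omega) (by omega))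
        (F.hu (k' + 1) F.hk le_rfl) (F.uKle le_rfl (by omega) (by omega))
        (F.uKle (by omega) (by omega) le_rfl)
      simp only [cfgDrop, show (1 : ℕ) + 1 = 2 from rfl]
      omega
    · have hi1 : i = 1 := by omega
      have := F.hr
      have hr1 : r = 1 := by omega
      subst hr1
      by_cases hd : F.c 1 = F.u k
      · exact cfg_extend hi (by omega) (fun _ => by omega) hd h.cut (hr F)
      by_cases hon : ∃ b, 1 ≤ b ∧ b ≤ k ∧ F.c 1 = F.u b
      · obtain ⟨b, b1, b2, hb⟩ := hon
        have hbk : b < k := lt_of_le_of_ne b2 fun e => hd (e ▸ hb)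
        have := T.one_le_dl (F.hu 1 le_rfl F.hk) (F.hu (b + 1) (by omega) hbk)
          (F.u_ne le_rfl (by omega) hbk)
        have := T.dl_le (F.hu 1 le_rfl F.hk) (F.hu (b + 1) (by omega) hbk)
        have C := F.cyc_on le_rfl b1 (show b < b + 1 by omega) hbk le_rfl le_rfl hb
        convert C using 2
        omega
      · have hoff : ∀ p, 1 ≤ p → p ≤ k → F.c 1 ≠ F.u p := fun p p1 p2 e => hon ⟨p, p1, p2, e⟩
        have hc := F.dc (l := 1) le_rfl le_rfl
        have := T.one_le_dl (F.hu 2 (by omega) (by omega)) hc (hoff 2 (by omega) (by omega)).symm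
        have := T.dl_le (F.hu 2 (by omega) (by omega)) hc
        have C := F.cyc_off (show 1 ≤ 2 by omega) (by omega) le_rfl (le_refl 1) le_rfl le_rfl F.link
          fun p p1 p2 => hoff p (by omega) p2
        convert C using 2
        omega
  · exact T.pure_cycle F.u F.hu F.uK F.uadj (by omega) (by omega) (by omega)

open Classical in
/-- The position of a vertex in the orientation: odd layers come first. -/
noncomputable def rk (T : Lay G) (x : V) : ℤ :=
  if Odd (T.d x) then (T.K x : ℤ) - (Finset.univ.sup T.K + 1 : ℕ)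
  else (Finset.univ.sup T.K + 1 : ℕ) - (T.K x : ℤ)

theorem rk_lt {x y : V} (h : rk T x < rk T y) :
    (Odd (T.d y) → Odd (T.d x)) ∧
      (Odd (T.d x) → Odd (T.d y) → T.K x < T.K y) ∧
      (¬Odd (T.d x) → ¬Odd (T.d y) → T.K y < T.K x) := by
  have hx := Finset.le_sup (f := T.K) (Finset.mem_univ x)
  have hy := Finset.le_sup (f := T.K) (Finset.mem_univ y)
  refine ⟨fun a => ?_, fun a b => ?_, fun a b => ?_⟩
  · by_contra b
    simp only [rk, a, b, if_true, if_false] at h
    omega
  · simp only [rk, a, b, if_true] at h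
    omega
  · simp only [rk, a, b, if_false] at h
    omega

/-- An oriented path on `m` vertices, or on `m - 1` from layer one, gives a cycle. -/
theorem CBad.chain (h : CBad G m A e) (hE : RouteHyp G m A e T.root) {n : ℕ} (f : ℕ → V)
    (hn : n = m ∨ n + 1 = m ∧ T.d (f 0) = 1)
    (hd : ∀ t, t < n → 1 ≤ T.d (f t) ∧ T.d (f t) ≤ (m - 1) / 2)
    (hR : ∀ t, t + 1 < n → G.Adj (f t) (f (t + 1)) ∧ rk T (f t) < rk T (f (t + 1))) : HasCyc G m := by
  classical
  have hm := h.hm11
  have hex : ∃ t, t = n ∨ t < n ∧ ¬Odd (T.d (f t)) := ⟨n, Or.inl rfl⟩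
  let q := Nat.find hex
  have hqn : q ≤ n := Nat.find_min' hex (Or.inl rfl)
  have hodd : ∀ t, t < q → Odd (T.d (f t)) := fun t ht => by
    have := Nat.find_min hex ht
    simp only [not_or, not_and, not_not] at this
    exact this.2 (by omega)
  have heven : ∀ t, q ≤ t → t < n → ¬Odd (T.d (f t)) := by
    intro t ht
    induction t, ht using Nat.le_induction with
    | base =>
      intro hlt
      rcases Nat.find_spec hex with e | e
      · exact absurd e (by omega)
      · exact e.2
    | succ t ht ih =>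
      intro hlt ho
      exact ih (by omega) ((rk_lt (hR t hlt).2).1 ho)
  have hsame : ∀ t, t + 1 < n → t + 1 ≠ q → T.d (f t) = T.d (f (t + 1)) := by
    intro t ht hne
    have a1 := T.adj_d _ _ (hR t ht).1
    have a2 := T.adj_d _ _ (hR t ht).1.symm
    rcases Nat.lt_or_ge (t + 1) q with h' | h'
    · have := Nat.odd_iff.1 (hodd t (by omega))
      have := Nat.odd_iff.1 (hodd (t + 1) h')
      omega
    · have := Nat.not_odd_iff.1 (heven t (by omega) (by omega))
      have := Nat.not_odd_iff.1 (heven (t + 1) h' ht)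
      omega
  have lo : ∀ t, t < q → T.d (f t) = T.d (f 0) := by
    intro t
    induction t with
    | zero => intro _; rfl
    | succ t ih =>
      intro ht
      rw [← hsame t (by omega) (by omega), ih (by omega)]
  have hi : ∀ t, q ≤ t → t < n → T.d (f t) = T.d (f q) := by
    intro t ht
    induction t, ht using Nat.le_induction with
    | base => intro _; rfl
    | succ t ht ih =>
      intro hlt
      rw [← hsame t hlt (by omega), ih (by omega)]
  have Klo : ∀ t t', t < t' → t' < q → T.K (f t) < T.K (f t') := by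
    intro t t' htt
    induction t', htt using Nat.le_induction with
    | base => exact fun hq => (rk_lt (hR t (by omega)).2).2.1 (hodd t (by omega)) (hodd _ hq)
    | succ s hs ih =>
      intro hq
      exact lt_trans (ih (by omega))
        ((rk_lt (hR s (by omega)).2).2.1 (hodd s (by omega)) (hodd _ hq))
  have Khi : ∀ t t', q ≤ t → t < t' → t' < n → T.K (f t') < T.K (f t) := by
    intro t t' hq htt
    induction t', htt using Nat.le_induction with
    | base =>
      exact fun hn' => (rk_lt (hR t (by omega)).2).2.2 (heven t hq (by omega)) (heven _ (by omega) hn')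
    | succ s hs ih =>
      intro hn'
      exact lt_trans ((rk_lt (hR s (by omega)).2).2.2 (heven s (by omega) (by omega))
        (heven _ (by omega) hn')) (ih (by omega))
  have hn1 : m ≤ n + 1 := by omega
  have pure : ∀ (g : ℕ → V) (l : ℕ), l ≤ (m - 1) / 2 → (∀ a, 1 ≤ a → a ≤ n → T.d (g a) = l) →
      (∀ a b, 1 ≤ a → a < b → b ≤ n → T.K (g a) < T.K (g b)) →
      (∀ a, 1 ≤ a → a < n → G.Adj (g a) (g (a + 1))) → HasCyc G m := by
    intro g l hl gd gK ga
    have d1 := T.one_le_dl (gd 1 le_rfl (by omega)) (gd n (by omega) le_rfl) fun e => by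
      have := gK 1 n le_rfl (by omega) le_rfl
      rw [e] at this
      omega
    have d2 := T.dl_le (gd 1 le_rfl (by omega)) (gd n (by omega) le_rfl)
    exact T.pure_cycle g gd gK ga (by omega) (by omega) (by omega)
  have adj' : ∀ t, t + 1 < n → G.Adj (f (t + 1)) (f t) := fun t ht => (hR t ht).1.symm
  by_cases hq0 : q = 0
  · refine pure (fun a => f (n - a)) (T.d (f q)) (hd q (by omega)).2 (fun a h1 h2 => hi _ (by omega) (by omega))
      (fun a b h1 h2 h3 => Khi _ _ (by omega) (by omega) (by omega)) fun a h1 h2 => ?_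
    simpa [show n - a = n - (a + 1) + 1 by omega] using adj' (n - (a + 1)) (by omega)
  by_cases hqe : q = n
  · refine pure (fun a => f (a - 1)) (T.d (f 0)) (hd 0 (by omega)).2 (fun a h1 h2 => lo _ (by omega))
      (fun a b h1 h2 h3 => Klo _ _ (by omega) (by omega)) fun a h1 h2 => ?_
    simpa [show a + 1 - 1 = a - 1 + 1 by omega] using (hR (a - 1) (by omega)).1
  have hlink : G.Adj (f (q - 1)) (f q) := by
    simpa [show q - 1 + 1 = q by omega] using (hR (q - 1) (by omega)).1
  have e1 := lo (q - 1) (by omega)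
  have a1 := T.adj_d _ _ hlink
  have a2 := T.adj_d _ _ hlink.symm
  have p1 := Nat.odd_iff.1 (hodd 0 (by omega))
  have p2 := Nat.not_odd_iff.1 (heven q le_rfl (by omega))
  have b1 := hd 0 (by omega)
  have b2 := hd q (by omega)
  rcases Nat.lt_or_ge (T.d (f 0)) (T.d (f q)) with hup | hdown
  · let F : Cfg T (T.d (f 0)) q (n - q) :=
    { u := fun a => f (a - 1)
      y := fun l => f (q + l - 1)
      hk := by omega
      hr := by omega
      hu := fun a h1 h2 => lo _ (by omega)
      hy := fun l h1 h2 => by rw [hi _ (by omega) (by omega)]; omega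
      uK := fun a b h1 h2 h3 => Klo _ _ (by omega) (by omega)
      yK := fun a b h1 h2 h3 => Khi _ _ (by omega) (by omega) (by omega)
      uadj := fun a h1 h2 => by
        simpa [show a + 1 - 1 = a - 1 + 1 by omega] using (hR (a - 1) (by omega)).1
      yadj := fun l h1 h2 => by
        simpa [show q + (l + 1) - 1 = q + l - 1 + 1 by omega] using (hR (q + l - 1) (by omega)).1
      link := by simpa [show q + 1 - 1 = q by omega] using hlink }
    exact h.mixed hE F b1.1 (by omega) (by omega)
  · let F : Cfg T (T.d (f q)) (n - q) q :=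
    { u := fun a => f (n - a)
      y := fun l => f (q - l)
      hk := by omega
      hr := by omega
      hu := fun a h1 h2 => hi _ (by omega) (by omega)
      hy := fun l h1 h2 => by rw [lo _ (by omega)]; omega
      uK := fun a b h1 h2 h3 => Khi _ _ (by omega) (by omega) (by omega)
      yK := fun a b h1 h2 h3 => Klo _ _ (by omega) (by omega)
      uadj := fun a h1 h2 => by
        simpa [show n - a = n - (a + 1) + 1 by omega] using adj' (n - (a + 1)) (by omega)
      yadj := fun l h1 h2 => by
        simpa [show q - l = q - (l + 1) + 1 by omega] using adj' (q - (l + 1)) (by omega)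
      link := by simpa [show n - (n - q) = q by omega] using hlink.symm }
    exact h.mixed hE F b2.1 (by omega) (by omega)

/-- Without large cliques the radius exceeds half of `m`. -/
theorem CBad.radius_gt (h : CBad G m A e) (v : V) (hE : RouteHyp G m A e v) :
    ∃ k : V, ∀ w : G.Walk v k, (m - 1) / 2 < w.length := by
  classical
  have hm11 := h.hm11
  by_contra hno
  push Not at hno
  obtain ⟨T, hroot, hd⟩ := Vale.Agent.P048.exists_lay G v h.connected
  have hE' : RouteHyp G m A e T.root := by rwa [hroot]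
  have hrad : ∀ z, T.d z ≤ (m - 1) / 2 := fun z => by
    obtain ⟨w, hw⟩ := hno z
    rw [hd]
    exact (SimpleGraph.dist_le w).trans hw
  let D := (Finset.univ : Finset V).erase T.root
  have hD : ∀ z, z ∈ D ↔ 1 ≤ T.d z ∧ T.d z ≤ (m - 1) / 2 := by
    intro z
    simp only [D, Finset.mem_erase, Finset.mem_univ, and_true]
    exact ⟨fun a => ⟨Nat.pos_of_ne_zero fun e => a (T.d_zero z e), hrad z⟩,
      fun ⟨a, _⟩ e => by rw [e, T.d_root] at a; omega⟩
  let Ch : ℕ → V → Prop := fun n x => ∃ f : ℕ → V, f 0 = x ∧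
    (∀ t, t < n → f t ∈ D) ∧ ∀ t, t + 1 < n → G.Adj (f t) (f (t + 1)) ∧
      rk T (f t) < rk T (f (t + 1))
  have noM : ∀ x, ¬Ch m x := fun x ⟨f, _, f1, f2⟩ => h.bad.free
    (h.chain hE' f (Or.inl rfl) (fun t ht => (hD _).1 (f1 t ht)) f2)
  have noTop : ∀ x, T.d x = 1 → ¬Ch (m - 1) x := fun x hx ⟨f, f0, f1, f2⟩ => h.bad.free
    (h.chain hE' f (Or.inr ⟨by omega, f0 ▸ hx⟩) (fun t ht => (hD _).1 (f1 t ht)) f2)
  let ht : V → ℕ := fun x => Nat.findGreatest (fun n => Ch n x) (m - 1)
  have ht1 : ∀ x ∈ D, 1 ≤ ht x ∧ ht x ≤ m - 1 := fun x hx =>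
    ⟨Nat.le_findGreatest (by omega) ⟨fun _ => x, rfl, fun _ _ => hx, fun t h' => by omega⟩,
      Nat.findGreatest_le _⟩
  have htC : ∀ x ∈ D, Ch (ht x) x := fun x hx =>
    Nat.findGreatest_spec (m := 1) (P := fun n => Ch n x) (by omega)
      ⟨fun _ => x, rfl, fun _ _ => hx, fun t h' => by omega⟩
  have up : ∀ x ∈ D, ∀ y ∈ D, G.Adj x y → rk T x < rk T y → ht x ≠ ht y := by
    intro x hx y hy hxy hr e
    obtain ⟨f, f0, f1, f2⟩ := htC y hy
    have hch : Ch (ht y + 1) x := by
      refine ⟨fun t => if t = 0 then x else f (t - 1), by simp, fun t h' => ?_, fun t h' => ?_⟩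
      · by_cases t0 : t = 0
        · simpa [t0] using hx
        · simpa [t0] using f1 (t - 1) (by omega)
      · by_cases t0 : t = 0
        · simpa [t0, f0] using And.intro hxy hr
        · simpa [t0, show t - 1 + 1 = t by omega] using f2 (t - 1) (by omega)
    rcases lt_or_eq_of_le (ht1 y hy).2 with h' | h'
    · have : ht y + 1 ≤ ht x := Nat.le_findGreatest (by omega) hch
      omega
    · rw [h', show m - 1 + 1 = m by omega] at hch
      exact noM x hch
  have cls : ∀ c, Indep G (D.filter fun x => ht x = c) := by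
    intro c a pa b pb hab
    rw [Finset.mem_filter] at pa pb
    rcases lt_trichotomy (rk T a) (rk T b) with h' | h' | h'
    · exact up a pa.1 b pb.1 hab h' (pa.2.trans pb.2.symm)
    · have hab' := T.adj_d _ _ hab
      have hba' := T.adj_d _ _ hab.symm
      refine hab.ne (T.inj a b ?_ ?_)
      all_goals
        have hx := Finset.le_sup (f := T.K) (Finset.mem_univ a)
        have hy := Finset.le_sup (f := T.K) (Finset.mem_univ b)
        by_cases oa : Odd (T.d a) <;> by_cases ob : Odd (T.d b) <;>
          simp only [rk, oa, ob, if_true, if_false] at h' <;>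
          simp only [Nat.odd_iff] at oa ob <;> omega
    · exact up b pb.1 a pa.1 hab.symm h' (pb.2.trans pa.2.symm)
  have cle : ∀ c, (D.filter fun x => ht x = c).card ≤ A := fun c =>
    (le_alpha (W := Finset.univ) (Finset.subset_univ _) (cls c)).trans h.bad.hA
  have ctop : (D.filter fun x => ht x = m - 1).card + 1 ≤ A := by
    have hnot : T.root ∉ D.filter fun x => ht x = m - 1 := by simp [D]
    have hind : Indep G (insert T.root (D.filter fun x => ht x = m - 1)) := by
      intro a pa b pb hab
      have far : ∀ z ∈ D.filter fun x => ht x = m - 1, ¬G.Adj T.root z := by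
        intro z pz e
        rw [Finset.mem_filter] at pz
        have := T.adj_d z T.root e.symm
        rw [T.d_root] at this
        have := ((hD z).1 pz.1).1
        exact noTop z (by omega) (pz.2 ▸ htC z pz.1)
      rcases Finset.mem_insert.1 pa with rfl | pa <;> rcases Finset.mem_insert.1 pb with rfl | pb
      · exact hab.ne rfl
      · exact far b pb hab
      · exact far a pa hab.symm
      · exact cls _ a pa b pb hab
    have := (le_alpha (W := Finset.univ) (Finset.subset_univ _) hind).trans h.bad.hA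
    rw [Finset.card_insert_of_notMem hnot] at this
    omega
  have hsplit : D.card = ∑ c ∈ Finset.Icc 1 (m - 1), (D.filter fun x => ht x = c).card :=
    Finset.card_eq_sum_card_fiberwise fun x hx => Finset.mem_coe.2 (Finset.mem_Icc.2 (ht1 x hx))
  rw [← Finset.insert_erase (show m - 1 ∈ Finset.Icc 1 (m - 1) from
    Finset.mem_Icc.2 ⟨by omega, le_rfl⟩), Finset.sum_insert (Finset.notMem_erase _ _)] at hsplit
  have hrest := Finset.sum_le_card_nsmul ((Finset.Icc 1 (m - 1)).erase (m - 1)) _ _
    fun c _ => cle c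
  rw [smul_eq_mul, Finset.card_erase_of_mem (Finset.mem_Icc.2 ⟨by omega, le_rfl⟩),
    Nat.card_Icc] at hrest
  have hDc : Fintype.card V ≤ D.card + 1 := by
    have := Finset.pred_card_le_card_erase (a := T.root) (s := (Finset.univ : Finset V))
    rw [Finset.card_univ] at this
    simp only [D]
    omega
  have hbig := h.bad.big
  obtain ⟨u, rfl⟩ : ∃ u, m = u + 3 := ⟨m - 3, by omega⟩
  simp only [show u + 3 - 1 + 1 - 1 - 1 = u + 1 by omega] at hrest
  rw [show u + 3 - 1 = u + 2 by omega] at hbig hsplit hrest ctop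
  nlinarith

/-- The pinned block. -/
theorem colourPin : ColourPin := fun _ _ _ _ _ hbad hm hω hM v =>
  CBad.radius_gt (e := 2) ⟨hbad, by omega, hω, hM⟩ v (Or.inr (Or.inl le_rfl))

end Vale.Agent.P048.Full
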