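import Vale.Agent.P048.Full.Base

/-! # Block Final: the ball argument

From every root the independence numbers of the balls grow by two, and by three once; so a
smallest counterexample has radius at most half of `m`, except for `m = 2h + 2`, `A = 2h + 1`, where
two vertices at distance `h + 1` are joined by two disjoint shortest paths, a cycle of order `m`. -/

namespace Vale.Agent.P048.Full.Final

open Finset

variable {V : Type} [Fintype V] {G : SimpleGraph V} {m A : ℕ} {v k x : V}

open Classical in
/-- The vertices within `j` steps of `v`. -/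
noncomputable def ball (G : SimpleGraph V) (v : V) : ℕ → Finset V
  | 0 => {v}
  | j + 1 => Finset.univ.filter fun x => x ∈ ball G v j ∨ ∃ y ∈ ball G v j, G.Adj y x

theorem mem_zero : x ∈ ball G v 0 ↔ x = v := by simp [ball]

theorem mem_succ {j : ℕ} :
    x ∈ ball G v (j + 1) ↔ x ∈ ball G v j ∨ ∃ y ∈ ball G v j, G.Adj y x := by
  simp [ball]

theorem ball_mono {i j : ℕ} (h : i ≤ j) : ball G v i ⊆ ball G v j := by
  induction j, h using Nat.le_induction with
  | base => exact subset_refl _
  | succ j _ ih => exact fun x hx => mem_succ.2 (Or.inl (ih hx))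

theorem exists_walk {j : ℕ} (hx : x ∈ ball G v j) : ∃ w : G.Walk v x, w.length ≤ j := by
  induction j generalizing x with
  | zero => obtain rfl := mem_zero.1 hx; exact ⟨.nil, by simp⟩
  | succ j ih =>
    rcases mem_succ.1 hx with h | ⟨y, hy, e⟩
    · obtain ⟨w, hw⟩ := ih h
      exact ⟨w, by omega⟩
    · obtain ⟨w, hw⟩ := ih hy
      exact ⟨w.concat e, by simp; omega⟩

/-- Two balls that meet join their centres. -/
theorem mem_ball_add {a b : ℕ} (h1 : x ∈ ball G v a) (h2 : x ∈ ball G k b) :
    k ∈ ball G v (a + b) := by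
  induction b generalizing a x with
  | zero => obtain rfl := mem_zero.1 h2; simpa using h1
  | succ b ih =>
    rcases mem_succ.1 h2 with h | ⟨y, hy, e⟩
    · exact ball_mono (by omega) (ih h1 h)
    · have h := ih (mem_succ.2 (Or.inr ⟨x, h1, e.symm⟩) : y ∈ ball G v (a + 1)) hy
      rwa [show a + 1 + b = a + (b + 1) by omega] at h

theorem mem_symm {b : ℕ} (h : v ∈ ball G k b) : k ∈ ball G v b := by
  simpa using mem_ball_add (mem_zero.2 rfl : v ∈ ball G v 0) h

open Classical in
/-- The vertices at more than `j + 1` steps from `v`. -/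
noncomputable def outer (G : SimpleGraph V) (v : V) (j : ℕ) : Finset V :=
  Finset.univ \ ball G v (j + 1)

theorem outer_add (h : Bad G m A) (j : ℕ) :
    alpha G (ball G v j) + alpha G (outer G v j) ≤ A := by
  classical
  refine le_trans (alpha_add_le (Finset.subset_univ _) (Finset.subset_univ _) ?_ ?_) h.hA
  · exact Finset.disjoint_left.2 fun x hx hx' =>
      (Finset.mem_sdiff.1 hx').2 (ball_mono (by omega) hx)
  · exact fun a ha b hb e => (Finset.mem_sdiff.1 hb).2 (mem_succ.2 (Or.inr ⟨a, ha, e⟩))

theorem card_split (j : ℕ) :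
    Fintype.card V = (ball G v (j + 1)).card + (outer G v j).card := by
  classical
  rw [outer, ← Finset.card_univ, Finset.card_sdiff_of_subset (Finset.subset_univ _)]
  have := Finset.card_le_univ (ball G v (j + 1))
  rw [← Finset.card_univ] at this
  omega

theorem alpha_ball_pos (j : ℕ) : 1 ≤ alpha G (ball G v j) :=
  alpha_pos (ball_mono (Nat.zero_le j) (mem_zero.2 rfl))

/-- A closed neighbourhood is no clique. -/
theorem two_le_first (h : Bad G m A) (hω : CliqueLE G Finset.univ ((m - 1) / 2)) :
    2 ≤ alpha G (ball G v 1) := by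
  have h1 := alpha_ball_pos (G := G) (v := v) 0
  have hs := outer_add (v := v) h 0
  have hu : (outer G v 0).card ≤ (m - 1) * (A - 1) :=
    (h.small _ (by omega)).trans (Nat.mul_le_mul_left _ (by omega))
  have hc : Fintype.card V = (ball G v 1).card + (outer G v 0).card := card_split 0
  have hbig := h.big
  have hA2 := h.hA2
  have e : (m - 1) * (A - 1) + (m - 1) = (m - 1) * A := by
    rw [← Nat.mul_succ, show (A - 1).succ = A by omega]
  refine two_le_alpha_of_card hω (Finset.subset_univ _) ?_
  omega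

/-- Balls grow by two. -/
theorem step (h : Bad G m A) (hω : CliqueLE G Finset.univ ((m - 1) / 2)) (hM : MBound G m)
    (v : V) (j : ℕ) :
    min (alpha G (ball G v j) + 2) A ≤ alpha G (ball G v (j + 1)) := by
  by_contra hlt
  have h1 := alpha_ball_pos (G := G) (v := v) j
  have hs := outer_add (v := v) h j
  have hc : Fintype.card V = (ball G v (j + 1)).card + (outer G v j).card := card_split j
  have ha2 : 2 ≤ alpha G (ball G v (j + 1)) :=
    (two_le_first h hω).trans (alpha_mono (ball_mono (by omega)))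
  have hbig := h.big
  have hAm := h.hAm
  have hA2 := h.hA2
  have hb := h.small (ball G v (j + 1)) (by omega)
  by_cases hU : alpha G (outer G v j) ≤ 1
  · have hk := hω _ (Finset.subset_univ (outer G v j)) (isClique_of_alpha_le_one hU)
    have e := Nat.mul_le_mul_left (m - 1) (show alpha G (ball G v (j + 1)) + 1 ≤ A by omega)
    rw [Nat.mul_add, Nat.mul_one] at e
    omega
  rcases le_total (alpha G (outer G v j)) (alpha G (ball G v (j + 1))) with hle | hle
  · have hu := hM (outer G v j) _ (by omega) (by omega) le_rfl (hω.mono (Finset.subset_univ _))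
    have e := Nat.mul_le_mul_left (m - 1)
      (show alpha G (ball G v (j + 1)) + (alpha G (outer G v j) - 1) ≤ A by omega)
    rw [Nat.mul_add] at e
    omega
  · have hu := hM (ball G v (j + 1)) _ ha2 (by omega) le_rfl (hω.mono (Finset.subset_univ _))
    have hu' := h.small (outer G v j) (by omega)
    have e := Nat.mul_le_mul_left (m - 1)
      (show (alpha G (ball G v (j + 1)) - 1) + alpha G (outer G v j) ≤ A by omega)
    rw [Nat.mul_add] at e
    omega

theorem lb (h : Bad G m A) (hω : CliqueLE G Finset.univ ((m - 1) / 2)) (hM : MBound G m)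
    (v : V) (j : ℕ) : min (2 * j + 1) A ≤ alpha G (ball G v j) := by
  induction j with
  | zero => have := alpha_ball_pos (G := G) (v := v) 0; omega
  | succ j ih => have := step h hω hM v j; omega

/-- The step across half of `h` gains three. -/
theorem lb_two (h : Bad G m A) (hm : 11 ≤ m) (hω : CliqueLE G Finset.univ ((m - 1) / 2))
    (hM : MBound G m) (hA : 2 * ((m - 1) / 2) ≤ A) (v : V) {j : ℕ}
    (hj : ((m - 1) / 2 - 1) / 2 < j) : min (2 * j + 2) A ≤ alpha G (ball G v j) := by
  induction j, hj using Nat.le_induction with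
  | succ j _ ih => have := step h hω hM v j; omega
  | base =>
    obtain ⟨p, hp⟩ : ∃ p, p = ((m - 1) / 2 - 1) / 2 := ⟨_, rfl⟩
    simp only [← hp, Nat.succ_eq_add_one]
    by_contra hlt
    have hAm := h.hAm
    have hbig := h.big
    have hl := lb h hω hM v p
    have hs := outer_add (v := v) h p
    have hc : Fintype.card V = (ball G v (p + 1)).card + (outer G v p).card := card_split p
    have ha2 : 2 ≤ alpha G (ball G v (p + 1)) :=
      (two_le_first h hω).trans (alpha_mono (ball_mono (by omega)))
    have hu := hM (ball G v (p + 1)) _ ha2 (by omega) le_rfl (hω.mono (Finset.subset_univ _))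
    have hu' := hM (outer G v p) (max 2 (alpha G (outer G v p))) (le_max_left _ _) (by omega)
      (le_max_right _ _) (hω.mono (Finset.subset_univ _))
    have e := Nat.mul_le_mul_left (m - 1)
      (show (alpha G (ball G v (p + 1)) - 1) + (max 2 (alpha G (outer G v p)) - 1) ≤ A by omega)
    rw [Nat.mul_add] at e
    omega

/-- A ball of full independence number reaches everything in one more step. -/
theorem mem_of_full (h : Bad G m A) {j : ℕ} (hj : A ≤ alpha G (ball G v j)) (x : V) :
    x ∈ ball G v (j + 1) := by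
  classical
  by_contra hx
  have hxo : x ∈ outer G v j := Finset.mem_sdiff.2 ⟨Finset.mem_univ x, hx⟩
  have := alpha_pos (G := G) hxo
  have := outer_add (v := v) h j
  omega

/-- Between two vertices at distance `h + 1` no layer has a single shortest-path vertex. -/
theorem layer_two (h : Bad G m A) (hm : 11 ≤ m) (hω : CliqueLE G Finset.univ ((m - 1) / 2))
    (hM : MBound G m) (hA : A = 2 * ((m - 1) / 2) + 1)
    (hvk : k ∉ ball G v ((m - 1) / 2)) {t : ℕ} (ht1 : 1 ≤ t) (ht : t + 1 ≤ (m - 1) / 2) (w : V) :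
    ∃ x, x ≠ w ∧ x ∈ ball G v t ∧ x ∈ ball G k ((m - 1) / 2 + 1 - t) := by
  classical
  by_contra hno
  push Not at hno
  have hle : ∀ {a : ℕ}, a ≤ (m - 1) / 2 → k ∉ ball G v a := fun ha hk => hvk (ball_mono ha hk)
  have hsum : alpha G ((ball G v t).erase w) + alpha G (ball G k ((m - 1) / 2 - t)) ≤ A := by
    refine le_trans (alpha_add_le (Finset.subset_univ _) (Finset.subset_univ _) ?_ ?_) h.hA
    · exact Finset.disjoint_left.2 fun x hx hy =>
        hle (a := t + ((m - 1) / 2 - t)) (by omega) (mem_ball_add (Finset.mem_erase.1 hx).2 hy)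
    · intro a ha b hb e
      obtain ⟨haw, hav⟩ := Finset.mem_erase.1 ha
      refine hno a haw hav ?_
      rw [show (m - 1) / 2 + 1 - t = (m - 1) / 2 - t + 1 by omega]
      exact mem_succ.2 (Or.inr ⟨b, hb, e.symm⟩)
  obtain ⟨S, hS, hSi, hSc⟩ := exists_alpha (G := G) (ball G v t)
  have := le_alpha (G := G) (W := (ball G v t).erase w) (S := S.erase w)
    (Finset.erase_subset_erase w hS)
    (fun a ha b hb => hSi a (Finset.mem_of_mem_erase ha) b (Finset.mem_of_mem_erase hb))
  have := Finset.pred_card_le_card_erase (a := w) (s := S)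
  have := lb h hω hM v t
  have := lb h hω hM k ((m - 1) / 2 - t)
  rcases Nat.lt_or_ge (((m - 1) / 2 - 1) / 2) t with hj | hj
  · have := lb_two h hm hω hM (by omega) v hj
    omega
  · have := lb_two h hm hω hM (by omega) k
      (j := (m - 1) / 2 - t) (by omega)
    omega

/-- A shortest path from `v` of length `t`, given by its vertices. -/
def Geo (G : SimpleGraph V) (Z : ℕ → V → Prop) (v : V) (t : ℕ) (f : ℕ → V) : Prop :=
  f 0 = v ∧ (∀ i, i ≤ t → Z i (f i)) ∧ ∀ i, i < t → G.Adj (f i) (f (i + 1))

variable {Z : ℕ → V → Prop}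

omit [Fintype V] in
theorem Geo.extend {t : ℕ} {f : ℕ → V} (hf : Geo G Z v t f) (hx : Z (t + 1) x)
    (ha : G.Adj (f t) x) :
    Geo G Z v (t + 1) (fun i => if i ≤ t then f i else x) := by
  refine ⟨by simpa using hf.1, fun i hi => ?_, fun i hi => ?_⟩
  · by_cases e : i ≤ t
    · simpa [e] using hf.2.1 i e
    · simpa [e, show i = t + 1 by omega] using hx
  · by_cases e : i + 1 ≤ t
    · simpa [e, show i ≤ t by omega] using hf.2.2 i e
    · simpa [e, show i = t by omega] using ha

omit [Fintype V] in
theorem Geo.splice {t l : ℕ} {f e : ℕ → V} (hf : Geo G Z v t f) (he : Geo G Z v t e)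
    (hl : l ≤ t) (hfe : e l = f l) : Geo G Z v t (fun i => if i ≤ l then f i else e i) := by
  refine ⟨by simpa using hf.1, fun i hi => ?_, fun i hi => ?_⟩
  · by_cases c : i ≤ l
    · simpa [c] using hf.2.1 i hi
    · simpa [c] using he.2.1 i hi
  · by_cases c : i + 1 ≤ l
    · simpa [c, show i ≤ l by omega] using hf.2.2 i hi
    · by_cases c' : i ≤ l
      · obtain rfl : i = l := by omega
        simpa [← hfe] using he.2.2 i hi
      · simpa [c, c'] using he.2.2 i hi

omit [Fintype V] in
theorem Geo.disjoint_extend {t : ℕ} {f g : ℕ → V} {a b : V} {i : ℕ} (h1 : 1 ≤ i)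
    (hab : a ≠ b) (hd : ∀ i, 1 ≤ i → i ≤ t → f i ≠ g i) :
    (if i ≤ t then f i else a) ≠ (if i ≤ t then g i else b) := by
  by_cases c : i ≤ t
  · simpa [c] using hd i h1 c
  · simpa [c] using hab

omit [Fintype V] in
/-- Layers with two or more vertices each carry two disjoint paths. -/
theorem two_paths {h : ℕ} (hv : Z 0 v) (h0 : ∀ x, Z 0 x → x = v)
    (pred : ∀ t x, t < h → Z (t + 1) x → ∃ y, Z t y ∧ G.Adj y x)
    (succ : ∀ t x, t < h → Z t x → ∃ y, Z (t + 1) y ∧ G.Adj x y)
    (two : ∀ t w, 1 ≤ t → t ≤ h → ∃ x, x ≠ w ∧ Z t x) :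
    ∀ t, 1 ≤ t → t ≤ h → ∀ x, Z t x → ∃ f g : ℕ → V, Geo G Z v t f ∧ Geo G Z v t g ∧
      f t = x ∧ ∀ i, 1 ≤ i → i ≤ t → f i ≠ g i := by
  classical
  have one : ∀ t x, t ≤ h → Z t x → ∃ f, Geo G Z v t f ∧ f t = x := by
    intro t
    induction t with
    | zero =>
      exact fun x _ hx => ⟨fun _ => v, ⟨rfl, fun i hi => by
        simpa [show i = 0 by omega] using hv, fun i hi => by omega⟩, (h0 x hx).symm⟩
    | succ t ih =>
      intro x ht hx
      obtain ⟨y, hy, e⟩ := pred t x (by omega) hx
      obtain ⟨f, hf, rfl⟩ := ih y (by omega) hy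
      exact ⟨_, hf.extend hx e, by simp⟩
  intro t ht1
  induction t, ht1 using Nat.le_induction with
  | base =>
    intro ht x hx
    obtain ⟨x', hne, hx'⟩ := two 1 x le_rfl ht
    obtain ⟨f, hf, rfl⟩ := one 1 x ht hx
    obtain ⟨g, hg, rfl⟩ := one 1 x' ht hx'
    exact ⟨f, g, hf, hg, rfl, fun i h1 h2 => by
      simpa [show i = 1 by omega] using hne.symm⟩
  | succ t ht1 ih =>
    intro ht x hx
    obtain ⟨a, ha, hax⟩ := pred t x (by omega) hx
    obtain ⟨f, g, hf, hg, rfl, hd⟩ := ih (by omega) a ha
    by_cases hgx : G.Adj (g t) x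
    · obtain ⟨d, hdne, hdZ⟩ := two (t + 1) x (by omega) ht
      obtain ⟨c, hc, hcd⟩ := pred t d (by omega) hdZ
      obtain ⟨e, he, rfl⟩ := one t c (by omega) hc
      let l := Nat.findGreatest (fun i => e i = f i ∨ e i = g i) t
      have hlt : l ≤ t := Nat.findGreatest_le t
      have hspec : e l = f l ∨ e l = g l :=
        Nat.findGreatest_spec (m := 0) (P := fun i => e i = f i ∨ e i = g i) (Nat.zero_le t)
          (Or.inl (he.1.trans hf.1.symm))
      have htop : ∀ i, l < i → i ≤ t → e i ≠ f i ∧ e i ≠ g i := fun i h1 h2 =>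
        not_or.1 (Nat.findGreatest_is_greatest (P := fun i => e i = f i ∨ e i = g i) h1 h2)
      have hend : ∀ p : ℕ → V, e l = p l → (if t ≤ l then p t else e t) = e t := fun p hp => by
        by_cases c : t ≤ l
        · rw [if_pos c, show t = l by omega, hp]
        · rw [if_neg c]
      rcases hspec with hl | hl
      · refine ⟨_, _, hg.extend hx hgx,
          (hf.splice he hlt hl).extend hdZ (by simpa only [hend f hl] using hcd), by simp,
          fun i h1 h2 => ?_⟩
        by_cases ct : i ≤ t
        · by_cases c : i ≤ l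
          · simpa [c, ct] using (hd i h1 ct).symm
          · simpa [c, ct] using (htop i (by omega) ct).2.symm
        · simpa [ct] using hdne.symm
      · refine ⟨_, _, hf.extend hx hax,
          (hg.splice he hlt hl).extend hdZ (by simpa only [hend g hl] using hcd), by simp,
          fun i h1 h2 => ?_⟩
        by_cases ct : i ≤ t
        · by_cases c : i ≤ l
          · simpa [c, ct] using hd i h1 ct
          · simpa [c, ct] using (htop i (by omega) ct).1.symm
        · simpa [ct] using hdne.symm
    · obtain ⟨x', hx', hgx'⟩ := succ t (g t) (by omega) (hg.2.1 t le_rfl)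
      exact ⟨_, _, hf.extend hx hax, hg.extend hx' hgx', by simp, fun i h1 h2 =>
        Geo.disjoint_extend h1 (by rintro rfl; exact hgx hgx') hd⟩

omit [Fintype V] in
/-- Two disjoint shortest paths to neighbours of `k` close a cycle. -/
theorem cycle_of_paths {h : ℕ} {f g : ℕ → V} (h1 : 1 ≤ h) (hf : Geo G Z v h f)
    (hg : Geo G Z v h g) (uniq : ∀ i j x, i < j → j ≤ h → Z i x → ¬Z j x)
    (hk : ∀ i, i ≤ h → ¬Z i k) (hkf : G.Adj k (f h)) (hgk : G.Adj (g h) k)
    (hd : ∀ i, 1 ≤ i → i ≤ h → f i ≠ g i) : HasCyc G (2 * h + 2) := by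
  let F : ℕ → V := fun i => if i ≤ h then f (h - i) else if i ≤ 2 * h then g (i - h) else k
  have lvl : ∀ {i j : ℕ} {p q : ℕ → V}, Geo G Z v h p → Geo G Z v h q → i ≤ h → j ≤ h →
      p i = q j → i = j := by
    intro i j p q hp hq hi hj e
    rcases lt_trichotomy i j with c | c | c
    · exact absurd (hq.2.1 j hj) (uniq i j (q j) c hj (e ▸ hp.2.1 i hi))
    · exact c
    · exact absurd (hp.2.1 i hi) (uniq j i (p i) c hi (e.symm ▸ hq.2.1 j hj))
  have inj : ∀ p q, 0 ≤ p → p < q → q ≤ 2 * h + 1 → F p ≠ F q := by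
    intro p q _ hpq hq e
    by_cases cq : q ≤ h
    · simp only [F, cq, show p ≤ h by omega, if_true] at e
      have := lvl hf hf (by omega) (by omega) e
      omega
    by_cases cq' : q ≤ 2 * h
    · by_cases cp : p ≤ h
      · simp only [F, cq, cp, cq', if_true, if_false] at e
        have := lvl hf hg (by omega) (by omega) e
        exact hd (q - h) (by omega) (by omega) (this ▸ e)
      · simp only [F, cq, cp, cq', show p ≤ 2 * h by omega, if_true, if_false] at e
        have := lvl hg hg (by omega) (by omega) e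
        omega
    · by_cases cp : p ≤ h
      · simp only [F, cq, cp, cq', if_true, if_false] at e
        exact hk (h - p) (by omega) (e ▸ hf.2.1 (h - p) (by omega))
      · simp only [F, cq, cp, cq', show p ≤ 2 * h by omega, if_true, if_false] at e
        exact hk (p - h) (by omega) (e ▸ hg.2.1 (p - h) (by omega))
  have adj : ∀ p, 0 ≤ p → p < 2 * h + 1 → G.Adj (F p) (F (p + 1)) := by
    intro p _ hp
    by_cases c : p + 1 ≤ h
    · simp only [F, c, show p ≤ h by omega, if_true]
      simpa [show h - (p + 1) + 1 = h - p by omega] using (hf.2.2 (h - (p + 1)) (by omega)).symm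
    by_cases c' : p ≤ h
    · simp only [F, c, c', show p + 1 ≤ 2 * h by omega, if_true, if_false]
      rw [show h - p = 0 by omega, show p + 1 - h = 1 by omega, hf.1, ← hg.1]
      exact hg.2.2 0 (by omega)
    by_cases c'' : p + 1 ≤ 2 * h
    · simp only [F, c, c', c'', show p ≤ 2 * h by omega, if_true, if_false]
      simpa [show p - h + 1 = p + 1 - h by omega] using hg.2.2 (p - h) (by omega)
    · simp only [F, c, c', c'', show p ≤ 2 * h by omega, if_true, if_false]
      rwa [show p - h = h by omega]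
  have P := Pth.seg (G := G) F (Nat.zero_le (2 * h + 1)) inj adj
  have e1 : F 0 = f h := by simp [F]
  have e2 : F (2 * h + 1) = k := by simp [F]; omega
  rw [e1, e2, show 2 * h + 1 - 0 + 1 = 2 * h + 2 by omega] at P
  exact P.cycle hkf (by omega)

/-- Block Final. -/
theorem finalPin : FinalPin := by
  intro V _ G m A h hm hω hM hrad
  classical
  have hbig := h.big
  have hAm := h.hAm
  obtain ⟨v⟩ : Nonempty V := Fintype.card_pos_iff.1 (by omega)
  obtain ⟨k, hk⟩ := hrad v
  have hvk : k ∉ ball G v ((m - 1) / 2) := fun hx => by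
    obtain ⟨w, hw⟩ := exists_walk hx
    have := hk w
    omega
  have hfull : alpha G (ball G v ((m - 1) / 2 - 1)) < A := by
    by_contra hj
    have := mem_of_full h (not_lt.1 hj) k
    rw [show (m - 1) / 2 - 1 + 1 = (m - 1) / 2 by omega] at this
    exact hvk this
  have := lb h hω hM v ((m - 1) / 2 - 1)
  have := lb_two h hm hω hM (by omega) v (j := (m - 1) / 2 - 1) (by omega)
  obtain ⟨H, hH⟩ : ∃ H, H = (m - 1) / 2 := ⟨_, rfl⟩
  have hA : A = 2 * H + 1 := by omega
  have hmH : m = 2 * H + 2 := by omega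
  rw [← hH] at hvk
  have := lb h hω hM v H
  have hreach := mem_of_full h (j := H) (v := v) (by omega) k
  have hkv : v ∉ ball G k H := fun hx => hvk (mem_symm hx)
  let Z : ℕ → V → Prop := fun t x => x ∈ ball G v t ∧ x ∈ ball G k (H + 1 - t)
  have far : ∀ {t s : ℕ} {x : V}, x ∈ ball G v t → x ∈ ball G k s → H < t + s :=
    fun hx hy => not_le.1 fun hle => hvk (ball_mono hle (mem_ball_add hx hy))
  have pred : ∀ t x, t < H + 1 → Z (t + 1) x → ∃ y, Z t y ∧ G.Adj y x := by
    rintro t x ht ⟨hx, hx'⟩
    rw [show H + 1 - (t + 1) = H - t by omega] at hx'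
    rcases mem_succ.1 hx with hy | ⟨y, hy, e⟩
    · have := far hy hx'
      omega
    · refine ⟨y, ⟨hy, ?_⟩, e⟩
      rw [show H + 1 - t = H - t + 1 by omega]
      exact mem_succ.2 (Or.inr ⟨x, hx', e.symm⟩)
  have succ : ∀ t x, t < H + 1 → Z t x → ∃ y, Z (t + 1) y ∧ G.Adj x y := by
    rintro t x ht ⟨hx, hx'⟩
    rw [show H + 1 - t = H - t + 1 by omega] at hx'
    rcases mem_succ.1 hx' with hy | ⟨y, hy, e⟩
    · have := far hx hy
      omega
    · exact ⟨y, ⟨mem_succ.2 (Or.inr ⟨x, hx, e.symm⟩),
        by rwa [show H + 1 - (t + 1) = H - t by omega]⟩, e.symm⟩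
  have two : ∀ t w, 1 ≤ t → t ≤ H → ∃ x, x ≠ w ∧ Z t x := by
    intro t w h1 h2
    rcases Nat.lt_or_ge t H with hlt | hge
    · simpa only [Z, ← hH] using
        layer_two h hm hω hM (hH ▸ hA) (hH ▸ hvk) h1 (hH ▸ hlt) w
    · obtain ⟨x, h3, h4, h5⟩ :=
        layer_two h hm hω hM (hH ▸ hA) (hH ▸ hkv) le_rfl (by omega) w
      obtain rfl : t = H := by omega
      refine ⟨x, h3, ?_, ?_⟩
      · rwa [← hH, show t + 1 - 1 = t by omega] at h5
      · rwa [show t + 1 - t = 1 by omega]
  obtain ⟨x, -, hx⟩ := two H v (by omega) le_rfl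
  obtain ⟨f, g, hf, hg, -, hd⟩ :=
    two_paths (h := H) ⟨mem_zero.2 rfl, mem_symm hreach⟩ (fun x hx => mem_zero.1 hx.1)
      (fun t x ht => pred t x (by omega)) (fun t x ht => succ t x (by omega)) two H (by omega)
      le_rfl x hx
  have last : ∀ y, Z H y → G.Adj y k := by
    intro y hy
    obtain ⟨z, hz, e⟩ := succ H y (by omega) hy
    have : z = k := by
      have := hz.2
      rw [show H + 1 - (H + 1) = 0 by omega] at this
      exact mem_zero.1 this
    exact this ▸ e
  refine h.free (hmH ▸ cycle_of_paths (by omega) hf hg ?_ ?_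
    (last _ (hf.2.1 H le_rfl)).symm (last _ (hg.2.1 H le_rfl)) hd)
  · rintro i j y hij hj ⟨hy, -⟩ ⟨-, hy'⟩
    have := far hy hy'
    omega
  · exact fun i hi hy => hvk (ball_mono hi hy.1)

end Vale.Agent.P048.Full.Final

namespace Vale.Agent.P048.Full

/-- Block Final. -/
theorem finalPin : FinalPin := Final.finalPin

end Vale.Agent.P048.Full
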