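import Vale.Agent.P048.Full.Assemble

namespace Vale.Agent.P048.Full

/-- The identity at a pair whose cycle length has no counterexample. -/
theorem identity_of {m n : ℕ} (hn : 3 ≤ n) (hmn : n ≤ m) (hm : 4 ≤ m)
    (hbad : ∀ (V : Type) [Fintype V] (G : SimpleGraph V) (A : ℕ), Bad G m A → False) (N : ℕ) :
    ((∀ G : SimpleGraph (Fin N), (∃ (u : Fin N) (w : G.Walk u u), w.IsCycle ∧ w.length = m) ∨
        ∃ S : Finset (Fin N), G.IsNIndepSet n S) ↔ (m - 1) * (n - 1) + 1 ≤ N) := by
  constructor
  · intro hall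
    by_contra hN
    let G : SimpleGraph (Fin N) :=
      { Adj := fun x y => x ≠ y ∧ (x : ℕ) / (m - 1) = (y : ℕ) / (m - 1)
        symm := ⟨fun _ _ h => ⟨h.1.symm, h.2.symm⟩⟩
        loopless := ⟨fun _ h => h.1 rfl⟩ }
    rcases hall G with ⟨u, w, hw, hl⟩ | ⟨S, hS⟩
    · have same : ∀ (a b : Fin N) (p : G.Walk a b), ∀ x ∈ p.support,
          (x : ℕ) / (m - 1) = (a : ℕ) / (m - 1) := by
        intro a b p
        induction p with
        | nil => simp
        | cons h p ih =>
          intro x hx
          rw [SimpleGraph.Walk.support_cons, List.mem_cons] at hx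
          rcases hx with rfl | hx
          · rfl
          · exact (ih x hx).trans h.2.symm
      have hinj : Set.InjOn (fun x : Fin N => (x : ℕ) % (m - 1)) {x | x ∈ w.support.tail} := by
        intro x hx y hy h
        have e := (same u u w x (List.mem_of_mem_tail hx)).trans
          (same u u w y (List.mem_of_mem_tail hy)).symm
        have h' : (x : ℕ) % (m - 1) = (y : ℕ) % (m - 1) := h
        apply Fin.ext
        rw [← Nat.div_add_mod (x : ℕ) (m - 1), ← Nat.div_add_mod (y : ℕ) (m - 1), e, h']
      have hc := Finset.card_le_card_of_injOn (s := w.support.tail.toFinset)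
        (t := Finset.range (m - 1)) (fun x : Fin N => (x : ℕ) % (m - 1))
        (fun x _ => Finset.mem_coe.2 (Finset.mem_range.2 (Nat.mod_lt _ (by omega))))
        (fun x hx y hy h => hinj (by simpa using hx) (by simpa using hy) h)
      rw [List.toFinset_card_of_nodup hw.support_nodup, List.length_tail,
        SimpleGraph.Walk.length_support, Finset.card_range] at hc
      omega
    · have hc := Finset.card_le_card_of_injOn (s := S) (t := Finset.range (n - 1))
        (fun x : Fin N => (x : ℕ) / (m - 1))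
        (fun x _ => Finset.mem_coe.2 (Finset.mem_range.2 ((Nat.div_lt_iff_lt_mul (by omega)).2 (by
          have := x.isLt
          rw [Nat.mul_comm]
          omega))))
        (fun x hx y hy h => by
          by_contra hne
          exact hS.isIndepSet hx hy hne ⟨hne, h⟩)
      rw [hS.card_eq, Finset.card_range] at hc
      omega
  · intro hN G
    by_contra hno
    push Not at hno
    have := card_le_of m hbad (n - 1) (Fin N) G hm (by omega)
      (fun ⟨u, w, h1, h2⟩ => hno.1 u w h1 h2) (by
        by_contra hgt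
        obtain ⟨S, -, hS, hc⟩ := exists_alpha (G := G) Finset.univ
        obtain ⟨S', h1, h2⟩ := Finset.exists_subset_card_eq (s := S) (show n ≤ S.card by omega)
        exact hno.2 S' ⟨fun a ha b hb _ => hS a (h1 ha) b (h1 hb), h2⟩)
    rw [Fintype.card_fin] at this
    omega

theorem identity (p2 : A2Pin) (pM : MPin) (pC : ClashPin) (pCol : ColourPin) (pF : FinalPin)
    (pS : SmallPin) : ∀ m n : ℕ, 3 ≤ n → n ≤ m → 4 ≤ m → ∀ N : ℕ,
    ((∀ G : SimpleGraph (Fin N), (∃ (u : Fin N) (w : G.Walk u u), w.IsCycle ∧ w.length = m) ∨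
        ∃ S : Finset (Fin N), G.IsNIndepSet n S) ↔ (m - 1) * (n - 1) + 1 ≤ N) :=
  fun _ _ hn hmn hm => identity_of hn hmn hm fun _ _ _ _ h => h.false p2 pM pC pCol pF pS

/-- The excluded pair: some graph on five vertices has no triangle and no three pairwise
non-adjacent vertices, so `R(C₃,K₃) > 5`. -/
theorem three_three : ¬∀ G : SimpleGraph (Fin 5),
    (∃ (u : Fin 5) (w : G.Walk u u), w.IsCycle ∧ w.length = 3) ∨
      ∃ S : Finset (Fin 5), G.IsNIndepSet 3 S := by
  intro h
  let G : SimpleGraph (Fin 5) :=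
    { Adj := fun x y => ((x : ℕ) + 1) % 5 = y ∨ ((y : ℕ) + 1) % 5 = x
      symm := ⟨fun _ _ h => h.symm⟩
      loopless := ⟨fun x h => by fin_cases x <;> simp at h⟩ }
  rcases h G with ⟨u, w, hw, hl⟩ | ⟨S, hS⟩
  · have key : ∀ a b c : Fin 5, G.Adj a b → G.Adj b c → G.Adj c a → False := by decide
    rcases w with _ | ⟨ha, w⟩
    · simp at hl
    rcases w with _ | ⟨hb, w⟩
    · simp at hl
    rcases w with _ | ⟨hc, w⟩
    · simp at hl
    rcases w with _ | ⟨hd, w⟩
    · exact key _ _ _ ha hb hc
    · simp at hl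
  · have key : ∀ a b c : Fin 5, a ≠ b → a ≠ c → b ≠ c →
        G.Adj a b ∨ G.Adj a c ∨ G.Adj b c := by decide
    obtain ⟨a, b, c, hab, hac, hbc, rfl⟩ := Finset.card_eq_three.1 hS.card_eq
    rcases key a b c hab hac hbc with e | e | e
    · exact hS.isIndepSet (by simp) (by simp) hab e
    · exact hS.isIndepSet (by simp) (by simp) hac e
    · exact hS.isIndepSet (by simp) (by simp) hbc e

end Vale.Agent.P048.Full
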