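import Vale.Agent.P048.Full.Base

/-! # The blocks for cycles on seven to ten vertices

With `h = (m - 1) / 2` (so `h = 3` for `m = 7, 8` and `h = 4` for `m = 9, 10`) the blocks of the
general proof hold in a weaker form, which is still enough. -/

namespace Vale.Agent.P048.Full

open Finset

variable {V : Type}

/-- The sizes of sets without large cliques that are needed for small `m`. -/
structure SBound (G : SimpleGraph V) (m : ℕ) : Prop where
  upto3 : ∀ (X : Finset V) (b : ℕ), 2 ≤ b → b ≤ 3 → alpha G X ≤ b →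
    CliqueLE G X ((m - 1) / 2) → X.card ≤ (m - 1) * (b - 1)
  upto5 : 9 ≤ m → ∀ (X : Finset V) (b : ℕ), 2 ≤ b → b ≤ 5 → alpha G X ≤ b →
    CliqueLE G X ((m - 1) / 2) → X.card ≤ (m - 1) * (b - 1)
  four : 9 ≤ m → ∀ X : Finset V, alpha G X ≤ 4 →
    CliqueLE G X ((m - 1) / 2) → X.card + 1 ≤ (m - 1) * 3

/-- The hypotheses of the small blocks. -/
structure SBad [Fintype V] (G : SimpleGraph V) (m A : ℕ) : Prop where
  bad : Bad G m A
  lo : 7 ≤ m
  hi : m ≤ 10
  hh : (m - 1) / 2 + 1 ≤ A
  hω : CliqueLE G Finset.univ ((m - 1) / 2)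
  hM : SBound G m

open Classical in
/-- The closed neighbourhood of `v`. -/
noncomputable def star (G : SimpleGraph V) [Fintype V] (v : V) : Finset V :=
  Finset.univ.filter fun x => x = v ∨ G.Adj v x

/-- Block SM: the bounds hold. -/
def SMPin : Prop :=
  ∀ (V : Type) (G : SimpleGraph V) (m : ℕ), 7 ≤ m → m ≤ 10 → ¬HasCyc G m → SBound G m

/-- Block SClash: no clique on more than half of `m` vertices. -/
def SClashPin : Prop :=
  ∀ (V : Type) [Fintype V] (G : SimpleGraph V) (m A : ℕ), Bad G m A → 7 ≤ m → m ≤ 10 →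
    (m - 1) / 2 + 1 ≤ A → CliqueLE G Finset.univ ((m - 1) / 2)

/-- Block SColour: the radius exceeds half of `m`, seen from a suitable root. For `m ≤ 8` and
`A = m - 1` the root has four independent vertices in its closed neighbourhood. -/
def SColourPin : Prop :=
  ∀ (V : Type) [Fintype V] (G : SimpleGraph V) (m A : ℕ), SBad G m A → ∀ v : V,
    (m ≤ 8 → A + 2 ≤ m ∨ 4 ≤ alpha G (star G v)) →
    ∃ k : V, ∀ w : G.Walk v k, (m - 1) / 2 < w.length

end Vale.Agent.P048.Full
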