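import Vale.Agent.P048.Full.MBall
import Vale.Agent.P048.Full.SmallBase

/-! # Block M: sets of small independence number without large cliques are small -/

namespace Vale.Agent.P048.Full

open Finset

variable {V : Type} {G : SimpleGraph V} {m b : ℕ} {W : Finset V} {X : Fx V}

theorem alpha_of_indep {K : Finset V} (h : Indep G K) : K.card ≤ alpha G K :=
  le_alpha (Finset.Subset.refl _) h

/-- A set of neighbours of the last vertex that is not a clique is impossible. -/
theorem Crit.far_out (c : Crit G m b W) (h : X.Ok G W) (hT : X.T + 1 = m) (hf : 1 ≤ X.R.card)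
    {K : Finset V} (hK : K ⊆ X.out G W) (ha : 2 ≤ alpha G K)
    (hsum : b + 2 ≤ alpha G K + X.R.card + awM m b)
    (hR : 2 ≤ (X.preds G).card ∨ ∀ y ∈ K, ¬G.Adj y (X.f 1)) : False := by
  have hm := c.hm
  have hoff : ∀ y ∈ K, y ∈ X.off W := fun y hy =>
    Fx.mem_off.2 ⟨(Fx.mem_out.1 (hK hy)).1, (Fx.mem_out.1 (hK hy)).2.2⟩
  refine c.link h (Or.inr hT) (S := K) (W0 := K) (k := 1) (r0 := X.R.card - 1)
    (fun y hy => (Fx.mem_out.1 (hK hy)).2.1) hoff (fun x hx => Near.self hx (hoff x hx) le_rfl) ha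
    (by omega) (by omega) (by omega) ?_
  by_cases h2 : 2 ≤ (X.preds G).card
  · exact Or.inr (Or.inl (by omega))
  · exact Or.inr (Or.inr ⟨1, by omega,
      fun hh => h2 (Finset.one_lt_card.2 ⟨0, h.zero_preds (by omega), 1, hh, by omega⟩),
      hR.resolve_left h2⟩)

/-- The first vertex has almost all of the path as neighbours, the last one an outside one. -/
theorem Crit.full (c : Crit G m b W) (h : X.Ok G W) (hT : X.T + 1 = m) (hb4 : b ≤ 4)
    (hbh : b ≤ (m - 1) / 2) (hf : b ≤ X.R.card + 1) (hp : m ≤ (X.preds G).card + 2) {y : V} (hy : y ∈ X.out G W) : False := by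
  classical
  have hm := c.hm
  have hb3 := c.hb3
  have haw : awM m b = 2 := if_pos hbh
  obtain ⟨hyW, hey, hyP⟩ := Fx.mem_out.1 hy
  have hα := c.link_two h hT (by omega) hy (by omega) (Or.inl (by omega))
    (B := insert y (X.offnb G W y)) fun z hz => Finset.mem_insert.1 hz
  have hω := c.hω (insert y (X.offnb G W y))
    (Finset.insert_subset hyW fun z hz => (Fx.mem_offnb.1 hz).1) (isClique_of_alpha_le_one hα)
  rw [Finset.card_insert_of_notMem fun hh => G.irrefl (Fx.mem_offnb.1 hh).2.1] at hω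
  have h1 := Fx.nb_le (W := W) (X := X) y Fx.preds_range fun t ht =>
    c.no_start h hT (by omega) hy ht
  have h2 := c.deg hyW
  omega

/-- The last vertex has no neighbour off the path. -/
theorem Crit.empty_out (c : Crit G m b W) (h : X.Ok G W) (hT : X.T + 1 = m) (hb4 : b ≤ 4)
    (hbh : b ≤ (m - 1) / 2) (hf : b ≤ X.R.card) (hout : X.out G W = ∅) : False := by
  classical
  have hm := c.hm
  have hre := c.deg_end h
  rw [hout, Finset.card_empty] at hre
  by_cases hK : ∃ y, y ∈ X.rev.out G W
  · obtain ⟨y, hy⟩ := hK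
    exact c.full h.rev hT hb4 hbh (by rw [Fx.rev_card h]; omega) (by omega) hy
  push Not at hK
  rw [← Finset.eq_empty_iff_forall_notMem] at hK
  have hs := c.deg_start h
  rw [hK, Finset.card_empty] at hs
  by_cases hi : ∃ i ∈ X.preds G, ∃ y ∈ W, y ∉ X.P ∧ G.Adj (X.f i) y
  · obtain ⟨i, hi, y, hyW, hyP, hadj⟩ := hi
    obtain ⟨h1, h2⟩ := Fx.mem_preds.1 hi
    have hok := h.rot h1 h2
    have hP : (X.rot i).rev.P = X.P := by rw [Fx.rev_P hok, Fx.rot_P (by omega)]
    have hc := Fx.rot_card h (i := i)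
    have hd := c.deg_start hok.rev
    have hempty : (X.rot i).rev.rev.out G W = ∅ := by
      rw [hok.out_rr, Finset.eq_empty_iff_forall_notMem]
      intro z hz
      rw [Fx.mem_out, Fx.rot_e h1, Fx.rot_P (by omega), ← Fx.mem_out, hout] at hz
      exact Finset.notMem_empty z hz
    rw [hempty, Finset.card_empty] at hd
    refine c.full hok.rev hT hb4 hbh ?_ (by omega) (y := y) (Fx.mem_out.2 ⟨hyW, ?_, hP ▸ hyP⟩)
    · rw [Fx.rev_card hok]
      omega
    · rw [Fx.rev_e, Fx.rot_s]
      exact hadj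
  push Not at hi
  let U1 := (X.preds G).image X.f
  have hU1 : U1 ⊆ W := fun z hz => by
    obtain ⟨i, hi, rfl⟩ := Finset.mem_image.1 hz
    exact h.mem i (by have := (Fx.mem_preds.1 hi).1; omega)
  have hU1c : U1.card = (X.preds G).card := Finset.card_image_of_injOn h.preds_injOn
  have hoffW : X.off W ⊆ W := fun z hz => (Fx.mem_off.1 hz).1
  have hcard : W.card ≤ X.T + (X.off W).card := by
    rw [← h.P_card]
    refine le_trans (Finset.card_le_card fun z hz => ?_) (Finset.card_union_le X.P (X.off W))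
    by_cases hzP : z ∈ X.P
    exacts [Finset.mem_union_left _ hzP, Finset.mem_union_right _ (Fx.mem_off.2 ⟨hz, hzP⟩)]
  have hbig := c.big
  have hphi := phi_mono (m := m) hm (c := 3) (by omega) c.hb3
  have e3 : (m - 1) * 2 - 1 ≤ phi m 3 := by
    simp only [phi, dd]
    split_ifs <;> omega
  have a1 := c.two_le hU1 (by omega)
  have a2 := c.two_le hoffW (by omega)
  have add := alpha_add_le (G := G) hU1 hoffW
    (Finset.disjoint_left.2 fun z hz hz' => by
      obtain ⟨i, hi', rfl⟩ := Finset.mem_image.1 hz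
      exact (Fx.mem_off.1 hz').2 (Fx.f_mem_P (by have := (Fx.mem_preds.1 hi').1; omega)))
    (fun p hp q hq => by
      obtain ⟨i, hi', rfl⟩ := Finset.mem_image.1 hp
      exact hi i hi' q (Fx.mem_off.1 hq).1 (Fx.mem_off.1 hq).2)
  have := c.hα
  refine c.sep (R := (Finset.range X.T \ X.preds G).image X.f) hU1 hoffW (fun x hx => ?_) a1 a2
    (by omega) ?_ (Or.inr ?_)
  · by_cases hxP : x ∈ X.P
    · obtain ⟨t, ht, rfl⟩ := Fx.mem_P.1 hxP
      by_cases htp : t ∈ X.preds G
      · exact Or.inr (Or.inl (Finset.mem_image_of_mem _ htp))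
      · exact Or.inl (Finset.mem_image_of_mem _
          (Finset.mem_sdiff.2 ⟨Finset.mem_range.2 ht, htp⟩))
    · exact Or.inr (Or.inr (Fx.mem_off.2 ⟨hx, hxP⟩))
  all_goals
    have h5 := Finset.card_image_le (s := Finset.range X.T \ X.preds G) (f := X.f)
    rw [Finset.card_sdiff_of_subset Fx.preds_range, Finset.card_range] at h5
    omega

/-- An extremal path of order `m - 2` has no edge among the outside neighbours of its end. -/
theorem Crit.edge_out (c : Crit G m b W) (he : MExt G m W X) (hf : 1 ≤ X.R.card)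
    (hT : X.T + 2 = m) {y y' : V} (hy : y ∈ X.out G W) (hy' : y' ∈ X.out G W)
    (hadj : G.Adj y y') : False := by
  classical
  have hm := c.hm
  have h := he.ok
  obtain ⟨S, hS, hcard⟩ := h.skeleton
  have hS0 : S = ∅ := Finset.eq_empty_of_forall_notMem fun i hi =>
    he.rule2 hm (hS i hi) y hy y' hy' hadj
  rw [hS0, Finset.card_empty] at hcard
  have hb := c.hb
  have hlow := c.hlow
  have hb3 := c.hb3
  have hsum : b + 1 ≤ X.R.card + 1 + awM m b := by
    simp only [awM]
    split_ifs <;> omega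
  obtain ⟨hyW, hey, hyP⟩ := Fx.mem_out.1 hy
  obtain ⟨hy'W, hey', hy'P⟩ := Fx.mem_out.1 hy'
  have hp := (Pth.single y').snoc hadj.symm (by simpa using hadj.ne)
  have hd : Disjoint (X.P : Set V) ({y'} ∪ {y}) := Set.disjoint_union_right.2
    ⟨Set.disjoint_singleton_right.2 hy'P, Set.disjoint_singleton_right.2 hyP⟩
  have hys : ¬G.Adj y X.s := fun hh =>
    c.free (h.close hp hd hey' hh (by omega) (by omega) (by omega) (by omega))
  have hyw : ∀ i ∈ X.preds G, ¬G.Adj y (X.f i) := fun i hi hh =>
    c.free (h.close_rot hp hd hey' (Fx.mem_preds.1 hi).1 (Fx.mem_preds.1 hi).2 hh (by omega)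
      (by omega) (by omega) (by omega))
  have hp0 : 1 ≤ (X.preds G).card := Finset.card_pos.2 ⟨0, h.zero_preds (by omega)⟩
  have oy : y ∈ X.off W := Fx.mem_off.2 ⟨hyW, hyP⟩
  by_cases hB : 2 ≤ alpha G (insert y (X.offnb G W y))
  · refine c.link h (Or.inl hT) (S := {y}) (W0 := insert y (X.offnb G W y)) (k := 2)
      (r0 := X.R.card - 1) (by simpa using hey) ?_ ?_ hB (by omega) (by omega)
      (fun _ z hz => by rw [Finset.mem_singleton.1 hz]; exact ⟨hys, hyw⟩) (Or.inr (Or.inl (by omega)))
    · exact Finset.insert_subset oy fun z hz =>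
        Fx.mem_off.2 ⟨(Fx.mem_offnb.1 hz).1, (Fx.mem_offnb.1 hz).2.2⟩
    · intro z hz
      rcases Finset.mem_insert.1 hz with rfl | hz
      · exact Near.self (Finset.mem_singleton_self _) oy (by omega)
      · obtain ⟨z1, z2, z3⟩ := Fx.mem_offnb.1 hz
        exact (Near.self (Finset.mem_singleton_self y) oy le_rfl).step z2 (Fx.mem_off.2 ⟨z1, z3⟩)
  · have hω := c.hω (insert y (X.offnb G W y))
      (Finset.insert_subset hyW fun z hz => (Fx.mem_offnb.1 hz).1)
      (isClique_of_alpha_le_one (by omega))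
    rw [Finset.card_insert_of_notMem fun hh => G.irrefl (Fx.mem_offnb.1 hh).2.1] at hω
    have h1 := Fx.nb_le (W := W) (X := X) y Fx.preds_range fun t ht => hyw t ht
    have h2 := c.deg hyW
    have h3 := c.deg_start h
    have hrev : G.Adj y X.rev.s := by
      rw [Fx.rev_s]
      exact hey.symm
    have hyP' : y ∉ X.rev.P := by rwa [Fx.rev_P h]
    have hok := h.rev.cons hyW hyP' hrev
    have hTc : (X.rev.cons y).T + 1 = m := show X.T + 1 + 1 = m by omega
    have hR : (X.rev.cons y).R.card = X.R.card := by rw [Fx.cons_card, Fx.rev_card h]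
    have he' : (X.rev.cons y).e = X.s := by
      rw [← Fx.rev_e]
      show (if X.T + 1 - 1 = 0 then y else X.rev.f (X.T + 1 - 1 - 1)) = X.rev.f (X.T - 1)
      rw [if_neg (by omega)]
      congr 1
    have hK : X.rev.out G W ⊆ (X.rev.cons y).out G W := fun z hz => by
      obtain ⟨z1, z2, z3⟩ := h.mem_rev_out.1 hz
      refine Fx.mem_out.2 ⟨z1, he'.symm ▸ z2, fun hh => ?_⟩
      rcases Fx.mem_cons_P.1 hh with rfl | hh
      · exact hys z2.symm
      · exact z3 (by rwa [Fx.rev_P h] at hh)
    have ha := c.two_le_nb (h.mem 0 h.pos) (K := X.rev.out G W)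
      (fun z hz => (h.mem_rev_out.1 hz).1) (fun z hz => (h.mem_rev_out.1 hz).2.1) (by omega)
    refine c.far_out hok hTc (by omega) hK ha (by omega) (Or.inl ?_)
    have h4 := c.deg_start hok
    have h5 : ((X.rev.cons y).rev.out G W).card ≤ (X.offnb G W y).card := by
      refine Finset.card_le_card fun z hz => ?_
      obtain ⟨z1, z2, z3⟩ := hok.mem_rev_out.1 hz
      refine Fx.mem_offnb.2 ⟨z1, z2, fun hh => z3 (Fx.mem_cons_P.2 (Or.inr ?_))⟩
      rwa [Fx.rev_P h]
    omega

/-- There is no smallest set breaking the bound. -/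
theorem Crit.false (c : Crit G m b W) : False := by
  classical
  obtain ⟨X, he, hf⟩ := c.exists_mext
  have h := he.ok
  have hm := c.hm
  have hb := c.hb
  have hlow := c.hlow
  have hb3 := c.hb3
  have hc := he.count c
  obtain ⟨S, hS, hcard⟩ := h.skeleton
  have hE : b + 3 ≤ (m - 1) / 2 + epsM m b + awM m b ∧ 2 ≤ awM m b ∧
      (epsM m b = 0 → b ≤ 4 ∧ b + 1 ≤ (m - 1) / 2) := by
    simp only [epsM, awM]
    refine ⟨?_, ?_, fun h0 => ?_⟩
    · split_ifs <;> omega
    · split_ifs <;> omega
    · split_ifs at h0 <;> omega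
  rcases he.adm.2 with hT | hT
  · -- order m - 2
    have hind : Indep G (X.out G W) := fun a ha a' ha' hadj => c.edge_out he hf hT ha ha' hadj
    have hs := c.deg_start h
    have hp := Fx.preds_card_lt (X := X) (G := G)
    obtain ⟨z, hzK, hzJ⟩ : ∃ z ∈ X.rev.out G W,
        z ∈ X.out G W ∨ ∀ y ∈ X.out G W, ¬G.Adj y X.s := by
      by_cases hJ : ∃ y ∈ X.out G W, G.Adj y X.s
      · obtain ⟨y, hy, hys⟩ := hJ
        exact ⟨y, h.mem_rev_out.2 ⟨(Fx.mem_out.1 hy).1, hys.symm, (Fx.mem_out.1 hy).2.2⟩,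
          Or.inl hy⟩
      · push Not at hJ
        obtain ⟨z, hz⟩ : (X.rev.out G W).Nonempty := Finset.card_pos.1 (by omega)
        exact ⟨z, hz, Or.inr hJ⟩
    obtain ⟨hzW, hsz, hzP⟩ := h.mem_rev_out.1 hzK
    have hok := h.cons hzW hzP hsz.symm
    have hTc : (X.cons z).T + 1 = m := show X.T + 1 + 1 = m by omega
    have hR : (X.cons z).R.card = X.R.card := Fx.cons_card
    have he' : (X.cons z).e = X.e := by
      show (if X.T + 1 - 1 = 0 then z else X.f (X.T + 1 - 1 - 1)) = X.f (X.T - 1)
      rw [if_neg (by omega)]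
      congr 1
    have hout : (X.cons z).out G W = (X.out G W).erase z := by
      ext u
      rw [Finset.mem_erase, Fx.mem_out, Fx.mem_out, he', Fx.mem_cons_P]
      tauto
    have hcase : z ∉ X.out G W → ∀ y ∈ (X.cons z).out G W, ¬G.Adj y ((X.cons z).f 1) := by
      intro hz y hy
      rw [hout] at hy
      exact hzJ.resolve_left hz y (Finset.mem_of_mem_erase hy)
    have hz2 : z ∈ X.out G W → 2 ≤ ((X.cons z).preds G).card ∧
        G.Adj (X.cons z).e (X.cons z).s := by
      intro hz
      have hez := (Fx.mem_out.1 hz).2.1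
      refine ⟨Finset.one_lt_card.2 ⟨0, hok.zero_preds (by omega), X.T - 1,
        Fx.mem_preds.2 ⟨by omega, ?_⟩, by omega⟩, he'.symm ▸ hez⟩
      show G.Adj z (if X.T - 1 + 1 = 0 then z else X.f (X.T - 1 + 1 - 1))
      rw [if_neg (by omega), show X.T - 1 + 1 - 1 = X.T - 1 by omega]
      exact hez.symm
    have hcF : (X.out G W).card ≤ ((X.cons z).out G W).card + 1 := by
      rw [hout]
      exact Nat.le_add_of_sub_le Finset.pred_card_le_card_erase
    have hcF' : z ∉ X.out G W → ((X.cons z).out G W).card = (X.out G W).card := fun hz => by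
      rw [hout, Finset.erase_eq_of_notMem hz]
    rcases Nat.lt_or_ge ((X.cons z).out G W).card 2 with h2 | h2
    · rcases Nat.eq_zero_or_pos ((X.cons z).out G W).card with h0 | h1
      · exact c.empty_out hok hTc (hE.2.2 (by omega)).1 ((Nat.le_succ b).trans (hE.2.2 (by omega)).2)
            (by have := hE.2.2 (by omega); omega) (Finset.card_eq_zero.1 h0)
      · obtain ⟨y, hy⟩ := Finset.card_pos.1 h1
        have huniq : ∀ u ∈ (X.cons z).out G W, u = y := fun u hu =>
          Finset.card_le_one.1 (by omega) u hu y hy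
        have hre := c.deg_end hok
        obtain ⟨b1, b2, b3, b4, -⟩ := c.ball hok hTc (by omega) hy (by omega)
          (by
            by_cases hz : z ∈ X.out G W
            · exact Or.inl (hz2 hz).1
            · exact Or.inr (hcase hz y hy)) (by omega)
        by_cases hz : z ∈ X.out G W
        · exact c.ball_cycle hok hTc (by omega) (hz2 hz).2 ((Nat.le_succ b).trans b2) b1 hy b3 b4
        · have := hcF' hz
          exact c.ball_far hok hTc b2 (by omega) b1 hy huniq b3 b4
    · have hi : Indep G ((X.cons z).out G W) := fun a ha a' ha' => by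
        rw [hout] at ha ha'
        exact hind a (Finset.mem_of_mem_erase ha) a' (Finset.mem_of_mem_erase ha')
      have := alpha_of_indep hi
      refine c.far_out hok hTc (by omega) (Finset.Subset.refl _) (by omega) (by omega) ?_
      by_cases hz : z ∈ X.out G W
      · exact Or.inl (hz2 hz).1
      · exact Or.inr (hcase hz)
  · -- order m - 1
    obtain ⟨r1, r2⟩ := he.rule1 hm hT
    have hp2 : 2 ≤ (X.preds G).card := by
      have := (h.rem 1 r1).2.2.1
      exact Finset.one_lt_card.2 ⟨0, h.zero_preds (by omega), 1,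
        Fx.mem_preds.2 ⟨by omega, by simpa [Fx.s] using this⟩, by omega⟩
    have hre2 : 2 ≤ (X.rev.preds G).card := by
      obtain ⟨-, -, h3, -⟩ := h.rem _ r2
      refine Finset.one_lt_card.2 ⟨0, h.rev.zero_preds (show 2 ≤ X.T by omega), 1,
        Fx.mem_preds.2 ⟨show 1 + 1 < X.T by omega, ?_⟩, by omega⟩
      show G.Adj (X.f (X.T - 1 - 0)) (X.f (X.T - 1 - (1 + 1)))
      rw [show X.T - 1 - 0 = X.T - 2 + 1 by omega, show X.T - 1 - (1 + 1) = X.T - 2 - 1 by omega]
      exact h3.symm
    by_cases hind : Indep G (X.out G W)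
    · have := alpha_of_indep hind
      rcases Nat.lt_or_ge (X.out G W).card 2 with h2 | h2
      · rcases Nat.eq_zero_or_pos (X.out G W).card with h0 | h1
        · exact c.empty_out h hT (hE.2.2 (by omega)).1 ((Nat.le_succ b).trans (hE.2.2 (by omega)).2)
            (by have := hE.2.2 (by omega); omega) (Finset.card_eq_zero.1 h0)
        · obtain ⟨y, hy⟩ := Finset.card_pos.1 h1
          obtain ⟨b1, b2, b3, b4, -⟩ := c.ball h hT (by omega) hy (by omega) (Or.inl hp2) hre2
          exact c.ball_far h hT b2 (by omega) b1 hy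
            (fun u hu => Finset.card_le_one.1 (by omega) u hu y hy) b3 b4
      · exact c.far_out h hT hf (Finset.Subset.refl _) (by omega) (by omega) (Or.inl hp2)
    · have hS0 : S = ∅ := Finset.eq_empty_of_forall_notMem fun i hi =>
        hind (he.rule2 hm (hS i hi))
      rw [hS0, Finset.card_empty] at hcard
      obtain ⟨y, hy⟩ : (X.out G W).Nonempty := Finset.nonempty_iff_ne_empty.2 fun e =>
        hind (by rw [e]; exact fun a ha => absurd ha (Finset.notMem_empty a))
      have haw : b + 1 ≤ (m - 1) / 2 + awM m b := by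
        simp only [awM]
        split_ifs <;> omega
      obtain ⟨b1, -⟩ := c.ball h hT (by omega) hy (by omega) (Or.inl hp2) hre2
      omega

/-- The strengthened bound. -/
theorem card_le_phi (p2 : A2Pin) (hm : 7 ≤ m) (free : ¬HasCyc G m) :
    ∀ (b : ℕ) (W : Finset V), 2 ≤ b → b ≤ (m - 1) / 2 + 2 →
      (11 ≤ m ∨ (9 ≤ m ∧ b ≤ 5) ∨ b ≤ 3) → alpha G W ≤ b →
      CliqueLE G W ((m - 1) / 2) → W.card ≤ phi m b := by
  intro b
  induction b using Nat.strong_induction_on with
  | _ b ih =>
  intro W hb2 hb hlow hα hω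
  by_cases h2 : b = 2
  · subst h2
    have := p2 V G m ((m - 1) / 2) W (by omega) free hα hω
    simp [phi, dd]
    omega
  by_contra hbig
  exact Crit.false (m := m) (b := b) (W := W) ⟨p2, hm, free, hω, hα, by omega, hb, hlow, by omega,
    fun U hU a1 a2 => ih _ a2 U a1 (by omega) (by omega) le_rfl (hω.mono hU)⟩

/-- Block M, from block A2. -/
theorem mPin (p2 : A2Pin) : MPin := fun _ _ _ hm free X b hb2 hb hα hω =>
  (card_le_phi p2 (by omega) free b X hb2 hb (Or.inl hm) hα hω).trans (Nat.sub_le _ _)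

/-- Block SM, from block A2. -/
theorem sMPin (p2 : A2Pin) : SMPin := fun _ G m hm hm' free => by
  refine ⟨fun X b hb2 hb hα hω => ?_, fun h9 X b hb2 hb hα hω => ?_, fun h9 X hα hω => ?_⟩
  · exact (card_le_phi p2 hm free b X hb2 (by omega) (Or.inr (Or.inr hb)) hα hω).trans
      (Nat.sub_le _ _)
  · exact (card_le_phi p2 hm free b X hb2 (by omega) (Or.inr (Or.inl ⟨h9, hb⟩)) hα hω).trans
      (Nat.sub_le _ _)
  · have := card_le_phi p2 hm free 4 X (by omega) (by omega) (Or.inr (Or.inl ⟨h9, by omega⟩)) hα hω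
    have e : phi m 4 = (m - 1) * 3 - 1 := by
      simp only [phi, dd]
      split_ifs <;> omega
    omega

end Vale.Agent.P048.Full
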