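import Vale.Agent.P048.Full.MLink

/-! # Balls around the neighbours of the last vertex -/

namespace Vale.Agent.P048.Full

open Finset

variable {V : Type} {G : SimpleGraph V} {m b : ℕ} {W : Finset V} {X : Fx V}

open Classical in
/-- The neighbours of `z` off the path. -/
noncomputable def Fx.offnb (X : Fx V) (G : SimpleGraph V) (W : Finset V) (z : V) : Finset V :=
  (nb G W z).filter fun u => u ∉ X.P

theorem Fx.mem_offnb {z u : V} : u ∈ X.offnb G W z ↔ u ∈ W ∧ G.Adj z u ∧ u ∉ X.P := by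
  classical simp [Fx.offnb, mem_nb, and_assoc]

/-- The neighbours of `z` on the path, as positions avoiding a given set. -/
theorem Fx.nb_le (z : V) {A : Finset ℕ} (hA : A ⊆ Finset.range X.T)
    (hz : ∀ t ∈ A, ¬G.Adj z (X.f t)) :
    (nb G W z).card + A.card ≤ X.T + (X.offnb G W z).card := by
  classical
  have h1 : (nb G W z).card ≤ ((Finset.range X.T \ A).image X.f ∪ X.offnb G W z).card := by
    refine Finset.card_le_card fun u hu => ?_
    rw [mem_nb] at hu
    by_cases hP : u ∈ X.P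
    · obtain ⟨t, ht, rfl⟩ := Fx.mem_P.1 hP
      exact Finset.mem_union_left _ (Finset.mem_image_of_mem _
        (Finset.mem_sdiff.2 ⟨Finset.mem_range.2 ht, fun hh => hz t hh hu.2⟩))
    · exact Finset.mem_union_right _ (Fx.mem_offnb.2 ⟨hu.1, hu.2, hP⟩)
  have h2 := Finset.card_image_le (s := Finset.range X.T \ A) (f := X.f)
  rw [Finset.card_sdiff_of_subset hA, Finset.card_range] at h2
  have := Finset.card_union_le ((Finset.range X.T \ A).image X.f) (X.offnb G W z)
  have := Finset.card_le_card hA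
  rw [Finset.card_range] at this
  omega

theorem Fx.preds_sub : X.preds G ⊆ Finset.range (X.T - 1) := fun i hi => by
  have := (Fx.mem_preds.1 hi).1
  exact Finset.mem_range.2 (by omega)

theorem Fx.preds_range : X.preds G ⊆ Finset.range X.T := fun i hi => by
  have := (Fx.mem_preds.1 hi).1
  exact Finset.mem_range.2 (by omega)

theorem Fx.preds_card_lt : (X.preds G).card ≤ X.T - 1 := by
  simpa using Finset.card_le_card (Fx.preds_sub (X := X) (G := G))

theorem Fx.Ok.out_rr (h : X.Ok G W) : X.rev.rev.out G W = X.out G W := by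
  ext z
  rw [Fx.mem_out, Fx.mem_out, Fx.rev_e, Fx.rev_s, Fx.rev_P h.rev, Fx.rev_P h]

theorem Fx.Ok.mem_rev_out (h : X.Ok G W) {z : V} :
    z ∈ X.rev.out G W ↔ z ∈ W ∧ G.Adj X.s z ∧ z ∉ X.P := by
  rw [Fx.mem_out, Fx.rev_e, Fx.rev_P h]

theorem Crit.deg_start (c : Crit G m b W) (h : X.Ok G W) :
    m + epsM m b ≤ (X.preds G).card + (X.rev.out G W).card + 2 := by
  have h1 := c.deg (h.mem 0 h.pos)
  have := h.nb_start
  change m + epsM m b ≤ (nb G W X.s).card + 2 at h1
  omega

theorem Crit.deg_end (c : Crit G m b W) (h : X.Ok G W) :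
    m + epsM m b ≤ (X.rev.preds G).card + (X.out G W).card + 2 := by
  have := c.deg_start h.rev
  rwa [h.out_rr] at this

/-- Many neighbours of one vertex are not a clique. -/
theorem Crit.two_le_nb (c : Crit G m b W) {x : V} {K : Finset V} (hx : x ∈ W) (hK : K ⊆ W)
    (hadj : ∀ z ∈ K, G.Adj x z) (h : (m - 1) / 2 ≤ K.card) : 2 ≤ alpha G K := by
  classical
  by_contra hlt
  have hcl := isClique_of_alpha_le_one (G := G) (show alpha G K ≤ 1 by omega)
  have := c.hω (insert x K) (Finset.insert_subset hx hK) (by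
    rw [Finset.coe_insert]
    exact hcl.insert fun z hz _ => hadj z hz)
  rw [Finset.card_insert_of_notMem fun hh => G.irrefl (hadj x hh)] at this
  omega

/-- An outside neighbour of the last vertex sees no rotated start. -/
theorem Crit.no_start (c : Crit G m b W) (h : X.Ok G W) (hT : X.T + 1 = m) (hf : 1 ≤ X.R.card)
    {y : V} (hy : y ∈ X.out G W) {i : ℕ} (hi : i ∈ X.preds G) : ¬G.Adj y (X.f i) := fun hadj => by
  have hm := c.hm
  obtain ⟨h1, h2⟩ := Fx.mem_preds.1 hi
  obtain ⟨-, hey, hyP⟩ := Fx.mem_out.1 hy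
  exact c.free (h.close_rot (Pth.single y) (Set.disjoint_singleton_right.2 hyP) hey h1 h2 hadj
    (by omega) (by omega) (by omega) (by omega))

/-- Nor does a further neighbour of it. -/
theorem Crit.no_start₂ (c : Crit G m b W) (h : X.Ok G W) (hT : X.T + 1 = m) (hf : 2 ≤ X.R.card)
    {y u : V} (hy : y ∈ X.out G W) (hu : u ∈ X.offnb G W y) {i : ℕ} (hi : i ∈ X.preds G) :
    ¬G.Adj u (X.f i) := fun hadj => by
  have hm := c.hm
  obtain ⟨h1, h2⟩ := Fx.mem_preds.1 hi
  obtain ⟨-, hey, hyP⟩ := Fx.mem_out.1 hy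
  obtain ⟨-, hyu, huP⟩ := Fx.mem_offnb.1 hu
  exact c.free (h.close_rot ((Pth.single y).snoc hyu (by simpa using hyu.ne'))
    (Set.disjoint_union_right.2
      ⟨Set.disjoint_singleton_right.2 hyP, Set.disjoint_singleton_right.2 huP⟩)
    hey h1 h2 hadj (by omega) (by omega) (by omega) (by omega))

theorem Crit.link_two (c : Crit G m b W) (h : X.Ok G W) (hT : X.T + 1 = m) (hf : 2 ≤ X.R.card)
    {y : V} (hy : y ∈ X.out G W) (hba : b + 1 ≤ X.R.card + awM m b)
    (hRy : 2 ≤ (X.preds G).card ∨ ¬G.Adj y (X.f 1)) {B : Finset V}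
    (hB : ∀ z ∈ B, z = y ∨ z ∈ X.offnb G W y) : alpha G B ≤ 1 := by
  by_contra hlt
  have hm := c.hm
  obtain ⟨hyW, hey, hyP⟩ := Fx.mem_out.1 hy
  refine c.link h (Or.inr hT) (S := {y}) (W0 := B) (k := 2) (r0 := X.R.card - 2) ?_ ?_ ?_
    (by omega) (by omega) (by omega) (by omega) ?_
  · simpa using hey
  · intro z hz
    rcases hB z hz with rfl | hz
    · exact Fx.mem_off.2 ⟨hyW, hyP⟩
    · exact Fx.mem_off.2 ⟨(Fx.mem_offnb.1 hz).1, (Fx.mem_offnb.1 hz).2.2⟩
  · intro z hz
    rcases hB z hz with rfl | hz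
    · exact Near.self (Finset.mem_singleton_self _) (Fx.mem_off.2 ⟨hyW, hyP⟩) (by omega)
    · obtain ⟨h1, h2, h3⟩ := Fx.mem_offnb.1 hz
      exact (Near.self (Finset.mem_singleton_self y) (Fx.mem_off.2 ⟨hyW, hyP⟩) le_rfl).step h2
        (Fx.mem_off.2 ⟨h1, h3⟩)
  · by_cases h2p : 2 ≤ (X.preds G).card
    · exact Or.inr (Or.inl (by omega))
    · refine Or.inr (Or.inr ⟨1, by omega, fun hh => h2p ?_, fun z hz hz1 => ?_⟩)
      · exact Finset.one_lt_card.2 ⟨0, h.zero_preds (by omega), 1, hh, by omega⟩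
      · rcases hB z hz with rfl | hz
        · exact hRy.resolve_left h2p hz1
        · obtain ⟨-, hyu, huP⟩ := Fx.mem_offnb.1 hz
          have hd : ∀ w, w ∉ X.P → w ∉ X.drop.P := fun w hw hh => by
            obtain ⟨t, ht, rfl⟩ := Fx.mem_P.1 hh
            have ht' : t < X.T - 1 := ht
            exact hw (Fx.f_mem_P (X := X) (show t + 1 < X.T by omega))
          have he : X.drop.e = X.e := by
            show X.f (X.T - 1 - 1 + 1) = X.f (X.T - 1)
            congr 1
            omega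
          exact c.free ((h.drop (by omega)).close ((Pth.single y).snoc hyu (by simpa using hyu.ne'))
            (Set.disjoint_union_right.2
              ⟨Set.disjoint_singleton_right.2 (hd _ hyP), Set.disjoint_singleton_right.2 (hd _ huP)⟩)
            (he ▸ hey) hz1 (by omega) (show m ≤ X.T - 1 + 2 by omega)
            (show X.T - 1 + 2 ≤ _ by omega) (by omega))

/-- The ball around a neighbour of the last vertex is a clique only in one tight situation. -/
theorem Crit.ball (c : Crit G m b W) (h : X.Ok G W) (hT : X.T + 1 = m) (hf : 2 ≤ X.R.card)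
    {y : V} (hy : y ∈ X.out G W) (hba : b + 1 ≤ X.R.card + awM m b)
    (hRy : 2 ≤ (X.preds G).card ∨ ¬G.Adj y (X.f 1)) (hre : 2 ≤ (X.rev.preds G).card) :
    m = 2 * ((m - 1) / 2) + 1 ∧ b + 1 ≤ (m - 1) / 2 ∧ (X.preds G).card = (m - 1) / 2 ∧
      (X.offnb G W y).card + 1 ≤ (m - 1) / 2 ∧
      G.IsClique (insert y (X.offnb G W y : Set V)) := by
  classical
  have hm := c.hm
  have hb := c.hb
  have hlow := c.hlow
  have hα := c.link_two h hT hf hy hba hRy (B := insert y (X.offnb G W y))
    fun z hz => Finset.mem_insert.1 hz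
  have hcl := isClique_of_alpha_le_one hα
  rw [Finset.coe_insert] at hcl
  obtain ⟨hyW, hey, hyP⟩ := Fx.mem_out.1 hy
  have hsz : (X.offnb G W y).card + 1 ≤ (m - 1) / 2 := by
    have := c.hω (insert y (X.offnb G W y))
      (Finset.insert_subset hyW fun z hz => (Fx.mem_offnb.1 hz).1) (by rwa [Finset.coe_insert])
    rwa [Finset.card_insert_of_notMem fun hh => G.irrefl (Fx.mem_offnb.1 hh).2.1] at this
  have h1 := Fx.nb_le (W := W) (X := X) y Fx.preds_range fun t ht =>
    c.no_start h (by omega) (by omega) hy ht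
  have h2 := c.deg hyW
  have h3 := c.deg_start h
  have hK : (X.rev.out G W).card < (m - 1) / 2 := by
    by_contra hge
    have hKW : X.rev.out G W ⊆ W := fun z hz => (h.mem_rev_out.1 hz).1
    have ha := c.two_le_nb (h.mem 0 h.pos) hKW (fun z hz => (h.mem_rev_out.1 hz).2.1) (by omega)
    refine c.link h.rev (Or.inr hT) (S := X.rev.out G W) (W0 := X.rev.out G W) (k := 1)
      (r0 := X.R.card - 1) ?_ ?_ ?_ ha (by omega) ?_ (fun e => absurd (show X.T + 2 = m from e)
        (by omega)) (Or.inr (Or.inl ?_))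
    · exact fun z hz => (Fx.mem_out.1 hz).2.1
    · exact fun z hz => Fx.mem_off.2 ⟨(Fx.mem_out.1 hz).1, (Fx.mem_out.1 hz).2.2⟩
    · exact fun z hz => Near.self hz
        (Fx.mem_off.2 ⟨(Fx.mem_out.1 hz).1, (Fx.mem_out.1 hz).2.2⟩) le_rfl
    · rw [Fx.rev_card h]
      show X.T + 1 + (X.R.card - 1) + 1 ≤ _
      omega
    · show X.T + 3 ≤ _
      omega
  simp only [epsM] at h2 h3
  refine ⟨?_, ?_, ?_, hsz, hcl⟩ <;> split_ifs at h2 h3 <;> omega

/-- The tight situation with enough removable vertices: one more step. -/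
theorem Crit.ball_far (c : Crit G m b W) (h : X.Ok G W) (hT : X.T + 1 = m) (hb4 : b + 1 ≤ (m - 1) / 2)
    (hbf : b ≤ X.R.card) (hodd : m = 2 * ((m - 1) / 2) + 1)
    {y : V} (hy : y ∈ X.out G W) (huniq : ∀ z ∈ X.out G W, z = y)
    (hp : (X.preds G).card = (m - 1) / 2) (hsz : (X.offnb G W y).card + 1 ≤ (m - 1) / 2) :
    False := by
  classical
  have hm := c.hm
  have hb3 := c.hb3
  obtain ⟨hyW, hey, hyP⟩ := Fx.mem_out.1 hy
  have h1 := Fx.nb_le (W := W) (X := X) y Fx.preds_range fun t ht =>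
    c.no_start h hT (by omega) hy ht
  have h2 := c.deg hyW
  obtain ⟨u, hu⟩ : (X.offnb G W y).Nonempty := Finset.card_pos.1 (by omega)
  obtain ⟨huW, hyu, huP⟩ := Fx.mem_offnb.1 hu
  have hue : ¬G.Adj u (X.f (X.T - 1)) := fun hh =>
    hyu.ne (huniq u (Fx.mem_out.2 ⟨huW, hh.symm, huP⟩)).symm
  have hTp : X.T - 1 ∉ X.preds G := fun hh => by
    have := (Fx.mem_preds.1 hh).1
    omega
  have h3 := Fx.nb_le (W := W) (X := X) u (A := insert (X.T - 1) (X.preds G))
    (Finset.insert_subset (Finset.mem_range.2 (by omega)) Fx.preds_range) (fun t ht => by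
      rcases Finset.mem_insert.1 ht with rfl | ht
      exacts [hue, c.no_start₂ h hT (by omega) hy hu ht])
  rw [Finset.card_insert_of_notMem hTp] at h3
  have h4 := c.deg huW
  obtain ⟨v, hv, hvB⟩ : ∃ v ∈ X.offnb G W u, v ∉ insert y ((X.offnb G W y).erase u) := by
    by_contra hc
    push Not at hc
    have := Finset.card_le_card hc
    have := Finset.card_insert_le y ((X.offnb G W y).erase u)
    rw [Finset.card_erase_of_mem hu] at this
    omega
  simp only [Finset.mem_insert, Finset.mem_erase, not_or, not_and] at hvB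
  obtain ⟨hvW, huv, hvP⟩ := Fx.mem_offnb.1 hv
  have hyv : ¬G.Adj y v := fun hh => hvB.2 huv.ne' (Fx.mem_offnb.2 ⟨hvW, hh, hvP⟩)
  have oy : y ∈ X.off W := Fx.mem_off.2 ⟨hyW, hyP⟩
  have ou : u ∈ X.off W := Fx.mem_off.2 ⟨huW, huP⟩
  have ov : v ∈ X.off W := Fx.mem_off.2 ⟨hvW, hvP⟩
  refine c.link h (Or.inr hT) (S := {y}) (W0 := {y, v}) (k := 3) (r0 := X.R.card - 3) ?_ ?_ ?_
    (two_le_alpha (Finset.mem_insert_self _ _) (Finset.mem_insert_of_mem
      (Finset.mem_singleton_self _)) (Ne.symm hvB.1) hyv) ?_ (by omega) (by omega)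
    (Or.inr (Or.inl (by omega)))
  · simpa using hey
  · exact Finset.insert_subset oy (Finset.singleton_subset_iff.2 ov)
  · intro z hz
    rcases Finset.mem_insert.1 hz with rfl | hz
    · exact Near.self (Finset.mem_singleton_self _) oy (by omega)
    · rw [Finset.mem_singleton.1 hz]
      exact ((Near.self (Finset.mem_singleton_self y) oy le_rfl).step hyu ou).step huv ov
  · have := two_le_alpha (G := G) (X := ({y, v} : Finset V)) (Finset.mem_insert_self _ _)
      (Finset.mem_insert_of_mem (Finset.mem_singleton_self v)) (Ne.symm hvB.1) hyv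
    have hw : awM m b = 2 := if_pos (by omega)
    omega

theorem Fx.Ok.seg (h : X.Ok G W) {a a' : ℕ} (h1 : a ≤ a') (h2 : a' < X.T) :
    Pth G (X.f a) (X.f a') (a' - a + 1) (X.f '' Set.Icc a a') :=
  Pth.seg X.f h1 (fun p q _ hpq hq => h.inj p q hpq (by omega))
    fun p _ hp => h.adj p (by omega)

theorem Fx.Ok.disjoint_seg (h : X.Ok G W) {a a' c c' : ℕ} (h1 : a' < c ∨ c' < a) (h2 : a' < X.T)
    (h3 : c' < X.T) : Disjoint (X.f '' Set.Icc a a') (X.f '' Set.Icc c c') := by
  rw [Set.disjoint_left]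
  rintro _ ⟨p, ⟨p1, p2⟩, rfl⟩ ⟨q, ⟨q1, q2⟩, e⟩
  exact h.ne (by omega) (by omega) (by omega) e

theorem Fx.notMem_seg {z : V} (hz : z ∉ X.P) {a a' : ℕ} (h2 : a' < X.T) :
    z ∉ X.f '' Set.Icc a a' := by
  rintro ⟨p, ⟨p1, p2⟩, rfl⟩
  exact hz (Fx.f_mem_P (by omega))

/-- The tight situation on a cycle: neighbours and rotated starts alternate. -/
theorem Crit.ball_cycle (c : Crit G m b W) (h : X.Ok G W) (hT : X.T + 1 = m)
    (hf : 1 ≤ X.R.card) (hcyc : G.Adj X.e X.s) (hbh : b ≤ (m - 1) / 2)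
    (hodd : m = 2 * ((m - 1) / 2) + 1) {y : V} (hy : y ∈ X.out G W)
    (hp : (X.preds G).card = (m - 1) / 2) (hsz : (X.offnb G W y).card + 1 ≤ (m - 1) / 2) :
    False := by
  classical
  have hm := c.hm
  obtain ⟨hyW, hey, hyP⟩ := Fx.mem_out.1 hy
  have hes : G.Adj (X.f (X.T - 1)) (X.f 0) := hcyc
  let A := (Finset.range X.T).filter fun t => G.Adj y (X.f t)
  have hAc : (m - 1) / 2 ≤ A.card := by
    have h1 := Fx.nb_le (W := W) (X := X) y (A := Finset.range X.T \ A) Finset.sdiff_subset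
      (fun t ht hh => (Finset.mem_sdiff.1 ht).2 (Finset.mem_filter.2 ⟨(Finset.mem_sdiff.1 ht).1, hh⟩))
    rw [Finset.card_sdiff_of_subset (Finset.filter_subset _ _), Finset.card_range] at h1
    change (nb G W y).card + (X.T - A.card) ≤ _ at h1
    have : A.card ≤ X.T := by
      simpa using Finset.card_le_card (Finset.filter_subset _ _ : A ⊆ Finset.range X.T)
    have := c.deg hyW
    omega
  have hcons : ∀ t ∈ A, t + 1 ∉ A := fun t ht ht' => by
    simp only [A, Finset.mem_filter, Finset.mem_range] at ht ht'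
    have p1 := h.seg (show t + 1 ≤ X.T - 1 by omega) (by omega)
    have p2 := h.seg (Nat.zero_le t) ht.1
    have := ((p1.append hes p2 (h.disjoint_seg (by omega) (by omega) ht.1)).snoc ht.2.symm
      (fun hh => hh.elim (Fx.notMem_seg hyP (by omega)) (Fx.notMem_seg hyP ht.1))).cycle ht'.2
      (by omega)
    exact c.free (by
      rwa [show X.T - 1 - (t + 1) + 1 + (t - 0 + 1) + 1 = m by omega] at this)
  have h0 : 0 ∉ A := fun hh => c.no_start h hT hf hy (h.zero_preds (by omega))
    (Finset.mem_filter.1 hh).2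
  have hnext : ∀ t, t + 1 < X.T → t ∉ A → t + 1 ∈ A := by
    intro t ht htA
    by_contra hc
    have hsub : A ∪ A.image (· - 1) ⊆ (Finset.range X.T).erase t := by
      intro z hz
      rw [Finset.mem_erase, Finset.mem_range]
      rcases Finset.mem_union.1 hz with hz | hz
      · exact ⟨fun e => htA (e ▸ hz), Finset.mem_range.1 (Finset.mem_filter.1 hz).1⟩
      · obtain ⟨w, hw, rfl⟩ := Finset.mem_image.1 hz
        have hw0 : w ≠ 0 := fun e => h0 (e ▸ hw)
        have := Finset.mem_range.1 (Finset.mem_filter.1 hw).1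
        exact ⟨fun e => hc ((show t + 1 = w by omega) ▸ hw), by omega⟩
    have hd : Disjoint A (A.image (· - 1)) := Finset.disjoint_left.2 fun z hz hz' => by
      obtain ⟨w, hw, rfl⟩ := Finset.mem_image.1 hz'
      have hw0 : w ≠ 0 := fun e => h0 (e ▸ hw)
      exact hcons _ hz (by rwa [show w - 1 + 1 = w by omega])
    have := Finset.card_le_card hsub
    rw [Finset.card_union_of_disjoint hd, Finset.card_image_of_injOn,
      Finset.card_erase_of_mem (Finset.mem_range.2 (by omega)), Finset.card_range] at this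
    · omega
    · intro p hp q hq e
      have : p ≠ 0 := fun e => h0 (e ▸ hp)
      have : q ≠ 0 := fun e => h0 (e ▸ hq)
      dsimp at e
      omega
  have hpar : ∀ i, (2 * i < X.T → 2 * i ∉ A) ∧ (2 * i + 1 < X.T → 2 * i + 1 ∈ A) := by
    intro i
    induction i with
    | zero => exact ⟨fun _ => h0, fun hh => hnext 0 hh h0⟩
    | succ i ih =>
      have he : 2 * (i + 1) < X.T → 2 * (i + 1) ∉ A := fun hh => by
        rw [show 2 * (i + 1) = 2 * i + 1 + 1 by omega] at hh ⊢
        exact hcons _ (ih.2 (by omega))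
      exact ⟨he, fun hh => hnext _ hh (he (by omega))⟩
  let D := insert y ((Finset.range ((m - 1) / 2)).image fun i => X.f (2 * i))
  have hDc : D.card = (m - 1) / 2 + 1 := by
    rw [Finset.card_insert_of_notMem, Finset.card_image_of_injOn, Finset.card_range]
    · intro p hp q hq e
      rw [Finset.mem_coe, Finset.mem_range] at hp hq
      by_contra hne
      exact h.ne (show 2 * p < X.T by omega) (show 2 * q < X.T by omega) (by omega) e
    · intro hh
      obtain ⟨i, hi, e⟩ := Finset.mem_image.1 hh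
      rw [Finset.mem_range] at hi
      exact hyP (e ▸ Fx.f_mem_P (by omega))
  have hD : ¬Indep G D := fun hi => by
    have : D.card ≤ alpha G W := le_alpha (Finset.insert_subset hyW fun z hz => by
      obtain ⟨i, hi, rfl⟩ := Finset.mem_image.1 hz
      rw [Finset.mem_range] at hi
      exact h.mem _ (by omega)) hi
    have := c.hα
    omega
  have hchord : ∀ i j, i < j → j < (m - 1) / 2 → ¬G.Adj (X.f (2 * i)) (X.f (2 * j)) :=
    fun i j hij hj hadj => by
    have y1 := (Finset.mem_filter.1 ((hpar i).2 (by omega))).2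
    have y2 := (Finset.mem_filter.1 ((hpar j).2 (by omega))).2
    have p1 := h.seg (show 2 * i + 1 ≤ 2 * j by omega) (by omega)
    have p2 := (h.seg (Nat.zero_le (2 * i)) (by omega)).symm
    have p3 := (h.seg (show 2 * j + 1 ≤ X.T - 1 by omega) (by omega)).symm
    have := (((p1.append hadj.symm p2 (h.disjoint_seg (by omega) (by omega) (by omega))).append
      hes.symm p3 (Set.disjoint_union_left.2 ⟨h.disjoint_seg (by omega) (by omega) (by omega),
        h.disjoint_seg (by omega) (by omega) (by omega)⟩)).snoc y2.symm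
      (fun hh => hh.elim (fun hh => hh.elim (Fx.notMem_seg hyP (by omega))
        (Fx.notMem_seg hyP (by omega))) (Fx.notMem_seg hyP (by omega)))).cycle y1 (by omega)
    exact c.free (by
      rwa [show 2 * j - (2 * i + 1) + 1 + (2 * i - 0 + 1) + (X.T - 1 - (2 * j + 1) + 1) + 1 = m
        by omega] at this)
  refine hD fun p hp q hq hadj => ?_
  have hyA : ∀ j < (m - 1) / 2, ¬G.Adj y (X.f (2 * j)) := fun j hj hh =>
    (hpar j).1 (by omega) (Finset.mem_filter.2 ⟨Finset.mem_range.2 (by omega), hh⟩)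
  rcases Finset.mem_insert.1 hp with ep | hp' <;> rcases Finset.mem_insert.1 hq with eq | hq'
  · rw [ep, eq] at hadj
    exact G.irrefl hadj
  · obtain ⟨j, hj, rfl⟩ := Finset.mem_image.1 hq'
    rw [ep] at hadj
    exact hyA j (Finset.mem_range.1 hj) hadj
  · obtain ⟨j, hj, rfl⟩ := Finset.mem_image.1 hp'
    rw [eq] at hadj
    exact hyA j (Finset.mem_range.1 hj) hadj.symm
  · obtain ⟨i, hi, rfl⟩ := Finset.mem_image.1 hp'
    obtain ⟨j, hj, rfl⟩ := Finset.mem_image.1 hq'
    rw [Finset.mem_range] at hi hj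
    rcases lt_trichotomy i j with hij | hij | hij
    · exact hchord i j hij hj hadj
    · exact G.irrefl (hij ▸ hadj)
    · exact hchord j i hij hi hadj.symm

end Vale.Agent.P048.Full
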