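import Vale.Agent.P048.Full.MPath

/-! # A smallest set breaking the M bound: degrees, separations and an extremal flexible path -/

namespace Vale.Agent.P048.Full

open Finset

variable {V : Type} {G : SimpleGraph V} {m b : ℕ}

/-- The saving in the strengthened bound. -/
def dd (m c : ℕ) : ℕ :=
  if c ≤ 2 then 0 else if (m - 1) / 2 ≤ 3 then 0
  else if c = 3 then 1 else if c ≤ (m - 1) / 2 then (if (m - 1) / 2 = 4 then 1 else 2)
  else if c = (m - 1) / 2 + 1 ∧ 5 ≤ (m - 1) / 2 then 1 else 0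

/-- The strengthened bound. -/
def phi (m c : ℕ) : ℕ := (m - 1) * (c - 1) - dd m c

/-- The gain in the minimum degree. -/
def epsM (m b : ℕ) : ℕ :=
  if (m - 1) / 2 ≤ 3 then 1
  else if b ≤ 3 ∨ (b ≤ 4 ∧ 5 ≤ (m - 1) / 2) then 0 else if b ≤ (m - 1) / 2 then 1 else 2

/-- The independence number of a neighbourhood. -/
def awM (m b : ℕ) : ℕ := if b ≤ (m - 1) / 2 then 2 else 3

theorem dd_le_two (m c : ℕ) : dd m c ≤ 2 := by
  simp only [dd]
  split_ifs <;> omega

theorem dd_pos {c : ℕ} (h3 : 3 ≤ c) (hc : c ≤ (m - 1) / 2) (h4 : 4 ≤ (m - 1) / 2) :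
    1 ≤ dd m c := by
  simp only [dd]
  split_ifs <;> omega

theorem dd_low {c : ℕ} (h : (m - 1) / 2 ≤ 3) : dd m c = 0 := by
  simp only [dd]
  split_ifs <;> omega

theorem phi_add_dd (hm : 7 ≤ m) {c : ℕ} (hc : 2 ≤ c) :
    phi m c + dd m c = (m - 1) * (c - 1) := by
  have := dd_le_two m c
  have : (m - 1) * 1 ≤ (m - 1) * (c - 1) := Nat.mul_le_mul_left _ (by omega)
  simp only [phi]
  omega

theorem phi_mono (hm : 7 ≤ m) {c c' : ℕ} (hc : 2 ≤ c) (h : c ≤ c') : phi m c ≤ phi m c' := by
  rcases Nat.eq_or_lt_of_le h with rfl | h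
  · rfl
  have := phi_add_dd hm hc
  have := phi_add_dd hm (show 2 ≤ c' by omega)
  have := dd_le_two m c'
  have e : (m - 1) * (c - 1) + (m - 1) ≤ (m - 1) * (c' - 1) := by
    rw [← Nat.mul_succ]
    exact Nat.mul_le_mul_left _ (by omega)
  omega

theorem half_le_phi (hm : 7 ≤ m) {c : ℕ} (hc : 2 ≤ c) : (m - 1) / 2 ≤ phi m c := by
  refine le_trans ?_ (phi_mono hm le_rfl hc)
  simp [phi, dd]
  omega

/-- A smallest set breaking the bound. -/
structure Crit (G : SimpleGraph V) (m b : ℕ) (W : Finset V) : Prop where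
  p2 : A2Pin
  hm : 7 ≤ m
  free : ¬HasCyc G m
  hω : CliqueLE G W ((m - 1) / 2)
  hα : alpha G W ≤ b
  hb3 : 3 ≤ b
  hb : b ≤ (m - 1) / 2 + 2
  hlow : 11 ≤ m ∨ (9 ≤ m ∧ b ≤ 5) ∨ b ≤ 3
  big : phi m b < W.card
  small : ∀ U ⊆ W, 2 ≤ alpha G U → alpha G U < b → U.card ≤ phi m (alpha G U)

variable {W U R U₁ U₂ : Finset V}

theorem Crit.two_le (c : Crit G m b W) (hU : U ⊆ W) (h : (m - 1) / 2 < U.card) :
    2 ≤ alpha G U :=
  two_le_alpha_of_card c.hω hU h

theorem Crit.aw_le (c : Crit G m b W) (hU : U ⊆ W) (h : m + epsM m b ≤ U.card + 2) :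
    awM m b ≤ alpha G U := by
  have := c.hm
  have := c.hlow
  have h2 : 2 ≤ alpha G U := c.two_le hU (by omega)
  simp only [awM, epsM] at *
  split_ifs at * <;> try omega
  by_contra hlt
  have := c.p2 V G m ((m - 1) / 2) U (by omega) c.free (by omega) (c.hω.mono hU)
  have := c.hb
  omega

/-- Every vertex has many neighbours. -/
theorem Crit.deg (c : Crit G m b W) {x : V} (hx : x ∈ W) :
    m + epsM m b ≤ (nb G W x).card + 2 := by
  obtain ⟨U, hU, hUa, hUc⟩ : ∃ U : Finset V, U ⊆ W ∧ alpha G U + 1 ≤ b ∧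
      W.card ≤ (nb G W x).card + 1 + U.card := by
    classical
    refine ⟨W.filter fun y => y ≠ x ∧ ¬G.Adj x y, Finset.filter_subset _ _, ?_, ?_⟩
    · have h := alpha_add_le (G := G) (W := W) (X := {x})
        (Y := W.filter fun y => y ≠ x ∧ ¬G.Adj x y) (Finset.singleton_subset_iff.2 hx)
        (Finset.filter_subset _ _) (by simp) (fun p hp r hr => by
          rw [Finset.mem_singleton] at hp
          rw [Finset.mem_filter] at hr
          exact hp ▸ hr.2.2)
      have := alpha_pos (G := G) (Finset.mem_singleton_self x)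
      have := c.hα
      omega
    · calc W.card ≤ (insert x (nb G W x) ∪ W.filter fun y => y ≠ x ∧ ¬G.Adj x y).card :=
            Finset.card_le_card fun y hy => by
              simp only [Finset.mem_union, Finset.mem_insert, mem_nb, Finset.mem_filter, hy,
                true_and]
              tauto
        _ ≤ _ := le_trans (Finset.card_union_le _ _) (by
            have := Finset.card_insert_le x (nb G W x)
            omega)
  have hm := c.hm
  have hb3 := c.hb3
  have hb := c.hb
  have hlow := c.hlow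
  have hbig := c.big
  have hU' : U.card ≤ phi m (b - 1) := by
    by_cases h2 : 2 ≤ alpha G U
    · exact (c.small U hU h2 (by omega)).trans (phi_mono hm h2 (by omega))
    · refine le_trans ?_ (half_le_phi hm (show 2 ≤ b - 1 by omega))
      by_contra hlt
      exact h2 (c.two_le hU (by omega))
  have e1 := phi_add_dd hm (show 2 ≤ b by omega)
  have e2 := phi_add_dd hm (show 2 ≤ b - 1 by omega)
  have e3 : (m - 1) * (b - 1 - 1) + (m - 1) = (m - 1) * (b - 1) := by
    rw [← Nat.mul_succ]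
    congr 1
    omega
  simp only [epsM]
  simp only [dd] at e1 e2
  split_ifs at e1 e2 ⊢ <;> omega

/-- No small set separates two sets that are not cliques. -/
theorem Crit.sep (c : Crit G m b W) (h1 : U₁ ⊆ W) (h2 : U₂ ⊆ W)
    (hcov : ∀ x ∈ W, x ∈ R ∨ x ∈ U₁ ∨ x ∈ U₂) (a1 : 2 ≤ alpha G U₁) (a2 : 2 ≤ alpha G U₂)
    (hsum : alpha G U₁ + alpha G U₂ ≤ b) (hR : R.card + 2 ≤ m)
    (h4 : b ≠ 4 ∨ R.card + 3 ≤ m) : False := by
  classical
  have hc : W.card ≤ R.card + U₁.card + U₂.card := by
    calc W.card ≤ (R ∪ U₁ ∪ U₂).card := Finset.card_le_card fun x hx => by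
          rcases hcov x hx with e | e | e <;> simp [e]
      _ ≤ _ := by
          have := Finset.card_union_le (R ∪ U₁) U₂
          have := Finset.card_union_le R U₁
          omega
  have e1 := c.small U₁ h1 a1 (by omega)
  have e2 := c.small U₂ h2 a2 (by omega)
  have hm := c.hm
  have hbig := c.big
  have hb := c.hb
  have hlow := c.hlow
  generalize alpha G U₁ = x at a1 hsum e1
  generalize alpha G U₂ = y at a2 hsum e2
  have f1 := phi_add_dd hm a1
  have f2 := phi_add_dd hm a2
  have f3 := phi_add_dd hm (show 2 ≤ b by omega)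
  have d3 := dd_le_two m b
  rcases Nat.eq_or_lt_of_le hsum with he | he
  · have e3 : (m - 1) * (x - 1) + (m - 1) * (y - 1) + (m - 1) = (m - 1) * (b - 1) := by
      rw [← Nat.mul_add, ← Nat.mul_succ]
      congr 1
      omega
    have := c.hlow
    by_cases hlo : (m - 1) / 2 ≤ 3
    · have := dd_low (c := b) hlo
      omega
    by_cases hb4 : b = 4
    · have : R.card + 3 ≤ m := h4.resolve_left (fun h => h hb4)
      omega
    rcases Nat.lt_or_ge x 3 with hx | hx
    · have := dd_pos (m := m) (c := y) (by omega) (by omega) (by omega)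
      omega
    · have := dd_pos (m := m) hx (by omega) (by omega)
      omega
  · have e3 : (m - 1) * (x - 1) + (m - 1) * (y - 1) + (m - 1) + (m - 1) ≤ (m - 1) * (b - 1) := by
      rw [← Nat.mul_add, ← Nat.mul_succ, ← Nat.mul_succ]
      exact Nat.mul_le_mul_left _ (by omega)
    omega

/-! ## The extremal path -/

/-- Order `m - 2` or `m - 1`. -/
def Adm (G : SimpleGraph V) (m : ℕ) (W : Finset V) (X : Fx V) : Prop :=
  X.Ok G W ∧ (X.T + 2 = m ∨ X.T + 1 = m)

/-- Index of the first plain edge, or the order. -/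
noncomputable def Fx.q (X : Fx V) : ℕ :=
  @Nat.find (fun i => X.Plain i ∨ X.T ≤ i) (Classical.decPred _) ⟨X.T, Or.inr le_rfl⟩

theorem Fx.q_le {X : Fx V} {i : ℕ} (h : X.Plain i) : X.q ≤ i :=
  @Nat.find_le _ _ (Classical.decPred _) _ (Or.inl h)

theorem Fx.q_plain {X : Fx V} {i : ℕ} (h : X.Plain i) : X.Plain X.q := by
  rcases @Nat.find_spec (fun i => X.Plain i ∨ X.T ≤ i) (Classical.decPred _)
    ⟨X.T, Or.inr le_rfl⟩ with hh | hh
  · exact hh
  · have := Fx.q_le h
    have := h.1
    have hh' : X.T ≤ X.q := hh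
    omega

/-- Most removable vertices, then fewest vertices, then the earliest plain edge, then the last
edge plain. -/
structure MExt (G : SimpleGraph V) (m : ℕ) (W : Finset V) (X : Fx V) : Prop where
  adm : Adm G m W X
  max_f : ∀ Y, Adm G m W Y → Y.R.card ≤ X.R.card
  min_T : ∀ Y, Adm G m W Y → Y.R.card = X.R.card → X.T ≤ Y.T
  min_q : ∀ Y, Adm G m W Y → Y.R.card = X.R.card → Y.T = X.T → X.q ≤ Y.q
  last : ∀ Y, Adm G m W Y → Y.R.card = X.R.card → Y.T = X.T → Y.q ≤ X.q → X.T - 2 ∈ X.R →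
    Y.T - 2 ∈ Y.R

theorem Fx.Ok.card_R_lt {X : Fx V} (h : X.Ok G W) : X.R.card ≤ X.T := by
  simpa using Finset.card_le_card (fun i hi => Finset.mem_range.2 (by
    have := (h.rem i hi).2.1
    omega) : X.R ⊆ Finset.range X.T)

theorem exists_mext {X₀ : Fx V} (h : Adm G m W X₀) :
    ∃ X : Fx V, MExt G m W X ∧ X₀.R.card ≤ X.R.card := by
  classical
  have e1 : ∃ k, ∃ Y : Fx V, Adm G m W Y ∧ m - Y.R.card = k := ⟨_, X₀, h, rfl⟩
  obtain ⟨Y1, y1, y1'⟩ := Nat.find_spec e1
  have hf : ∀ Y, Adm G m W Y → Y.R.card ≤ Y1.R.card := fun Y hY => by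
    have := Nat.find_le (h := e1) ⟨Y, hY, rfl⟩
    have := hY.1.card_R_lt
    have := hY.2
    omega
  have e2 : ∃ k, ∃ Y : Fx V, Adm G m W Y ∧ Y.R.card = Y1.R.card ∧ Y.T = k :=
    ⟨_, Y1, y1, rfl, rfl⟩
  obtain ⟨Y2, y2, y2', y2''⟩ := Nat.find_spec e2
  have e3 : ∃ k, ∃ Y : Fx V, Adm G m W Y ∧ Y.R.card = Y1.R.card ∧ Y.T = Y2.T ∧ Y.q = k :=
    ⟨_, Y2, y2, y2', rfl, rfl⟩
  obtain ⟨Y3, y3, y3', y3'', y3'''⟩ := Nat.find_spec e3
  have q3 : ∀ Y, Adm G m W Y → Y.R.card = Y1.R.card → Y.T = Y2.T → Y3.q ≤ Y.q :=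
    fun Y a b c => y3''' ▸ Nat.find_le (h := e3) ⟨Y, a, b, c, rfl⟩
  by_cases hl : ∃ Y, Adm G m W Y ∧ Y.R.card = Y1.R.card ∧ Y.T = Y2.T ∧ Y.q ≤ Y3.q ∧
      Y.T - 2 ∉ Y.R
  · obtain ⟨Y, a, b, c, d, e⟩ := hl
    exact ⟨Y, ⟨a, fun Z hZ => b ▸ hf Z hZ,
      fun Z hZ hb => c.trans_le (y2'' ▸ Nat.find_le (h := e2) ⟨Z, hZ, hb.trans b, rfl⟩),
      fun Z hZ hb hc => d.trans (q3 Z hZ (hb.trans b) (hc.trans c)),
      fun _ _ _ _ _ hh => absurd hh e⟩, b ▸ hf X₀ h⟩
  · exact ⟨Y3, ⟨y3, fun Z hZ => y3' ▸ hf Z hZ,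
      fun Z hZ hb => y3''.trans_le (y2'' ▸ Nat.find_le (h := e2) ⟨Z, hZ, hb.trans y3', rfl⟩),
      fun Z hZ hb hc => q3 Z hZ (hb.trans y3') (hc.trans y3''),
      fun Z hZ hb hc hd _ => not_not.1 fun he =>
        hl ⟨Z, hZ, hb.trans y3', hc.trans y3'', hd, he⟩⟩, y3' ▸ hf X₀ h⟩

theorem Fx.mem_snoc_P {X : Fx V} {z x : V} : x ∈ (X.snoc z).P ↔ x = z ∨ x ∈ X.P := by
  simp only [Fx.mem_P, Fx.snoc]
  constructor
  · rintro ⟨t, ht, rfl⟩
    by_cases h1 : t < X.T
    · exact Or.inr ⟨t, h1, by simp [h1]⟩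
    · exact Or.inl (by simp [h1])
  · rintro (rfl | ⟨t, ht, rfl⟩)
    · exact ⟨X.T, by omega, by simp⟩
    · exact ⟨t, by omega, by simp [ht]⟩

/-- There is an extremal path and it has a removable vertex. -/
theorem Crit.exists_mext (c : Crit G m b W) :
    ∃ X : Fx V, MExt G m W X ∧ 1 ≤ X.R.card := by
  classical
  have hm := c.hm
  have hb := c.hb
  have hlow := c.hlow
  obtain ⟨v, hv⟩ := Finset.card_pos.1 (show 0 < W.card by have := c.big; omega)
  have hd := c.deg hv
  have : ¬Indep G (nb G W v) := fun hi => by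
    have := (le_alpha (W := W) (fun z hz => (mem_nb.1 hz).1) hi).trans c.hα
    omega
  simp only [Indep, not_forall, not_not] at this
  obtain ⟨a, ha, a', ha', haa⟩ := this
  rw [mem_nb] at ha ha'
  let X1 : Fx V := ⟨1, fun _ => v, ∅⟩
  have ok1 : X1.Ok G W := ⟨le_rfl, fun _ _ => hv, fun s t h1 h2 => by
    have : t < 1 := h2
    omega, fun t ht => by
    have : t + 1 < 1 := ht
    omega, fun i hi => absurd hi (Finset.notMem_empty i)⟩
  have hP1 : ∀ z, z ≠ v → z ∉ X1.P := fun z hz hh => hz (by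
    obtain ⟨t, -, e⟩ := Fx.mem_P.1 hh
    exact e.symm)
  have ok3 := ok1.tri ha.1 ha'.1 (hP1 a ha.2.ne') (hP1 a' ha'.2.ne') ha.2 ha'.2 haa
  have key : ∀ k, k + 5 ≤ m → ∃ X : Fx V, X.Ok G W ∧ X.T = 3 + k ∧ X.R.card = 1 := by
    intro k
    induction k with
    | zero => exact fun _ => ⟨_, ok3, rfl, by rw [Fx.tri_card ok1]; rfl⟩
    | succ k ih =>
      intro hk
      obtain ⟨X, h1, h2, h3⟩ := ih (by omega)
      have := c.deg (h1.mem (X.T - 1) (by omega))
      obtain ⟨z, hz, hzP⟩ : ∃ z ∈ nb G W X.e, z ∉ X.P := by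
        by_contra hc
        push Not at hc
        have := Finset.card_le_card hc
        rw [h1.P_card] at this
        have he : (nb G W X.e).card + 2 ≥ m + epsM m b := c.deg (h1.mem (X.T - 1) (by omega))
        omega
      rw [mem_nb] at hz
      exact ⟨X.snoc z, h1.snoc hz.1 hzP hz.2, by show X.T + 1 = _; omega, h3⟩
  obtain ⟨X, h1, h2, h3⟩ := key (m - 5) (by omega)
  obtain ⟨Y, hY, hY'⟩ := Full.exists_mext (G := G) (m := m) (W := W) (X₀ := X) ⟨h1, Or.inl (by omega)⟩
  exact ⟨Y, hY, by omega⟩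

open Classical in
/-- The neighbours of the last vertex outside the path. -/
noncomputable def Fx.out (X : Fx V) (G : SimpleGraph V) (W : Finset V) : Finset V :=
  (nb G W X.e).filter fun z => z ∉ X.P

theorem Fx.mem_out {X : Fx V} {z : V} : z ∈ X.out G W ↔ z ∈ W ∧ G.Adj X.e z ∧ z ∉ X.P := by
  classical
  simp [Fx.out, mem_nb, and_assoc]

theorem Fx.e_mem {X : Fx V} (h : X.Ok G W) : X.e ∈ W :=
  h.mem _ (by have := h.pos; omega)

variable {X : Fx V}

theorem MExt.ok (h : MExt G m W X) : X.Ok G W := h.adm.1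

/-- At order `m - 1` both end edges lie in triangles. -/
theorem MExt.rule1 (h : MExt G m W X) (hm : 7 ≤ m) (hT : X.T + 1 = m) :
    1 ∈ X.R ∧ X.T - 2 ∈ X.R := by
  constructor
  · by_contra hn
    have ok := h.ok.drop (by omega)
    have := Fx.drop_card h.ok
    rw [Finset.erase_eq_of_notMem hn] at this
    have := h.min_T _ ⟨ok, Or.inl (show X.T - 1 + 2 = m by omega)⟩ this
    have : X.T ≤ X.T - 1 := this
    omega
  · by_contra hn
    have ok := h.ok.take (n := X.T - 1) (by omega) (by omega)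
    have := Fx.take_card_one h.ok
    rw [Finset.erase_eq_of_notMem hn] at this
    have := h.min_T _ ⟨ok, Or.inl (show X.T - 1 + 2 = m by omega)⟩ (by rw [this])
    have : X.T ≤ X.T - 1 := this
    omega

/-- If an edge is plain, the outside neighbours of the last vertex are independent. -/
theorem MExt.rule2 (h : MExt G m W X) (hm : 7 ≤ m) {i : ℕ} (hi : X.Plain i) :
    Indep G (X.out G W) := by
  intro a ha a' ha' hadj
  rw [Fx.mem_out] at ha ha'
  have ok := h.ok.tri ha.1 ha'.1 ha.2.2 ha'.2.2 ha.2.1 ha'.2.1 hadj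
  have hc := Fx.tri_card h.ok (a := a) (b := a')
  have hT := h.adm.2
  have ok1 := ok.drop (show 2 ≤ X.T + 2 by omega)
  have hc1 := Fx.drop_card ok
  by_cases h1 : 1 ∈ X.R
  · have hmem : 1 ∈ (X.tri a a').R := Finset.mem_insert_of_mem h1
    rw [Finset.card_erase_of_mem hmem, hc] at hc1
    have ok2 := ok1.drop (show 2 ≤ X.T + 2 - 1 by omega)
    have hc2 := Fx.drop_card ok1
    have hn : 1 ∉ (X.tri a a').drop.R := fun hh => by
      obtain ⟨-, h2⟩ := (Fx.mem_drop ok).1 hh
      exact (ok.rem 1 hmem).2.2.2 h2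
    rw [Finset.erase_eq_of_notMem hn] at hc2
    have eT : (X.tri a a').drop.drop.T = X.T := show X.T + 2 - 1 - 1 = X.T by omega
    have hq := h.min_q _ ⟨ok2, eT ▸ hT⟩ (by omega) eT
    have pq := Fx.q_plain hi
    have q2 : 2 ≤ X.q := by
      by_contra hlt
      rcases Nat.lt_or_ge X.q 1 with hq0 | hq0
      · exact pq.2.2 (by rwa [show X.q + 1 = 1 by omega])
      · exact pq.2.1 (by rwa [show X.q = 1 by omega])
    have hp : (X.tri a a').drop.drop.Plain (X.q - 2) := by
      have hsh : ∀ j, j ∈ (X.tri a a').drop.drop.R → j + 2 = X.T ∨ j + 2 ∈ X.R := fun j hj => by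
        obtain ⟨-, h2⟩ := (Fx.mem_drop ok1).1 hj
        obtain ⟨-, h3⟩ := (Fx.mem_drop ok).1 h2
        exact Finset.mem_insert.1 h3
      refine ⟨?_, fun hh => ?_, fun hh => ?_⟩
      · rw [eT]
        have := pq.1
        omega
      · rcases hsh _ hh with e | e
        · have := pq.1
          omega
        · exact pq.2.1 (by rwa [show X.q - 2 + 2 = X.q by omega] at e)
      · rcases hsh _ hh with e | e
        · have := pq.1
          omega
        · exact pq.2.2 (by rwa [show X.q - 2 + 1 + 2 = X.q + 1 by omega] at e)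
    have := Fx.q_le hp
    omega
  · have hn : 1 ∉ (X.tri a a').R := fun hh => by
      rcases Finset.mem_insert.1 hh with e | e
      · omega
      · exact h1 e
    rw [Finset.erase_eq_of_notMem hn, hc] at hc1
    rcases hT with hT | hT
    · have := h.max_f _ ⟨ok1, Or.inr (show X.T + 2 - 1 + 1 = m by omega)⟩
      omega
    · exact h1 (h.rule1 hm hT).1

/-- The last vertex sees both ends of a plain edge only in one exceptional situation. -/
theorem MExt.rule3 (h : MExt G m W X) (hm : 7 ≤ m) {i : ℕ} (hi : X.Plain i)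
    (h1 : G.Adj X.e (X.f i)) (h2 : G.Adj X.e (X.f (i + 1))) :
    X.T + 2 = m ∧ X.T - 2 ∈ X.R ∧ i = X.q := by
  have hT := h.adm.2
  have hi1 := hi.1
  have hlt : i + 2 < X.T := by
    by_contra hc
    exact h2.ne (show X.e = X.f (i + 1) by rw [Fx.e]; congr 1; omega)
  have heP : X.e ∉ (X.take (X.T - 1)).P := fun hh => by
    obtain ⟨t, ht, e⟩ := Fx.mem_P.1 hh
    have ht' : t < X.T - 1 := ht
    exact h.ok.ne (show t < X.T by omega) (by omega) (by omega) e
  by_cases hl : X.T - 2 ∈ X.R
  · have hne : i + 1 ≠ X.T - 2 := fun e => hi.2.2 (e ▸ hl)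
    rcases hT with hT | hT
    · refine ⟨hT, hl, ?_⟩
      by_contra hiq
      have hq1 := Fx.q_le hi
      have pq := Fx.q_plain hi
      have ok := h.ok.take (n := X.T - 1) (by omega) (by omega)
      have hp : (X.take (X.T - 1)).Plain i :=
        ⟨show i + 1 < X.T - 1 by omega, fun hh => hi.2.1 (Finset.mem_filter.1 hh).1,
          fun hh => hi.2.2 (Finset.mem_filter.1 hh).1⟩
      have ok2 := ok.ins hp (Fx.e_mem h.ok) heP h1 h2
      have hc : ((X.take (X.T - 1)).ins i X.e).R.card = X.R.card := by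
        rw [Fx.ins_card hp, Fx.take_card_one h.ok, Finset.card_erase_of_mem hl]
        have := Finset.card_pos.2 ⟨_, hl⟩
        omega
      have eT : ((X.take (X.T - 1)).ins i X.e).T = X.T := show X.T - 1 + 1 = X.T by omega
      have hpq : ((X.take (X.T - 1)).ins i X.e).Plain X.q := by
        refine ⟨eT.symm ▸ pq.1, fun hh => ?_, fun hh => ?_⟩ <;>
          rcases (Fx.mem_ins hp).1 hh with e | ⟨-, e⟩ | ⟨e, -⟩
        · omega
        · exact pq.2.1 (Finset.mem_filter.1 e).1
        · omega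
        · omega
        · exact pq.2.2 (Finset.mem_filter.1 e).1
        · omega
      have := h.last _ ⟨ok2, Or.inl (by rw [eT]; exact hT)⟩ hc eT (Fx.q_le hpq) hl
      rw [eT] at this
      rcases (Fx.mem_ins hp).1 this with e | ⟨e, -⟩ | ⟨-, e⟩
      · omega
      · omega
      · have := (Finset.mem_filter.1 e).1
        have h4 := (h.ok.rem _ this).2.2.2
        rw [show X.T - 2 - 1 + 1 = X.T - 2 by omega] at h4
        exact h4 hl
    · exfalso
      have hne' : i + 1 < X.T - 2 := by omega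
      have ok := h.ok.take (n := X.T - 2) (by omega) (by omega)
      have hp : (X.take (X.T - 2)).Plain i :=
        ⟨hne', fun hh => hi.2.1 (Finset.mem_filter.1 hh).1,
          fun hh => hi.2.2 (Finset.mem_filter.1 hh).1⟩
      have heP' : X.e ∉ (X.take (X.T - 2)).P := fun hh => by
        obtain ⟨t, ht, e⟩ := Fx.mem_P.1 hh
        have ht' : t < X.T - 2 := ht
        exact h.ok.ne (show t < X.T by omega) (by omega) (by omega) e
      have ok2 := ok.ins hp (Fx.e_mem h.ok) heP' h1 h2
      have hc : ((X.take (X.T - 2)).ins i X.e).R.card = X.R.card := by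
        rw [Fx.ins_card hp, Fx.take_card_two h.ok hl, Finset.card_erase_of_mem hl]
        have := Finset.card_pos.2 ⟨_, hl⟩
        omega
      have := h.min_T _ ⟨ok2, Or.inl (show X.T - 2 + 1 + 2 = m by omega)⟩ hc
      have : X.T ≤ X.T - 2 + 1 := this
      omega
  · exfalso
    have ok := h.ok.take (n := X.T - 1) (by omega) (by omega)
    have hp : (X.take (X.T - 1)).Plain i :=
      ⟨show i + 1 < X.T - 1 by omega, fun hh => hi.2.1 (Finset.mem_filter.1 hh).1,
        fun hh => hi.2.2 (Finset.mem_filter.1 hh).1⟩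
    have ok2 := ok.ins hp (Fx.e_mem h.ok) heP h1 h2
    have hc : ((X.take (X.T - 1)).ins i X.e).R.card = X.R.card + 1 := by
      rw [Fx.ins_card hp, Fx.take_card_one h.ok, Finset.erase_eq_of_notMem hl]
    have := h.max_f _ ⟨ok2, by show X.T - 1 + 1 + 2 = m ∨ X.T - 1 + 1 + 1 = m; omega⟩
    omega

/-- Twice the number of removable vertices fits on the path. -/
theorem Fx.Ok.skeleton (h : X.Ok G W) :
    ∃ S : Finset ℕ, (∀ i ∈ S, X.Plain i) ∧ S.card + 2 * X.R.card + 1 = X.T := by
  classical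
  refine ⟨Finset.range (X.T - 1) \ (X.R ∪ X.R.image (· - 1)), fun i hi => ?_, ?_⟩
  · simp only [Finset.mem_sdiff, Finset.mem_range, Finset.mem_union, Finset.mem_image, not_or,
      not_exists, not_and] at hi
    exact ⟨by omega, hi.2.1, fun hh => hi.2.2 _ hh (by omega)⟩
  · have hd : Disjoint X.R (X.R.image (· - 1)) := by
      rw [Finset.disjoint_left]
      intro i hi hh
      obtain ⟨j, hj, rfl⟩ := Finset.mem_image.1 hh
      exact h.pred_notMem hj hi
    have hsub : X.R ∪ X.R.image (· - 1) ⊆ Finset.range (X.T - 1) := by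
      intro i hi
      rw [Finset.mem_range]
      rcases Finset.mem_union.1 hi with hi | hi
      · have := (h.rem i hi).2.1
        omega
      · obtain ⟨j, hj, rfl⟩ := Finset.mem_image.1 hi
        have := (h.rem j hj).2.1
        omega
    rw [Finset.card_sdiff_of_subset hsub, Finset.card_union_of_disjoint hd,
      Finset.card_image_of_injOn, Finset.card_range]
    · have := Finset.card_le_card hsub
      rw [Finset.card_union_of_disjoint hd, Finset.card_image_of_injOn, Finset.card_range] at this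
      · have := h.pos
        omega
      · intro a ha a' ha' e
        have := (h.rem a ha).1
        have := (h.rem a' ha').1
        dsimp at e
        omega
    · intro a ha a' ha' e
      have := (h.rem a ha).1
      have := (h.rem a' ha').1
      dsimp at e
      omega

/-- The last vertex has few neighbours on the path. -/
theorem MExt.count (h : MExt G m W X) (c : Crit G m b W) :
    (m - 1) / 2 + epsM m b ≤ (X.out G W).card + X.R.card := by
  classical
  have hm := c.hm
  have hT := h.adm.2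
  obtain ⟨S, hS, hcard⟩ := h.ok.skeleton
  let O := (Finset.range (X.T - 1)).filter fun t => ¬G.Adj X.e (X.f t)
  let A := (Finset.range (X.T - 1)).filter fun t => G.Adj X.e (X.f t)
  have hAO : A.card + O.card = X.T - 1 := by
    have := Finset.card_filter_add_card_filter_not (s := Finset.range (X.T - 1))
      fun t => G.Adj X.e (X.f t)
    rw [Finset.card_range] at this
    exact this
  have hnb : (nb G W X.e).card ≤ (X.out G W).card + A.card := by
    refine le_trans (Finset.card_le_card (t := X.out G W ∪ A.image X.f) fun z hz => ?_) ?_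
    · rw [mem_nb] at hz
      by_cases hzP : z ∈ X.P
      · obtain ⟨t, ht, rfl⟩ := Fx.mem_P.1 hzP
        refine Finset.mem_union_right _ (Finset.mem_image_of_mem _ ?_)
        simp only [A, Finset.mem_filter, Finset.mem_range]
        refine ⟨?_, hz.2⟩
        by_contra hc
        exact hz.2.ne (show X.e = X.f t by rw [Fx.e]; congr 1; omega)
      · exact Finset.mem_union_left _ (Fx.mem_out.2 ⟨hz.1, hz.2, hzP⟩)
    · exact (Finset.card_union_le _ _).trans (Nat.add_le_add_left Finset.card_image_le _)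
  have hdeg := c.deg (Fx.e_mem h.ok)
  have hsub : ∀ i ∈ S, (X.T + 2 = m → i ≠ if X.T - 2 ∈ X.R then X.q else X.T - 2) →
      i ∈ O ∪ O.image (· - 1) := by
    intro i hi hx
    have hp := hS i hi
    have hi1 := hp.1
    by_cases hlast : i + 2 = X.T
    · have hl : X.T - 2 ∉ X.R := by rw [show X.T - 2 = i by omega]; exact hp.2.1
      rcases hT with hT | hT
      · exact absurd (show i = _ by rw [if_neg hl]; omega) (hx hT)
      · exact absurd (h.rule1 hm hT).2 hl
    · simp only [O, Finset.mem_union, Finset.mem_filter, Finset.mem_range, Finset.mem_image]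
      by_cases h1 : G.Adj X.e (X.f i)
      · by_cases h2 : G.Adj X.e (X.f (i + 1))
        · obtain ⟨r1, r2, r3⟩ := h.rule3 hm hp h1 h2
          exact absurd (by rw [if_pos r2]; exact r3) (hx r1)
        · exact Or.inr ⟨i + 1, ⟨by omega, h2⟩, by omega⟩
      · exact Or.inl ⟨by omega, h1⟩
  have hO : (O ∪ O.image (· - 1)).card ≤ 2 * O.card :=
    (Finset.card_union_le _ _).trans (by
      have := Finset.card_image_le (s := O) (f := (· - 1))
      omega)
  rcases hT with hT | hT
  · have : S.card ≤ 2 * O.card + 1 := by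
      refine le_trans ?_ (Nat.add_le_add_right hO 1)
      refine le_trans (Finset.card_le_card (t := insert (if X.T - 2 ∈ X.R then X.q else X.T - 2)
        (O ∪ O.image (· - 1))) fun i hi => ?_) (Finset.card_insert_le _ _)
      by_cases he : i = if X.T - 2 ∈ X.R then X.q else X.T - 2
      · exact Finset.mem_insert.2 (Or.inl he)
      · exact Finset.mem_insert_of_mem (hsub i hi fun _ => he)
    omega
  · have : S.card ≤ 2 * O.card :=
      le_trans (Finset.card_le_card fun i hi => hsub i hi fun e => by omega) hO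
    omega

end Vale.Agent.P048.Full
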