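import Vale.Agent.P048.Full.MCrit

/-! # Growing from the end of a path to the rotated starts -/

namespace Vale.Agent.P048.Full

open Finset

variable {V : Type} {G : SimpleGraph V} {m b : ℕ} {W : Finset V}

/-- `x` is reached from `S` inside `Y` by a walk on at most `j` vertices. -/
def Near (G : SimpleGraph V) (Y S : Finset V) (j : ℕ) (x : V) : Prop :=
  ∃ y ∈ S, ∃ w : G.Walk y x, w.length + 1 ≤ j ∧ ∀ v ∈ w.support, v ∈ Y

theorem Near.self {Y S : Finset V} {x : V} (hS : x ∈ S) (hY : x ∈ Y) {j : ℕ} (hj : 1 ≤ j) :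
    Near G Y S j x :=
  ⟨x, hS, .nil, by simpa using hj, by simpa using hY⟩

theorem Near.step {Y S : Finset V} {j : ℕ} {x x' : V} (h : Near G Y S j x) (hx : G.Adj x x')
    (hY : x' ∈ Y) : Near G Y S (j + 1) x' := by
  obtain ⟨y, hy, w, h1, h2⟩ := h
  refine ⟨y, hy, w.concat hx, by simpa using h1, fun v hv => ?_⟩
  rw [SimpleGraph.Walk.support_concat, List.mem_append, List.mem_singleton] at hv
  rcases hv with hv | rfl
  exacts [h2 v hv, hY]

theorem Near.trans {Y S S' : Finset V} {j k : ℕ} {x : V}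
    (hS : ∀ z ∈ S', Near G Y S k z) (h : Near G Y S' (j + 1) x) : Near G Y S (k + j) x := by
  obtain ⟨z, hz, w, h1, h2⟩ := h
  obtain ⟨y, hy, w', h1', h2'⟩ := hS z hz
  refine ⟨y, hy, w'.append w, by rw [SimpleGraph.Walk.length_append]; omega, fun v hv => ?_⟩
  rw [SimpleGraph.Walk.mem_support_append_iff] at hv
  exact hv.elim (h2' v) (h2 v)

theorem Near.pth {Y S : Finset V} {j : ℕ} {x : V} (h : Near G Y S j x) :
    ∃ y ∈ S, ∃ l, l ≤ j ∧ Pth G y x l (Y : Set V) ∧ (l = 1 → y = x) := by
  classical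
  obtain ⟨y, hy, w, h1, h2⟩ := h
  refine ⟨y, hy, w.bypass.length + 1, ?_,
    ⟨w.bypass, w.bypass_isPath, rfl, fun v hv => h2 v (w.support_bypass_subset_support hv)⟩, fun h => ?_⟩
  · have := w.length_bypass_le_length
    omega
  · exact SimpleGraph.Walk.eq_of_length_eq_zero (p := w.bypass) (by omega)

open Classical in
/-- The vertices off the path. -/
noncomputable def Fx.off (X : Fx V) (W : Finset V) : Finset V := W.filter fun z => z ∉ X.P

theorem Fx.mem_off {X : Fx V} {z : V} : z ∈ X.off W ↔ z ∈ W ∧ z ∉ X.P := by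
  classical simp [Fx.off]

theorem Fx.disjoint_off {X : Fx V} : Disjoint (X.P : Set V) (X.off W : Set V) :=
  Set.disjoint_left.2 fun _ h1 h2 => (Fx.mem_off.1 (Finset.mem_coe.1 h2)).2 (Finset.mem_coe.1 h1)

open Classical in
/-- Positions whose successor is adjacent to the first vertex. -/
noncomputable def Fx.preds (X : Fx V) (G : SimpleGraph V) : Finset ℕ :=
  (Finset.range (X.T - 1)).filter fun i => G.Adj X.s (X.f (i + 1))

theorem Fx.mem_preds {X : Fx V} {i : ℕ} :
    i ∈ X.preds G ↔ i + 1 < X.T ∧ G.Adj X.s (X.f (i + 1)) := by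
  classical
  simp only [Fx.preds, Finset.mem_filter, Finset.mem_range]
  exact ⟨fun h => ⟨by omega, h.2⟩, fun h => ⟨by omega, h.2⟩⟩

variable {X : Fx V}

theorem Fx.Ok.zero_preds (h : X.Ok G W) (hT : 2 ≤ X.T) : 0 ∈ X.preds G :=
  Fx.mem_preds.2 ⟨by omega, h.adj 0 (by omega)⟩

theorem Fx.Ok.preds_injOn (h : X.Ok G W) : Set.InjOn X.f (X.preds G : Set ℕ) :=
  fun a ha b hb e => h.injOn
    (show a < X.T by have := (Fx.mem_preds.1 (Finset.mem_coe.1 ha)).1; omega)
    (show b < X.T by have := (Fx.mem_preds.1 (Finset.mem_coe.1 hb)).1; omega) e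

/-- The first vertex has as many neighbours as there are rotated starts and outside neighbours. -/
theorem Fx.Ok.nb_start (h : X.Ok G W) :
    (nb G W X.s).card = (X.preds G).card + (X.rev.out G W).card := by
  classical
  have hrP : X.rev.P = X.P := Fx.rev_P h
  have e : nb G W X.s = (X.preds G).image (fun i => X.f (i + 1)) ∪ X.rev.out G W := by
    ext z
    simp only [Finset.mem_union, Finset.mem_image, Fx.mem_preds, Fx.mem_out, Fx.rev_e, hrP,
      mem_nb]
    constructor
    · rintro ⟨h1, h2⟩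
      by_cases hz : z ∈ X.P
      · obtain ⟨t, ht, rfl⟩ := Fx.mem_P.1 hz
        have : t ≠ 0 := fun e => h2.ne (by rw [e]; rfl)
        exact Or.inl ⟨t - 1, ⟨by omega, by rwa [show t - 1 + 1 = t by omega]⟩,
          by rw [show t - 1 + 1 = t by omega]⟩
      · exact Or.inr ⟨h1, h2, hz⟩
    · rintro (⟨i, ⟨h1, h2⟩, rfl⟩ | ⟨h1, h2, -⟩)
      exacts [⟨h.mem _ h1, h2⟩, ⟨h1, h2⟩]
  rw [e, Finset.card_union_of_disjoint, Finset.card_image_of_injOn]
  · intro a ha b hb e
    have := h.injOn (show a + 1 < X.T from (Fx.mem_preds.1 (Finset.mem_coe.1 ha)).1)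
      (show b + 1 < X.T from (Fx.mem_preds.1 (Finset.mem_coe.1 hb)).1) e
    omega
  · rw [Finset.disjoint_left]
    intro z hz hz'
    obtain ⟨i, hi, rfl⟩ := Finset.mem_image.1 hz
    exact (Fx.mem_out.1 hz').2.2 (hrP ▸ Fx.f_mem_P (Fx.mem_preds.1 hi).1)

/-- The main growth step: outside the path, a set near the neighbours of the last vertex cannot
be large. -/
theorem Crit.link (c : Crit G m b W) (h : X.Ok G W) (hT : X.T + 2 = m ∨ X.T + 1 = m)
    {S W0 : Finset V} {k r0 : ℕ} (hS : ∀ y ∈ S, G.Adj X.e y) (hW0 : W0 ⊆ X.off W)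
    (hnear : ∀ x ∈ W0, Near G (X.off W) S k x) (ha : 2 ≤ alpha G W0)
    (hsum : b + 1 ≤ alpha G W0 + r0 + awM m b) (hlen : X.T + k + r0 + 1 ≤ m + X.R.card)
    (hone : X.T + 2 = m → ∀ y ∈ S, ¬G.Adj y X.s ∧ ∀ i ∈ X.preds G, ¬G.Adj y (X.f i))
    (hR : b ≠ 4 ∨ X.T + 3 ≤ m + (X.preds G).card ∨
      ∃ t, t < X.T ∧ t ∉ X.preds G ∧ ∀ x ∈ W0, ¬G.Adj x (X.f t)) : False := by
  classical
  have hm := c.hm
  obtain ⟨SK, -, hSK⟩ := h.skeleton
  let Y := X.off W
  let B : ℕ → Finset V := fun j => Y.filter fun x => Near G Y W0 (j + 1) x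
  have hB : ∀ {j x}, x ∈ B j ↔ x ∈ Y ∧ Near G Y W0 (j + 1) x := fun {j x} => by simp [B]
  have BW : ∀ j, B j ⊆ W := fun j x hx => (Fx.mem_off.1 (hB.1 hx).1).1
  have B0 : W0 ⊆ B 0 := fun x hx => hB.2 ⟨hW0 hx, Near.self hx (hW0 hx) le_rfl⟩
  have Bmono : ∀ {i j}, i ≤ j → B i ⊆ B j := fun {i j} hij x hx => by
    obtain ⟨h1, y, hy, w, h2, h3⟩ := hB.1 hx
    exact hB.2 ⟨h1, y, hy, w, by omega, h3⟩
  -- nothing near reaches a start
  have outS : ∀ x, Near G Y S (k + r0 + 1) x → ¬G.Adj x X.s := fun x hx hxs => by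
    obtain ⟨y, hy, l, hl, hp, h1⟩ := hx.pth
    have hlow : m ≤ X.T + l := by
      have := hp.pos
      rcases hT with hT | hT
      · by_contra hlt
        exact (hone hT y hy).1 (h1 (by omega) ▸ hxs)
      · omega
    exact c.free (h.close hp Fx.disjoint_off (hS y hy) hxs (by omega) hlow (by omega) (by omega))
  have inS : ∀ x ∈ B r0, ∀ i ∈ X.preds G, ¬G.Adj x (X.f i) := fun x hx i hi hxi => by
    obtain ⟨y, hy, l, hl, hp, h1⟩ := (Near.trans hnear (hB.1 hx).2).pth
    obtain ⟨hi1, hi2⟩ := Fx.mem_preds.1 hi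
    have hlow : m ≤ X.T + l := by
      have := hp.pos
      rcases hT with hT | hT
      · by_contra hlt
        exact (hone hT y hy).2 i hi (h1 (by omega) ▸ hxi)
      · omega
    exact c.free (h.close_rot hp Fx.disjoint_off (hS y hy) hi1 hi2 hxi (by omega) hlow (by omega)
      (by omega))
  -- the starts
  let P0 := (X.preds G).image X.f
  have hP0 : P0 ⊆ X.P := fun z hz => by
    obtain ⟨i, hi, rfl⟩ := Finset.mem_image.1 hz
    exact Fx.f_mem_P (by have := (Fx.mem_preds.1 hi).1; omega)
  let St := P0 ∪ X.rev.out G W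
  have hout : ∀ z, z ∈ X.rev.out G W ↔ z ∈ W ∧ G.Adj X.s z ∧ z ∉ X.P := fun z => by
    rw [Fx.mem_out, Fx.rev_e, Fx.rev_P h]
  have hStW : St ⊆ W := Finset.union_subset (hP0.trans h.P_sub) fun z hz => ((hout z).1 hz).1
  have haw : awM m b ≤ alpha G St := by
    refine c.aw_le hStW ?_
    have := c.deg (h.mem 0 h.pos)
    have hc : St.card = (X.preds G).card + (X.rev.out G W).card := by
      rw [Finset.card_union_of_disjoint, Finset.card_image_of_injOn h.preds_injOn]
      exact Finset.disjoint_left.2 fun z hz hz' => ((hout z).1 hz').2.2 (hP0 hz)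
    have := h.nb_start
    change m + epsM m b ≤ (nb G W X.s).card + 2 at *
    omega
  have aw2 : 2 ≤ awM m b := by
    simp only [awM]
    split_ifs <;> omega
  -- the balls gain one at every step
  have grow : ∀ j ≤ r0, alpha G W0 + j ≤ alpha G (B j) := by
    intro j
    induction j with
    | zero => exact fun _ => alpha_mono B0
    | succ j ih =>
      intro hj
      have ih' := ih (by omega)
      by_contra hlt
      have hmono := alpha_mono (G := G) (Bmono (show j ≤ j + 1 by omega))
      let U2 := (Y \ B (j + 1)) ∪ P0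
      have hU2W : U2 ⊆ W := Finset.union_subset
        (fun z hz => (Fx.mem_off.1 (Finset.mem_sdiff.1 hz).1).1) (hP0.trans h.P_sub)
      have hnon : ∀ x ∈ B j, ∀ z ∈ U2, ¬G.Adj x z := by
        intro x hx z hz hadj
        rcases Finset.mem_union.1 hz with hz | hz
        · obtain ⟨z1, z2⟩ := Finset.mem_sdiff.1 hz
          exact z2 (hB.2 ⟨z1, (hB.1 hx).2.step hadj z1⟩)
        · obtain ⟨i, hi, rfl⟩ := Finset.mem_image.1 hz
          exact inS x (Bmono (show j ≤ r0 by omega) hx) i hi hadj
      have hdisj : Disjoint (B j) U2 := Finset.disjoint_left.2 fun x hx hz => by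
        rcases Finset.mem_union.1 hz with hz | hz
        · exact (Finset.mem_sdiff.1 hz).2 (Bmono (show j ≤ j + 1 by omega) hx)
        · exact (Fx.mem_off.1 (hB.1 hx).1).2 (hP0 hz)
      have hStU : St ⊆ U2 := by
        intro z hz
        rcases Finset.mem_union.1 hz with hz | hz
        · exact Finset.mem_union_right _ hz
        · obtain ⟨z1, z2, z3⟩ := (hout z).1 hz
          refine Finset.mem_union_left _ (Finset.mem_sdiff.2 ⟨Fx.mem_off.2 ⟨z1, z3⟩, fun hzB => ?_⟩)
          obtain ⟨y, hy, w, h1, h2⟩ := Near.trans hnear (hB.1 hzB).2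
          exact outS z ⟨y, hy, w, by omega, h2⟩ z2.symm
      have a2 : 2 ≤ alpha G U2 := le_trans (haw.trans' aw2) (alpha_mono hStU)
      have add := alpha_add_le (BW j) hU2W hdisj hnon
      have := c.hα
      let R0 := (Finset.range X.T \ X.preds G).image X.f
      have hcov : ∀ x ∈ W, x ∈ R0 ∨ x ∈ B (j + 1) ∨ x ∈ U2 := by
        intro x hx
        by_cases hxP : x ∈ X.P
        · obtain ⟨t, ht, rfl⟩ := Fx.mem_P.1 hxP
          by_cases htp : t ∈ X.preds G
          · exact Or.inr (Or.inr (Finset.mem_union_right _ (Finset.mem_image_of_mem _ htp)))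
          · exact Or.inl (Finset.mem_image_of_mem _
              (Finset.mem_sdiff.2 ⟨Finset.mem_range.2 ht, htp⟩))
        · by_cases hxB : x ∈ B (j + 1)
          · exact Or.inr (Or.inl hxB)
          · exact Or.inr (Or.inr (Finset.mem_union_left _
              (Finset.mem_sdiff.2 ⟨Fx.mem_off.2 ⟨hx, hxP⟩, hxB⟩)))
      have hR0 : R0.card + (X.preds G).card ≤ X.T := by
        have hsub : X.preds G ⊆ Finset.range X.T := fun i hi => by
          have := (Fx.mem_preds.1 hi).1
          exact Finset.mem_range.2 (by omega)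
        have := Finset.card_image_le (s := Finset.range X.T \ X.preds G) (f := X.f)
        rw [Finset.card_sdiff_of_subset hsub, Finset.card_range] at this
        change R0.card ≤ _ at this
        have := Finset.card_le_card hsub
        rw [Finset.card_range] at this
        omega
      have hp1 : 1 ≤ (X.preds G).card := Finset.card_pos.2 ⟨0, h.zero_preds (by omega)⟩
      by_cases h4 : b ≠ 4 ∨ R0.card + 3 ≤ m
      · exact c.sep (BW _) hU2W hcov (by omega) a2 (by omega) (by omega) h4
      · simp only [not_or, not_not] at h4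
        rcases hR with hR | hR | ⟨t, ht, htp, htW⟩
        · exact hR h4.1
        · omega
        · have hj0 : j = 0 := by omega
          subst hj0
          have htR : X.f t ∈ R0 :=
            Finset.mem_image_of_mem _ (Finset.mem_sdiff.2 ⟨Finset.mem_range.2 ht, htp⟩)
          have hB0 : ∀ x ∈ B 0, x ∈ W0 := fun x hx => by
            obtain ⟨-, y, hy, w, h1, -⟩ := hB.1 hx
            exact SimpleGraph.Walk.eq_of_length_eq_zero (p := w) (by omega) ▸ hy
          have hins : insert (X.f t) U2 ⊆ W := Finset.insert_subset (h.mem t ht) hU2W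
          have add' := alpha_add_le (G := G) (BW 0) hins
            (Finset.disjoint_left.2 fun x hx hz => by
              rcases Finset.mem_insert.1 hz with e | hz
              · exact (Fx.mem_off.1 (hB.1 hx).1).2 (e ▸ Fx.f_mem_P ht)
              · exact Finset.disjoint_left.1 hdisj hx hz)
            (fun x hx z hz => by
              rcases Finset.mem_insert.1 hz with rfl | hz
              · exact htW x (hB0 x hx)
              · exact hnon x hx z hz)
          refine c.sep (R := R0.erase (X.f t)) (BW (0 + 1)) hins (fun x hx => ?_) (by omega)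
            (a2.trans (alpha_mono (Finset.subset_insert _ _))) (by omega) ?_ (Or.inr ?_)
          · by_cases e : x = X.f t
            · exact Or.inr (Or.inr (e ▸ Finset.mem_insert_self _ _))
            · rcases hcov x hx with r | r | r
              exacts [Or.inl (Finset.mem_erase.2 ⟨e, r⟩), Or.inr (Or.inl r),
                Or.inr (Or.inr (Finset.mem_insert_of_mem r))]
          all_goals
            rw [Finset.card_erase_of_mem htR]
            omega
  have add := alpha_add_le (G := G) (BW r0) hStW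
    (Finset.disjoint_left.2 fun x hx hz => by
      rcases Finset.mem_union.1 hz with hz | hz
      · exact (Fx.mem_off.1 (hB.1 hx).1).2 (hP0 hz)
      · obtain ⟨y, hy, w, h1, h2⟩ := Near.trans hnear (hB.1 hx).2
        exact outS x ⟨y, hy, w, by omega, h2⟩ ((hout x).1 hz).2.1.symm)
    (fun x hx z hz hadj => by
      rcases Finset.mem_union.1 hz with hz | hz
      · obtain ⟨i, hi, rfl⟩ := Finset.mem_image.1 hz
        exact inS x hx i hi hadj
      · obtain ⟨z1, z2, z3⟩ := (hout z).1 hz
        exact outS z ((Near.trans hnear (hB.1 hx).2).step hadj (Fx.mem_off.2 ⟨z1, z3⟩)) z2.symm)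
  have := grow r0 le_rfl
  have := c.hα
  omega

end Vale.Agent.P048.Full
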