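import Vale.Agent.P048.Full.Base

/-! # Paths with removable vertices -/

namespace Vale.Agent.P048.Full

open Finset

variable {V : Type} {G : SimpleGraph V}

/-- A sequence of `T` vertices with a set `R` of removable positions. -/
structure Fx (V : Type) where
  T : ℕ
  f : ℕ → V
  R : Finset ℕ

/-- The sequence is a path in `W`, the removable positions are interior, no two are consecutive and
the two neighbours of each on the path are adjacent. -/
structure Fx.Ok (X : Fx V) (G : SimpleGraph V) (W : Finset V) : Prop where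
  pos : 1 ≤ X.T
  mem : ∀ t, t < X.T → X.f t ∈ W
  inj : ∀ s t, s < t → t < X.T → X.f s ≠ X.f t
  adj : ∀ t, t + 1 < X.T → G.Adj (X.f t) (X.f (t + 1))
  rem : ∀ i ∈ X.R, 1 ≤ i ∧ i + 1 < X.T ∧ G.Adj (X.f (i - 1)) (X.f (i + 1)) ∧ i + 1 ∉ X.R

/-- The first vertex. -/
def Fx.s (X : Fx V) : V := X.f 0

/-- The last vertex. -/
def Fx.e (X : Fx V) : V := X.f (X.T - 1)

open Classical in
/-- The vertex set. -/
noncomputable def Fx.P (X : Fx V) : Finset V := (Finset.range X.T).image X.f

variable {X : Fx V} {W : Finset V}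

theorem Fx.Ok.injOn (h : X.Ok G W) : Set.InjOn X.f (Set.Iio X.T) := by
  intro a ha b hb e
  simp only [Set.mem_Iio] at ha hb
  rcases lt_trichotomy a b with hab | hab | hab
  · exact absurd e (h.inj a b hab hb)
  · exact hab
  · exact absurd e.symm (h.inj b a hab ha)

theorem Fx.Ok.ne (h : X.Ok G W) {a b : ℕ} (ha : a < X.T) (hb : b < X.T) (hab : a ≠ b) :
    X.f a ≠ X.f b :=
  fun e => hab (h.injOn ha hb e)

theorem Fx.mem_P {z : V} : z ∈ X.P ↔ ∃ t, t < X.T ∧ X.f t = z := by
  classical
  simp [Fx.P]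

theorem Fx.f_mem_P {t : ℕ} (ht : t < X.T) : X.f t ∈ X.P := Fx.mem_P.2 ⟨t, ht, rfl⟩

theorem Fx.notMem_P {z : V} (hz : z ∉ X.P) {t : ℕ} (ht : t < X.T) : X.f t ≠ z :=
  fun e => hz (e ▸ Fx.f_mem_P ht)

theorem Fx.Ok.P_sub (h : X.Ok G W) : X.P ⊆ W := fun _ hz => by
  obtain ⟨t, ht, rfl⟩ := Fx.mem_P.1 hz
  exact h.mem t ht

theorem Fx.Ok.P_card (h : X.Ok G W) : X.P.card = X.T := by
  classical
  rw [Fx.P, Finset.card_image_of_injOn, Finset.card_range]
  simpa [Finset.coe_range] using h.injOn

theorem Fx.Ok.zero_notMem (h : X.Ok G W) : 0 ∉ X.R := fun hh => by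
  have := (h.rem 0 hh).1
  omega

theorem Fx.Ok.pred_notMem (h : X.Ok G W) {i : ℕ} (hi : i ∈ X.R) : i - 1 ∉ X.R := fun hh => by
  have h1 := (h.rem i hi).1
  have h2 := (h.rem (i - 1) hh).2.2.2
  rw [show i - 1 + 1 = i by omega] at h2
  exact h2 hi

/-! ## Operations -/

/-- The first `n` vertices. -/
def Fx.take (X : Fx V) (n : ℕ) : Fx V := ⟨n, X.f, X.R.filter fun i => i + 1 < n⟩

theorem Fx.Ok.take (h : X.Ok G W) {n : ℕ} (h1 : 1 ≤ n) (hn : n ≤ X.T) : (X.take n).Ok G W where
  pos := h1
  mem t ht := h.mem t (lt_of_lt_of_le ht hn)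
  inj s t hst ht := h.inj s t hst (lt_of_lt_of_le ht hn)
  adj t ht := h.adj t (lt_of_lt_of_le ht hn)
  rem i hi := by
    simp only [Fx.take, Finset.mem_filter] at hi
    obtain ⟨h1, _, h3, h4⟩ := h.rem i hi.1
    exact ⟨h1, hi.2, h3, fun hh => h4 (Finset.mem_filter.1 hh).1⟩

theorem Fx.take_card_one (h : X.Ok G W) :
    (X.take (X.T - 1)).R = X.R.erase (X.T - 2) := by
  ext i
  simp only [Fx.take, Finset.mem_filter, Finset.mem_erase]
  constructor
  · rintro ⟨hi, hlt⟩
    exact ⟨by omega, hi⟩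
  · rintro ⟨hne, hi⟩
    have := (h.rem i hi).2.1
    exact ⟨hi, by omega⟩

theorem Fx.take_card_two (h : X.Ok G W) (hl : X.T - 2 ∈ X.R) :
    (X.take (X.T - 2)).R = X.R.erase (X.T - 2) := by
  ext i
  simp only [Fx.take, Finset.mem_filter, Finset.mem_erase]
  constructor
  · rintro ⟨hi, hlt⟩
    exact ⟨by omega, hi⟩
  · rintro ⟨hne, hi⟩
    have h2 := (h.rem i hi).2.1
    refine ⟨hi, ?_⟩
    by_contra hc
    have : i = X.T - 3 := by omega
    have h4 := (h.rem i hi).2.2.2
    exact h4 (by rwa [show i + 1 = X.T - 2 by omega])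

/-- Paths of all orders between the number of fixed vertices and `T`. -/
theorem Fx.Ok.lengths : ∀ {X : Fx V}, X.Ok G W → ∀ p, X.T ≤ p + X.R.card → p ≤ X.T →
    Pth G (X.f 0) (X.f (X.T - 1)) p (X.f '' Set.Iio X.T) := by
  suffices key : ∀ (n : ℕ) (X : Fx V), X.T = n → X.Ok G W → ∀ p, X.T ≤ p + X.R.card → p ≤ X.T →
      Pth G (X.f 0) (X.f (X.T - 1)) p (X.f '' Set.Iio X.T) from fun {X} h => key X.T X rfl h
  intro n
  induction n using Nat.strong_induction_on with
  | _ n ih =>
    intro X hT h p hlo hhi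
    have hpos := h.pos
    by_cases h1 : X.T = 1
    · have hR : X.R = ∅ := Finset.eq_empty_of_forall_notMem fun i hi => by
        have := (h.rem i hi).2.1
        omega
      rw [hR, Finset.card_empty] at hlo
      obtain rfl : p = 1 := by omega
      rw [h1]
      exact (Pth.single _).mono (by simp)
    by_cases hskip : X.T - 2 ∈ X.R ∧ p < X.T
    · obtain ⟨hl, hp⟩ := hskip
      obtain ⟨l1, l2, l3, -⟩ := h.rem _ hl
      have hc := Fx.take_card_two h hl
      have hok := h.take (n := X.T - 2) (by omega) (by omega)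
      have := ih (X.T - 2) (by omega) (X.take (X.T - 2)) rfl hok (p - 1)
        (by rw [hc, Finset.card_erase_of_mem hl]
            have := Finset.card_pos.2 ⟨_, hl⟩
            show X.T - 2 ≤ _
            omega)
        (by show p - 1 ≤ X.T - 2; omega)
      have h3 : G.Adj (X.f (X.T - 2 - 1)) (X.f (X.T - 1)) := by
        rwa [show X.T - 2 + 1 = X.T - 1 by omega] at l3
      have hs := this.snoc h3 (by
        rintro ⟨t, ht, he⟩
        have ht' : t < X.T - 2 := ht
        exact h.ne (show t < X.T by omega) (by omega) (by omega) he)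
      have e : p - 1 + 1 = p := by
        have := this.pos
        omega
      rw [e] at hs
      refine hs.mono ?_
      rintro z (⟨t, ht, rfl⟩ | rfl)
      · have ht' : t < X.T - 2 := ht
        exact ⟨t, show t < X.T by omega, rfl⟩
      · exact ⟨X.T - 1, show X.T - 1 < X.T by omega, rfl⟩
    · have hok := h.take (n := X.T - 1) (by omega) (by omega)
      have hc := Fx.take_card_one h
      have := ih (X.T - 1) (by omega) (X.take (X.T - 1)) rfl hok (p - 1)
        (by
          show X.T - 1 ≤ _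
          rw [hc]
          by_cases hl : X.T - 2 ∈ X.R
          · have : p = X.T := by
              by_contra hc'
              exact hskip ⟨hl, by omega⟩
            omega
          · rw [Finset.erase_eq_of_notMem hl]
            omega)
        (by show p - 1 ≤ X.T - 1; omega)
      have hadj := h.adj (X.T - 2) (by omega)
      rw [show X.T - 2 + 1 = X.T - 1 by omega] at hadj
      have hadj' : G.Adj (X.f (X.T - 1 - 1)) (X.f (X.T - 1)) := by
        rwa [show X.T - 1 - 1 = X.T - 2 by omega]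
      have hs := this.snoc hadj' (by
        rintro ⟨t, ht, he⟩
        have ht' : t < X.T - 1 := ht
        exact h.ne (show t < X.T by omega) (by omega) (by omega) he)
      have e : p - 1 + 1 = p := by
        have := this.pos
        omega
      rw [e] at hs
      refine hs.mono ?_
      rintro z (⟨t, ht, rfl⟩ | rfl)
      · have ht' : t < X.T - 1 := ht
        exact ⟨t, show t < X.T by omega, rfl⟩
      · exact ⟨X.T - 1, show X.T - 1 < X.T by omega, rfl⟩

/-- Without the first vertex. -/
def Fx.drop (X : Fx V) : Fx V :=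
  ⟨X.T - 1, fun t => X.f (t + 1), (X.R.erase 1).image fun i => i - 1⟩

theorem Fx.mem_drop (h : X.Ok G W) {j : ℕ} : j ∈ X.drop.R ↔ 1 ≤ j ∧ j + 1 ∈ X.R := by
  simp only [Fx.drop, Finset.mem_image, Finset.mem_erase]
  constructor
  · rintro ⟨i, ⟨hne, hi⟩, rfl⟩
    have := (h.rem i hi).1
    exact ⟨by omega, by rwa [show i - 1 + 1 = i by omega]⟩
  · rintro ⟨h1, h2⟩
    exact ⟨j + 1, ⟨by omega, h2⟩, by omega⟩

theorem Fx.Ok.drop (h : X.Ok G W) (hT : 2 ≤ X.T) : X.drop.Ok G W where
  pos := by show 1 ≤ X.T - 1; omega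
  mem t ht := h.mem (t + 1) (by have : t < X.T - 1 := ht; omega)
  inj s t hst ht := h.inj (s + 1) (t + 1) (by omega) (by have : t < X.T - 1 := ht; omega)
  adj t ht := h.adj (t + 1) (by have : t + 1 < X.T - 1 := ht; omega)
  rem i hi := by
    obtain ⟨h1, h2⟩ := (Fx.mem_drop h).1 hi
    obtain ⟨-, r2, r3, r4⟩ := h.rem _ h2
    refine ⟨h1, (show i + 1 < X.T - 1 by omega), ?_, fun hh => r4 ((Fx.mem_drop h).1 hh).2⟩
    show G.Adj (X.f (i - 1 + 1)) (X.f (i + 1 + 1))
    rw [show i + 1 - 1 = i by omega] at r3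
    rwa [show i - 1 + 1 = i by omega]

theorem Fx.drop_card (h : X.Ok G W) : X.drop.R.card = (X.R.erase 1).card := by
  refine Finset.card_image_of_injOn fun a ha b hb e => ?_
  simp only [Finset.coe_erase, Set.mem_sdiff, Finset.mem_coe, Set.mem_singleton_iff] at ha hb
  have := (h.rem a ha.1).1
  have := (h.rem b hb.1).1

  omega

/-- Append a triangle at the end. -/
def Fx.tri (X : Fx V) (a b : V) : Fx V :=
  ⟨X.T + 2, fun t => if t < X.T then X.f t else if t = X.T then a else b, insert X.T X.R⟩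

theorem Fx.Ok.tri (h : X.Ok G W) {a b : V} (ha : a ∈ W) (hb : b ∈ W) (haP : a ∉ X.P)
    (hbP : b ∉ X.P) (hea : G.Adj X.e a) (heb : G.Adj X.e b) (hab : G.Adj a b) :
    (X.tri a b).Ok G W where
  pos := by show 1 ≤ X.T + 2; omega
  mem t _ := by
    simp only [Fx.tri]
    split_ifs with h1 h2
    exacts [h.mem t h1, ha, hb]
  inj s t hst ht := by
    have ht' : t < X.T + 2 := ht
    simp only [Fx.tri]
    by_cases t1 : t < X.T
    · simpa [t1, show s < X.T by omega] using h.inj s t hst t1
    · by_cases s1 : s < X.T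
      · by_cases t2 : t = X.T
        · simpa [t1, t2, s1] using Fx.notMem_P haP s1
        · simpa [t1, t2, s1] using Fx.notMem_P hbP s1
      · simpa [t1, s1, show s = X.T by omega, show t ≠ X.T by omega] using hab.ne
  adj t ht := by
    have ht' : t + 1 < X.T + 2 := ht
    simp only [Fx.tri]
    by_cases t1 : t + 1 < X.T
    · simpa [t1, show t < X.T by omega] using h.adj t t1
    · have := h.pos
      by_cases t2 : t + 1 = X.T
      · have : t = X.T - 1 := by omega
        subst this
        simpa [Fx.e, t1, t2, show X.T - 1 < X.T by omega] using hea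
      · simpa [t1, show t = X.T by omega] using hab
  rem i hi := by
    simp only [Fx.tri, Finset.mem_insert] at hi ⊢
    have := h.pos
    rcases hi with rfl | hi
    · refine ⟨h.pos, by omega, ?_, ?_⟩
      · simpa [Fx.e, show X.T - 1 < X.T by omega] using heb
      · rintro (hh | hh)
        · omega
        · have := (h.rem _ hh).2.1
          omega
    · obtain ⟨r1, r2, r3, r4⟩ := h.rem i hi
      refine ⟨r1, by omega, ?_, ?_⟩
      · simpa [r2, show i - 1 < X.T by omega] using r3
      · rintro (hh | hh)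
        · omega
        · exact r4 hh

theorem Fx.tri_card (h : X.Ok G W) {a b : V} : (X.tri a b).R.card = X.R.card + 1 :=
  Finset.card_insert_of_notMem fun hh => by
    have := (h.rem _ hh).2.1
    omega

/-- Insert `z` after position `i`. -/
def Fx.ins (X : Fx V) (i : ℕ) (z : V) : Fx V :=
  ⟨X.T + 1, fun t => if t ≤ i then X.f t else if t = i + 1 then z else X.f (t - 1),
    insert (i + 1) (X.R.image fun r => if r ≤ i then r else r + 1)⟩

/-- A plain edge: it meets no removable position. -/
def Fx.Plain (X : Fx V) (i : ℕ) : Prop := i + 1 < X.T ∧ i ∉ X.R ∧ i + 1 ∉ X.R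

theorem Fx.mem_ins {i : ℕ} (hp : X.Plain i) {z : V} {j : ℕ} : j ∈ (X.ins i z).R ↔
    j = i + 1 ∨ (j < i ∧ j ∈ X.R) ∨ (i + 3 ≤ j ∧ j - 1 ∈ X.R) := by
  simp only [Fx.ins, Finset.mem_insert, Finset.mem_image]
  constructor
  · rintro (rfl | ⟨r, hr, rfl⟩)
    · exact Or.inl rfl
    · have : r ≠ i := fun e => hp.2.1 (e ▸ hr)
      have : r ≠ i + 1 := fun e => hp.2.2 (e ▸ hr)
      split_ifs with h1
      · exact Or.inr (Or.inl ⟨by omega, hr⟩)
      · exact Or.inr (Or.inr ⟨by omega, by simpa using hr⟩)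
  · rintro (rfl | ⟨h1, h2⟩ | ⟨h1, h2⟩)
    · exact Or.inl rfl
    · exact Or.inr ⟨j, h2, by simp [h1.le]⟩
    · exact Or.inr ⟨j - 1, h2, by rw [if_neg (by omega)]; omega⟩

theorem Fx.Ok.ins (h : X.Ok G W) {i : ℕ} (hp : X.Plain i) {z : V} (hz : z ∈ W) (hzP : z ∉ X.P)
    (h1 : G.Adj z (X.f i)) (h2 : G.Adj z (X.f (i + 1))) : (X.ins i z).Ok G W where
  pos := by show 1 ≤ X.T + 1; omega
  mem t ht := by
    have ht' : t < X.T + 1 := ht
    have := hp.1
    simp only [Fx.ins]
    split_ifs
    exacts [h.mem t (by omega), hz, h.mem _ (by omega)]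
  inj s t hst ht := by
    have ht' : t < X.T + 1 := ht
    have := hp.1
    simp only [Fx.ins]
    split_ifs <;> first
      | exact h.ne (by omega) (by omega) (by omega)
      | exact (Fx.notMem_P hzP (by omega))
      | exact (Fx.notMem_P hzP (by omega)).symm
      | omega
  adj t ht := by
    have ht' : t + 1 < X.T + 1 := ht
    have := hp.1
    simp only [Fx.ins]
    split_ifs with a1 a2 a3 a4 a5 a6 a7 <;> try omega
    · exact h.adj t (by omega)
    · obtain rfl : t = i := by omega
      exact h1.symm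
    · obtain rfl : t = i + 1 := by omega
      simpa using h2
    · have := h.adj (t - 1) (by omega)
      rwa [show t - 1 + 1 = t + 1 - 1 by omega] at this
  rem j hj := by
    have hpi := hp.1
    have hj' := (Fx.mem_ins hp).1 hj
    have hnext : j + 1 ∉ (X.ins i z).R := fun hh => by
      have hh' := (Fx.mem_ins hp).1 hh
      rcases hj' with rfl | ⟨a1, a2⟩ | ⟨a1, a2⟩ <;> rcases hh' with b1 | ⟨b1, b2⟩ | ⟨b1, b2⟩ <;>
        try omega
      all_goals first
        | exact (h.rem _ a2).2.2.2 b2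
        | (exact hp.2.2 (by simpa using b2))
        | (have := (h.rem _ a2).2.2.2
           rw [show j - 1 + 1 = j + 1 - 1 by omega] at this
           exact this b2)
    simp only [Fx.ins] at *
    rcases hj' with rfl | ⟨a1, a2⟩ | ⟨a1, a2⟩
    · refine ⟨by omega, by omega, ?_, hnext⟩
      simpa [show ¬i + 1 + 1 ≤ i by omega] using h.adj i hpi
    · obtain ⟨r1, r2, r3, -⟩ := h.rem j a2
      refine ⟨r1, by omega, ?_, hnext⟩
      simpa [show j - 1 ≤ i by omega, show j + 1 ≤ i by omega] using r3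
    · obtain ⟨r1, r2, r3, -⟩ := h.rem _ a2
      refine ⟨by omega, by omega, ?_, hnext⟩
      rw [show j - 1 + 1 = j by omega] at r3
      simpa [show ¬j - 1 ≤ i by omega, show j - 1 ≠ i + 1 by omega, show ¬j + 1 ≤ i by omega,
        show j ≠ i by omega] using r3

theorem Fx.ins_card {i : ℕ} (hp : X.Plain i) {z : V} : (X.ins i z).R.card = X.R.card + 1 := by
  rw [Fx.ins, Finset.card_insert_of_notMem, Finset.card_image_of_injective]
  · intro a b e
    simp only at e
    split_ifs at e <;> omega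
  · simp only [Finset.mem_image, not_exists, not_and]
    intro r hr e
    have : r ≠ i := fun e' => hp.2.1 (e' ▸ hr)
    split_ifs at e <;> omega

/-- Reversal. -/
def Fx.rev (X : Fx V) : Fx V :=
  ⟨X.T, fun t => X.f (X.T - 1 - t), X.R.image fun i => X.T - 1 - i⟩

theorem Fx.Ok.rev (h : X.Ok G W) : X.rev.Ok G W where
  pos := h.pos
  mem t ht := h.mem _ (by have : t < X.T := ht; omega)
  inj s t hst ht := h.ne (by have : t < X.T := ht; omega) (by have : t < X.T := ht; omega)
    (by have : t < X.T := ht; omega)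
  adj t ht := by
    have ht' : t + 1 < X.T := ht
    have := h.adj (X.T - 1 - (t + 1)) (by omega)
    rw [show X.T - 1 - (t + 1) + 1 = X.T - 1 - t by omega] at this
    exact this.symm
  rem j hj := by
    simp only [Fx.rev, Finset.mem_image] at hj ⊢
    obtain ⟨i, hi, rfl⟩ := hj
    obtain ⟨r1, r2, r3, r4⟩ := h.rem i hi
    refine ⟨by omega, by omega, ?_, ?_⟩
    · rw [show X.T - 1 - (X.T - 1 - i - 1) = i + 1 by omega,
        show X.T - 1 - (X.T - 1 - i + 1) = i - 1 by omega]
      exact r3.symm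
    · rintro ⟨k, hk, e⟩
      have := h.rem k hk
      have : k = i - 1 := by omega
      exact h.pred_notMem hi (this ▸ hk)

theorem Fx.rev_card (h : X.Ok G W) : X.rev.R.card = X.R.card := by
  refine Finset.card_image_of_injOn fun a ha b hb e => ?_
  have := (h.rem a ha).2.1
  have := (h.rem b hb).2.1

  omega

theorem Fx.rev_P (h : X.Ok G W) : X.rev.P = X.P := by
  have := h.pos
  ext z
  simp only [Fx.mem_P, Fx.rev]
  constructor
  · rintro ⟨t, ht, rfl⟩
    exact ⟨X.T - 1 - t, by omega, rfl⟩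
  · rintro ⟨t, ht, rfl⟩
    exact ⟨X.T - 1 - t, by omega, by rw [show X.T - 1 - (X.T - 1 - t) = t by omega]⟩

/-- Append a vertex at the end. -/
def Fx.snoc (X : Fx V) (z : V) : Fx V :=
  ⟨X.T + 1, fun t => if t < X.T then X.f t else z, X.R⟩

theorem Fx.Ok.snoc (h : X.Ok G W) {z : V} (hz : z ∈ W) (hzP : z ∉ X.P) (hez : G.Adj X.e z) :
    (X.snoc z).Ok G W where
  pos := Nat.le_add_left 1 X.T
  mem t _ := by
    simp only [Fx.snoc]
    split_ifs with h1
    exacts [h.mem t h1, hz]
  inj s t hst ht := by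
    have ht' : t < X.T + 1 := ht
    simp only [Fx.snoc]
    split_ifs with h1 h2
    · exact h.inj s t hst h2
    · exact Fx.notMem_P hzP h1
    all_goals omega
  adj t ht := by
    have ht' : t + 1 < X.T + 1 := ht
    simp only [Fx.snoc]
    split_ifs with h1 h2
    · exact h.adj t h2
    · rw [show t = X.T - 1 by omega]
      exact hez
    all_goals omega
  rem i hi := by
    obtain ⟨r1, r2, r3, r4⟩ := h.rem i hi
    refine ⟨r1, show i + 1 < X.T + 1 by omega, ?_, r4⟩
    simpa [Fx.snoc, r2, show i - 1 < X.T by omega] using r3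

/-- Put a vertex in front. -/
def Fx.cons (X : Fx V) (z : V) : Fx V :=
  ⟨X.T + 1, fun t => if t = 0 then z else X.f (t - 1), X.R.image fun i => i + 1⟩

theorem Fx.Ok.cons (h : X.Ok G W) {z : V} (hz : z ∈ W) (hzP : z ∉ X.P) (hsz : G.Adj z X.s) :
    (X.cons z).Ok G W where
  pos := Nat.le_add_left 1 X.T
  mem t ht := by
    have ht' : t < X.T + 1 := ht
    have := h.pos
    simp only [Fx.cons]
    split_ifs with h1
    exacts [hz, h.mem _ (by omega)]
  inj s t hst ht := by
    have ht' : t < X.T + 1 := ht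
    simp only [Fx.cons]
    split_ifs with h1 h2
    all_goals first
      | omega
      | exact (Fx.notMem_P hzP (by omega)).symm
      | exact h.ne (by omega) (by omega) (by omega)
  adj t ht := by
    have ht' : t + 1 < X.T + 1 := ht
    simp only [Fx.cons, Nat.add_one_ne_zero, if_false, Nat.add_sub_cancel]
    split_ifs with h1
    · subst h1
      exact hsz
    · have := h.adj (t - 1) (by omega)
      rwa [show t - 1 + 1 = t by omega] at this
  rem i hi := by
    simp only [Fx.cons, Finset.mem_image] at hi ⊢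
    obtain ⟨r, hr, rfl⟩ := hi
    obtain ⟨r1, r2, r3, r4⟩ := h.rem r hr
    refine ⟨by omega, by omega, ?_, ?_⟩
    · simpa [show r ≠ 0 by omega] using r3
    · rintro ⟨k, hk, e⟩
      exact r4 ((show k = r + 1 by omega) ▸ hk)

theorem Fx.cons_card {z : V} : (X.cons z).R.card = X.R.card :=
  Finset.card_image_of_injective _ fun a b e => by omega

theorem Fx.mem_cons_P {z x : V} : x ∈ (X.cons z).P ↔ x = z ∨ x ∈ X.P := by
  simp only [Fx.mem_P, Fx.cons]
  constructor
  · rintro ⟨t, ht, rfl⟩
    by_cases h0 : t = 0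
    · simp [h0]
    · exact Or.inr ⟨t - 1, by omega, by simp [h0]⟩
  · rintro (rfl | ⟨t, ht, rfl⟩)
    · exact ⟨0, by omega, rfl⟩
    · exact ⟨t + 1, by omega, by simp⟩

/-- Rotation: the prefix up to position `i` is reversed. -/
def Fx.rot (X : Fx V) (i : ℕ) : Fx V :=
  ⟨X.T, fun t => if t ≤ i then X.f (i - t) else X.f t,
    ((X.R.erase i).erase (i + 1)).image fun r => if r < i then i - r else r⟩

theorem Fx.Ok.rot (h : X.Ok G W) {i : ℕ} (hi : i + 1 < X.T)
    (hadj : G.Adj (X.f 0) (X.f (i + 1))) : (X.rot i).Ok G W where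
  pos := h.pos
  mem t ht := by
    have ht' : t < X.T := ht
    simp only [Fx.rot]
    split_ifs
    exacts [h.mem _ (by omega), h.mem t ht']
  inj s t hst ht := by
    have ht' : t < X.T := ht
    simp only [Fx.rot]
    split_ifs <;> first
      | omega
      | exact h.ne (by omega) (by omega) (by omega)
  adj t ht := by
    have ht' : t + 1 < X.T := ht
    simp only [Fx.rot]
    split_ifs with h1 h2
    · have := h.adj (i - (t + 1)) (by omega)
      rw [show i - (t + 1) + 1 = i - t by omega] at this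
      exact this.symm
    · rw [show i - t = 0 by omega, show t + 1 = i + 1 by omega]
      exact hadj
    · omega
    · exact h.adj t ht'
  rem j hj := by
    simp only [Fx.rot, Finset.mem_image, Finset.mem_erase] at hj ⊢
    obtain ⟨r, ⟨n1, n2, hr⟩, rfl⟩ := hj
    obtain ⟨r1, r2, r3, r4⟩ := h.rem r hr
    by_cases hlt : r < i
    · rw [if_pos hlt]
      refine ⟨by omega, by omega, ?_, ?_⟩
      · rw [if_pos (by omega), if_pos (by omega), show i - (i - r - 1) = r + 1 by omega,
          show i - (i - r + 1) = r - 1 by omega]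
        exact r3.symm
      · rintro ⟨k, ⟨k1, k2, hk⟩, e⟩
        split_ifs at e with hk'
        · exact (h.rem k hk).2.2.2 ((show r = k + 1 by omega) ▸ hr)
        · omega
    · rw [if_neg hlt]
      refine ⟨by omega, by omega, ?_, ?_⟩
      · rw [if_neg (by omega), if_neg (by omega)]
        exact r3
      · rintro ⟨k, ⟨k1, k2, hk⟩, e⟩
        split_ifs at e with hk'
        · omega
        · exact r4 (e ▸ hk)

theorem Fx.rot_card (h : X.Ok G W) {i : ℕ} : X.R.card ≤ (X.rot i).R.card + 1 := by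
  rw [Fx.rot, Finset.card_image_of_injOn]
  · by_cases hi : i ∈ X.R
    · rw [Finset.erase_eq_of_notMem (s := X.R.erase i)
        (fun hh => (h.rem i hi).2.2.2 (Finset.mem_of_mem_erase hh)),
        Finset.card_erase_of_mem hi]
      omega
    · rw [Finset.erase_eq_of_notMem hi]
      exact Nat.le_add_of_sub_le (Finset.pred_card_le_card_erase)
  · intro a ha b hb e
    simp only [Finset.coe_erase, Set.mem_sdiff, Finset.mem_coe, Set.mem_singleton_iff] at ha hb
    have := (h.rem a ha.1.1).1
    have := (h.rem b hb.1.1).1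
    dsimp at e
    split_ifs at e <;> omega

theorem Fx.rot_P {i : ℕ} (hi : i < X.T) : (X.rot i).P = X.P := by
  ext z
  simp only [Fx.mem_P, Fx.rot]
  constructor
  · rintro ⟨t, ht, rfl⟩
    split_ifs with h1
    exacts [⟨i - t, by omega, rfl⟩, ⟨t, ht, rfl⟩]
  · rintro ⟨t, ht, rfl⟩
    by_cases h1 : t ≤ i
    · exact ⟨i - t, by omega, by rw [if_pos (by omega), show i - (i - t) = t by omega]⟩
    · exact ⟨t, ht, by rw [if_neg h1]⟩

theorem Fx.rot_s {i : ℕ} : (X.rot i).s = X.f i := by simp [Fx.s, Fx.rot]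

theorem Fx.rot_e {i : ℕ} (hi : i + 1 < X.T) : (X.rot i).e = X.e := by
  simp [Fx.e, Fx.rot, show ¬X.T - 1 ≤ i by omega]

theorem Fx.rev_s : X.rev.s = X.e := by simp [Fx.s, Fx.e, Fx.rev]

theorem Fx.rev_e : X.rev.e = X.s := by simp [Fx.s, Fx.e, Fx.rev]

/-! ## Closing cycles -/

/-- Paths of all admissible orders between the ends, inside the vertex set. -/
theorem Fx.Ok.path (h : X.Ok G W) {p : ℕ} (h1 : X.T ≤ p + X.R.card) (h2 : p ≤ X.T) :
    Pth G X.s X.e p (X.P : Set V) :=
  (h.lengths p h1 h2).mono (by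
    rintro z ⟨t, ht, rfl⟩
    exact Finset.mem_coe.2 (Fx.f_mem_P ht))

/-- An outside path on `l` vertices from a neighbour of the last vertex to a neighbour of the
first closes all cycle orders from `T + l - |R|` to `T + l`. -/
theorem Fx.Ok.close (h : X.Ok G W) {x y : V} {l m : ℕ} {S : Set V} (hp : Pth G y x l S)
    (hd : Disjoint (X.P : Set V) S) (hey : G.Adj X.e y) (hxs : G.Adj x X.s) (hm : 3 ≤ m)
    (h1 : m ≤ X.T + l) (h2 : X.T + l ≤ m + X.R.card) (hlm : l + 1 ≤ m) : HasCyc G m := by
  have := ((h.path (p := m - l) (by omega) (by omega)).append hey hp hd).cycle hxs (by omega)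
  rwa [show m - l + l = m by omega] at this

/-- The same after a rotation, which costs at most one removable vertex. -/
theorem Fx.Ok.close_rot (h : X.Ok G W) {x y : V} {i l m : ℕ} {S : Set V} (hp : Pth G y x l S)
    (hd : Disjoint (X.P : Set V) S) (hey : G.Adj X.e y) (hi : i + 1 < X.T)
    (hsi : G.Adj X.s (X.f (i + 1))) (hxi : G.Adj x (X.f i)) (hm : 3 ≤ m) (h1 : m ≤ X.T + l)
    (h2 : X.T + l + 1 ≤ m + X.R.card) (hlm : l + 1 ≤ m) : HasCyc G m := by
  have := Fx.rot_card h (i := i)
  refine (h.rot hi hsi).close hp ?_ ?_ ?_ hm h1 (show X.T + l ≤ _ by omega) hlm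
  · rwa [Fx.rot_P (by omega)]
  · rwa [Fx.rot_e hi]
  · rwa [Fx.rot_s]

end Vale.Agent.P048.Full
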