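import Vale.Agent.P048.Full.SClash.Small

/-! # Block SClash from the clique bounds for each length -/

namespace Vale.Agent.P048.Full

open Finset

/-- `SClashPin` once cycles on nine and ten vertices are settled. -/
theorem sClashPin_of
    (h910 : ∀ (V : Type) [Fintype V] (G : SimpleGraph V) (m A : ℕ), Bad G m A → 9 ≤ m → m ≤ 10 →
      (m - 1) / 2 + 1 ≤ A → CliqueLE G Finset.univ 4) : SClashPin := by
  intro V _ G m A h h7 h10 hA
  by_cases h9 : 9 ≤ m
  · rw [show (m - 1) / 2 = 4 by omega]
    exact h910 V G m A h h9 h10 hA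
  · rw [show (m - 1) / 2 = 3 by omega]
    exact SClash.clique_small h (by omega)

end Vale.Agent.P048.Full
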