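import Vale.Agent.P048.Full.SmallTools

/-! # The four cycle -/

namespace Vale.Agent.P048.Full

open Finset

variable {V : Type} {G : SimpleGraph V} {A : ℕ}

set_option maxHeartbeats 1000000 in
theorem Bad.false_four [Fintype V] (h : Bad G 4 A) : False := by
  classical
  have hA2 := h.hA2
  have hA3 := h.hAm
  have hbig := h.big
  have hfree := h.free
  have hdeg := fun x => h.deg_ge x
  -- there is a triangle
  obtain ⟨a, b, c, hab, hbc, hca⟩ : ∃ a b c, G.Adj a b ∧ G.Adj b c ∧ G.Adj c a := by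
    by_contra hno
    have ht : ∀ x y z : V, G.Adj x y → G.Adj y z → ¬G.Adj x z := fun x y z e1 e2 e3 =>
      hno ⟨x, y, z, e1, e2, e3.symm⟩
    obtain ⟨v⟩ : Nonempty V := Fintype.card_pos_iff.1 (by omega)
    obtain ⟨U, -, hUa, hUc⟩ := alpha_outside (b := A) (Finset.mem_univ v) h.hA
    have hN : (nb G Finset.univ v).card ≤ A := le_trans (le_alpha (Finset.subset_univ _)
      (fun p hp r hr e => ht v p r (mem_nb.1 hp).2 e (mem_nb.1 hr).2)) h.hA
    have hU : U.card ≤ 5 :=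
      tf_alpha_two (G := G) (X := U) (by omega) fun x y z _ _ _ => ht x y z
    have := hdeg v
    rw [Finset.card_univ] at hUc
    omega
  -- the three sets of pendant vertices
  set T : Finset V := {a, b, c}
  have mkC : ∀ x y z : V, G.Adj x y → G.Adj y z → G.Adj z x → ∃ S : Finset V, S.Nonempty ∧
      ∀ p, p ∈ S ↔ (p ∉ ({x, y, z} : Finset V) ∧ G.Adj x p) := by
    intro x y z e1 e2 e3
    refine ⟨nb G Finset.univ x \ {x, y, z}, ?_, fun p => by simp [mem_nb, and_comm]⟩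
    rw [← Finset.card_pos]
    have h1 := Finset.le_card_sdiff ({x, y, z} : Finset V) (nb G Finset.univ x)
    have h2 : ({x, y, z} : Finset V) ∩ nb G Finset.univ x ⊆ {y, z} := fun p hp => by
      simp only [Finset.mem_inter, Finset.mem_insert, Finset.mem_singleton, mem_nb] at hp ⊢
      rcases hp.1 with rfl | h | h
      · exact absurd hp.2.2 G.irrefl
      · exact Or.inl h
      · exact Or.inr h
    have h3 := Finset.card_le_card h2
    have h4 := Finset.card_le_two (a := y) (b := z)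
    have h5 := Finset.card_sdiff_add_card_inter (nb G Finset.univ x) ({x, y, z} : Finset V)
    rw [Finset.inter_comm] at h5
    have := hdeg x
    omega
  obtain ⟨Sa, hSa0, hSa⟩ := mkC a b c hab hbc hca
  obtain ⟨Sb, hSb0, hSb⟩ := mkC b c a hbc hca hab
  obtain ⟨Sc, hSc0, hSc⟩ := mkC c a b hca hab hbc
  have memT : ∀ p, p ∉ T ↔ p ≠ a ∧ p ≠ b ∧ p ≠ c := fun p => by simp [T]
  have eb : ({b, c, a} : Finset V) = T := by ext p; simp [T]; tauto
  have ec : ({c, a, b} : Finset V) = T := by ext p; simp [T]; tauto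
  rw [eb] at hSb
  rw [ec] at hSc
  change ∀ p, p ∈ Sa ↔ (p ∉ T ∧ G.Adj a p) at hSa
  -- no vertex is pendant at two corners, and there are no edges between classes
  have cross : ∀ x y z p q : V, G.Adj x y → G.Adj y z → G.Adj z x → p ≠ y → p ≠ z → q ≠ x →
      G.Adj x p → G.Adj y q → p ≠ q ∧ ¬G.Adj p q := by
    intro x y z p q e1 e2 e3 py pz qx exp eyq
    refine ⟨?_, fun e => hfree (cyc4 exp e eyq.symm e1.symm qx.symm py)⟩
    rintro rfl
    exact hfree (cyc4 exp eyq.symm e2 e3 e1.ne pz)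
  have hne : ∀ {p}, p ∈ Sa ∨ p ∈ Sb ∨ p ∈ Sc → p ≠ a ∧ p ≠ b ∧ p ≠ c := fun {p} hp => by
    rcases hp with hp | hp | hp
    · exact (memT p).1 ((hSa p).1 hp).1
    · exact (memT p).1 ((hSb p).1 hp).1
    · exact (memT p).1 ((hSc p).1 hp).1
  have xab : ∀ p ∈ Sa, ∀ q ∈ Sb, p ≠ q ∧ ¬G.Adj p q := fun p hp q hq =>
    cross a b c p q hab hbc hca (hne (Or.inl hp)).2.1 (hne (Or.inl hp)).2.2
      (hne (Or.inr (Or.inl hq))).1 ((hSa p).1 hp).2 ((hSb q).1 hq).2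
  have xbc : ∀ p ∈ Sb, ∀ q ∈ Sc, p ≠ q ∧ ¬G.Adj p q := fun p hp q hq =>
    cross b c a p q hbc hca hab (hne (Or.inr (Or.inl hp))).2.2 (hne (Or.inr (Or.inl hp))).1
      (hne (Or.inr (Or.inr hq))).2.1 ((hSb p).1 hp).2 ((hSc q).1 hq).2
  have xca : ∀ p ∈ Sc, ∀ q ∈ Sa, p ≠ q ∧ ¬G.Adj p q := fun p hp q hq =>
    cross c a b p q hca hab hbc (hne (Or.inr (Or.inr hp))).1 (hne (Or.inr (Or.inr hp))).2.1
      (hne (Or.inl hq)).2.2 ((hSc p).1 hp).2 ((hSa q).1 hq).2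
  have four : ∀ p q r s : V, p ≠ q → p ≠ r → p ≠ s → q ≠ r → q ≠ s → r ≠ s → ¬G.Adj p q →
      ¬G.Adj p r → ¬G.Adj p s → ¬G.Adj q r → ¬G.Adj q s → ¬G.Adj r s → False := by
    intro p q r s n1 n2 n3 n4 n5 n6 h1 h2 h3 h4 h5 h6
    have := (le_alpha (G := G) (Finset.subset_univ _) (indep_four h1 h2 h3 h4 h5 h6)).trans h.hA
    rw [Finset.card_insert_of_notMem (by simp [n1, n2, n3]),
      Finset.card_insert_of_notMem (by simp [n4, n5]), Finset.card_pair n6] at this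
    omega
  have small : ∀ (x : V) (S S' S'' : Finset V), (∀ p ∈ S, G.Adj x p) → S'.Nonempty →
      S''.Nonempty → (∀ p ∈ S, ∀ q ∈ S', p ≠ q ∧ ¬G.Adj p q) →
      (∀ p ∈ S', ∀ q ∈ S'', p ≠ q ∧ ¬G.Adj p q) →
      (∀ p ∈ S'', ∀ q ∈ S, p ≠ q ∧ ¬G.Adj p q) → S.card ≤ 2 := by
    intro x S S' S'' hx ⟨q, hq⟩ ⟨r, hr⟩ h1 h2 h3
    by_contra h3'
    obtain ⟨p₁, m1, p₂, m2, p₃, m3, d12, d13, d23⟩ := Finset.two_lt_card.1 (show 2 < S.card by omega)
    have adj : ∀ p ∈ S, ∀ p' ∈ S, p ≠ p' → G.Adj p p' := fun p hp p' hp' hne' => by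
      by_contra hn
      exact four p p' q r hne' (h1 p hp q hq).1 (h3 r hr p hp).1.symm (h1 p' hp' q hq).1
        (h3 r hr p' hp').1.symm (h2 q hq r hr).1 hn (h1 p hp q hq).2
        (fun e => (h3 r hr p hp).2 e.symm) (h1 p' hp' q hq).2
        (fun e => (h3 r hr p' hp').2 e.symm) (h2 q hq r hr).2
    exact hfree (cyc4 (hx p₁ m1) (adj p₁ m1 p₂ m2 d12) (adj p₂ m2 p₃ m3 d23) (hx p₃ m3).symm
      (hx p₂ m2).ne d13)
  have ca := small a Sa Sb Sc (fun p hp => ((hSa p).1 hp).2) hSb0 hSc0 xab xbc xca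
  have cb := small b Sb Sc Sa (fun p hp => ((hSb p).1 hp).2) hSc0 hSa0 xbc xca xab
  have cc := small c Sc Sa Sb (fun p hp => ((hSc p).1 hp).2) hSa0 hSb0 xca xab xbc
  set W := Finset.univ \ (T ∪ Sa ∪ Sb ∪ Sc) with hW
  have hWmem : ∀ w ∈ W, w ≠ a ∧ w ≠ b ∧ w ≠ c ∧ ¬G.Adj a w ∧ ¬G.Adj b w ∧ ¬G.Adj c w ∧
      w ∉ Sa ∧ w ∉ Sb ∧ w ∉ Sc := fun w hw => by
    simp only [hW, Finset.mem_sdiff, Finset.mem_univ, true_and, Finset.mem_union, not_or] at hw
    obtain ⟨⟨⟨hT, ha⟩, hb⟩, hc⟩ := hw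
    exact ⟨((memT w).1 hT).1, ((memT w).1 hT).2.1, ((memT w).1 hT).2.2,
      fun e => ha ((hSa w).2 ⟨hT, e⟩), fun e => hb ((hSb w).2 ⟨hT, e⟩),
      fun e => hc ((hSc w).2 ⟨hT, e⟩), ha, hb, hc⟩
  set full : Finset V → Finset V → Finset V := fun S S' =>
    W.filter fun w => (∀ p ∈ S, G.Adj w p) ∧ ∀ p ∈ S', G.Adj w p
  have hcov : W ⊆ full Sa Sb ∪ full Sb Sc ∪ full Sc Sa := fun w hw => by
    obtain ⟨wa, wb, wc, na, nb', nc, ma, mb, mc⟩ := hWmem w hw
    have two : ∀ (x : V) (S' S'' : Finset V), ¬G.Adj x w → x ≠ w → (∀ p ∈ S', ¬G.Adj x p ∧ x ≠ p ∧ p ≠ w) →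
        (∀ p ∈ S'', ¬G.Adj x p ∧ x ≠ p ∧ p ≠ w) → (∀ p ∈ S', ∀ q ∈ S'', p ≠ q ∧ ¬G.Adj p q) →
        (∀ p ∈ S', G.Adj w p) ∨ ∀ p ∈ S'', G.Adj w p := by
      intro x S' S'' hxw hxw' h1 h2 h12
      by_contra hno
      push Not at hno
      obtain ⟨⟨q, hq, hqw⟩, r, hr, hrw⟩ := hno
      exact four x q r w (h1 q hq).2.1 (h2 r hr).2.1 hxw' (h12 q hq r hr).1 (h1 q hq).2.2
        (h2 r hr).2.2 (h1 q hq).1 (h2 r hr).1 hxw (h12 q hq r hr).2 (fun e => hqw e.symm)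
        fun e => hrw e.symm
    have sa : ∀ p, p ∈ Sa → p ≠ w ∧ ¬G.Adj b p ∧ ¬G.Adj c p ∧ b ≠ p ∧ c ≠ p := fun p hp => by
      have := hne (Or.inl hp)
      refine ⟨fun e => ma (e ▸ hp), fun e => ?_, fun e => ?_, this.2.1.symm, this.2.2.symm⟩
      · exact (xab p hp p ((hSb p).2 ⟨((hSa p).1 hp).1, e⟩)).1 rfl
      · exact (xca p ((hSc p).2 ⟨((hSa p).1 hp).1, e⟩) p hp).1 rfl
    have sb : ∀ p, p ∈ Sb → p ≠ w ∧ ¬G.Adj a p ∧ ¬G.Adj c p ∧ a ≠ p ∧ c ≠ p := fun p hp => by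
      have := hne (Or.inr (Or.inl hp))
      refine ⟨fun e => mb (e ▸ hp), fun e => ?_, fun e => ?_, this.1.symm, this.2.2.symm⟩
      · exact (xab p ((hSa p).2 ⟨((hSb p).1 hp).1, e⟩) p hp).1 rfl
      · exact (xbc p hp p ((hSc p).2 ⟨((hSb p).1 hp).1, e⟩)).1 rfl
    have sc : ∀ p, p ∈ Sc → p ≠ w ∧ ¬G.Adj a p ∧ ¬G.Adj b p ∧ a ≠ p ∧ b ≠ p := fun p hp => by
      have := hne (Or.inr (Or.inr hp))
      refine ⟨fun e => mc (e ▸ hp), fun e => ?_, fun e => ?_, this.1.symm, this.2.1.symm⟩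
      · exact (xca p hp p ((hSa p).2 ⟨((hSc p).1 hp).1, e⟩)).1 rfl
      · exact (xbc p ((hSb p).2 ⟨((hSc p).1 hp).1, e⟩) p hp).1 rfl
    have da := two a Sb Sc na wa.symm (fun p hp => ⟨(sb p hp).2.1, (sb p hp).2.2.2.1, (sb p hp).1⟩)
      (fun p hp => ⟨(sc p hp).2.1, (sc p hp).2.2.2.1, (sc p hp).1⟩) xbc
    have db := two b Sc Sa nb' wb.symm (fun p hp => ⟨(sc p hp).2.2.1, (sc p hp).2.2.2.2, (sc p hp).1⟩)
      (fun p hp => ⟨(sa p hp).2.1, (sa p hp).2.2.2.1, (sa p hp).1⟩) xca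
    have dc := two c Sa Sb nc wc.symm (fun p hp => ⟨(sa p hp).2.2.1, (sa p hp).2.2.2.2, (sa p hp).1⟩)
      (fun p hp => ⟨(sb p hp).2.2.1, (sb p hp).2.2.2.2, (sb p hp).1⟩) xab
    simp only [full, Finset.mem_union, Finset.mem_filter, hw, true_and]
    tauto
  have pairs : ∀ x (S S' : Finset V), S.Nonempty → S'.Nonempty → (∀ p ∈ S, G.Adj x p) →
      (∀ w ∈ W, x ≠ w) → (∀ p ∈ S, ∀ q ∈ S', p ≠ q) → S.card ≤ 2 →
      (full S S').card ≤ 1 ∧ (full S S' ≠ ∅ → S.card = 1) := by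
    intro x S S' ⟨p, hp⟩ ⟨q, hq⟩ hx hxw hd _
    refine ⟨Finset.card_le_one.2 fun w hw w' hw' => ?_, fun hne' => ?_⟩
    · by_contra hww
      simp only [full, Finset.mem_filter] at hw hw'
      exact hfree (cyc4 (hw.2.1 p hp).symm (hw.2.2 q hq) (hw'.2.2 q hq).symm (hw'.2.1 p hp)
        (hd p hp q hq) hww)
    · obtain ⟨w, hw⟩ := Finset.nonempty_iff_ne_empty.2 hne'
      simp only [full, Finset.mem_filter] at hw
      refine le_antisymm (Finset.card_le_one.2 fun r hr r' hr' => ?_) (Finset.card_pos.2 ⟨p, hp⟩)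
      by_contra hrr
      exact hfree (cyc4 (hx r hr) (hw.2.1 r hr).symm (hw.2.1 r' hr') (hx r' hr').symm
        (hxw w hw.1) hrr)
  have wW := fun w hw => hWmem w hw
  have p1 := pairs a Sa Sb hSa0 hSb0 (fun p hp => ((hSa p).1 hp).2) (fun w hw => (wW w hw).1.symm)
    (fun p hp q hq => (xab p hp q hq).1) ca
  have p1' := pairs b Sb Sa hSb0 hSa0 (fun p hp => ((hSb p).1 hp).2) (fun w hw => (wW w hw).2.1.symm)
    (fun p hp q hq => (xab q hq p hp).1.symm) cb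
  have p2 := pairs b Sb Sc hSb0 hSc0 (fun p hp => ((hSb p).1 hp).2) (fun w hw => (wW w hw).2.1.symm)
    (fun p hp q hq => (xbc p hp q hq).1) cb
  have p2' := pairs c Sc Sb hSc0 hSb0 (fun p hp => ((hSc p).1 hp).2) (fun w hw => (wW w hw).2.2.1.symm)
    (fun p hp q hq => (xbc q hq p hp).1.symm) cc
  have p3 := pairs c Sc Sa hSc0 hSa0 (fun p hp => ((hSc p).1 hp).2) (fun w hw => (wW w hw).2.2.1.symm)
    (fun p hp q hq => (xca p hp q hq).1) cc
  have p3' := pairs a Sa Sc hSa0 hSc0 (fun p hp => ((hSa p).1 hp).2) (fun w hw => (wW w hw).1.symm)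
    (fun p hp q hq => (xca q hq p hp).1.symm) ca
  have comm : ∀ S S', full S S' = full S' S := fun S S' => by
    ext w; simp only [full, Finset.mem_filter]; tauto
  rw [comm Sb Sa] at p1'
  rw [comm Sc Sb] at p2'
  rw [comm Sa Sc] at p3'
  have htot : Fintype.card V ≤ T.card + Sa.card + Sb.card + Sc.card + W.card := by
    have h1 : Finset.univ ⊆ T ∪ Sa ∪ Sb ∪ Sc ∪ W := fun p _ => by
      simp only [hW, Finset.mem_union, Finset.mem_sdiff, Finset.mem_univ, true_and, not_or]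
      tauto
    have := Finset.card_le_card h1
    rw [Finset.card_univ] at this
    have := Finset.card_union_le (T ∪ Sa ∪ Sb ∪ Sc) W
    have := Finset.card_union_le (T ∪ Sa ∪ Sb) Sc
    have := Finset.card_union_le (T ∪ Sa) Sb
    have := Finset.card_union_le T Sa
    omega
  have hWc := (Finset.card_le_card hcov).trans ((Finset.card_union_le _ _).trans
    (Nat.add_le_add_right (Finset.card_union_le _ _) _))
  have hT : T.card ≤ 3 := Finset.card_le_three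
  rw [← Finset.card_eq_zero.ne] at p1 p1' p2 p2' p3 p3'
  -- with two colours three pendant classes are already too many
  have hA : A = 3 := by
    by_contra hne3
    obtain ⟨p, hp⟩ := hSa0
    obtain ⟨q, hq⟩ := hSb0
    obtain ⟨r, hr⟩ := hSc0
    have := (le_alpha (G := G) (W := (Finset.univ : Finset V)) (Finset.subset_univ _)
      ((Indep.singleton p).union (Indep.pair (xbc q hq r hr).2) (fun y hy z hz => by
        rw [Finset.mem_singleton] at hy
        simp only [Finset.mem_insert, Finset.mem_singleton] at hz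
        subst hy
        rcases hz with rfl | rfl
        · exact (xab y hp z hq).2
        · exact fun e => (xca z hr y hp).2 e.symm))).trans h.hA
    rw [Finset.card_union_of_disjoint (by simp [(xab p hp q hq).1, (xca r hr p hp).1.symm]),
      Finset.card_singleton, Finset.card_pair (xbc q hq r hr).1] at this
    omega
  subst hA
  omega

end Vale.Agent.P048.Full
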