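import Vale.Agent.P048.Full.SmallCore

/-! # The five cycle -/

namespace Vale.Agent.P048.Full.Five

open Finset

variable {V : Type} [Fintype V] {G : SimpleGraph V} {A : ℕ} {a b c d p q w : V}

/-- Two corners with a path on four vertices between them have no common outside neighbour. -/
theorem ne_of_four (h : Bad G 5 A) (hac : G.Adj a c) (hcd : G.Adj c d) (hdb : G.Adj d b)
    (hab : a ≠ b) (had : a ≠ d) (hcb : c ≠ b) (hp : G.Adj a p) (hpc : p ≠ c) (hpd : p ≠ d) :
    ¬G.Adj b p := fun e =>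
  h.free (cyc5 hp.symm hac hcd hdb e hpc hpd had hab hcb)

/-- Neighbours of two corners with a path on three vertices are not adjacent. -/
theorem nadj_of_three (h : Bad G 5 A) (hac : G.Adj a c) (hcb : G.Adj c b) (hab : a ≠ b)
    (hp : G.Adj a p) (hpc : p ≠ c) (hpb : p ≠ b) (hq : G.Adj b q) (hqa : q ≠ a) (hqc : q ≠ c) :
    ¬G.Adj p q := fun e =>
  h.free (cyc5 hp.symm hac hcb hq e.symm hpc hpb hab hqa.symm hqc.symm)

/-- Neighbours of adjacent corners have no common neighbour. -/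
theorem nadj_two (h : Bad G 5 A) (hab : G.Adj a b) (hp : G.Adj a p) (hpb : p ≠ b)
    (hq : G.Adj b q) (hqa : q ≠ a) (hpq : p ≠ q) (hwa : w ≠ a) (hwb : w ≠ b) (hwp : G.Adj w p) :
    ¬G.Adj w q := fun e =>
  h.free (cyc5 hp.symm hab hq e.symm hwp hpb hpq hqa.symm hwa.symm hwb.symm)

/-- There is no clique on four vertices. -/
theorem no_k4 (h : Bad G 5 A) (hab : G.Adj a b) (hac : G.Adj a c) (had : G.Adj a d)
    (hbc : G.Adj b c) (hbd : G.Adj b d) (hcd : G.Adj c d) : False := by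
  classical
  have hA4 := h.hAm
  have hbig := h.big
  let K : Finset V := {a, b, c, d}
  have hK : ∀ p, p ∉ K → p ≠ a ∧ p ≠ b ∧ p ≠ c ∧ p ≠ d := fun p hp => by simpa [K] using hp
  let S : V → Finset V := fun x => out G x K
  have ne : ∀ x y u v p : V, G.Adj x u → G.Adj u v → G.Adj v y → x ≠ y → x ≠ v → u ≠ y →
      u ∈ K → v ∈ K → p ∈ S x → p ∉ S y := fun x y u v p e1 e2 e3 n1 n2 n3 hu hv hp hp' => by
    simp only [S, mem_out] at hp hp'
    exact ne_of_four h e1 e2 e3 n1 n2 n3 hp.1 (ne_of_mem_of_not_mem hu hp.2).symm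
      (ne_of_mem_of_not_mem hv hp.2).symm hp'.1
  have na : ∀ x y u p q : V, G.Adj x u → G.Adj u y → x ≠ y → u ∈ K → x ∈ K → y ∈ K → p ∈ S x →
      q ∈ S y → ¬G.Adj p q := fun x y u p q e1 e2 n1 hu hx hy hp hq => by
    simp only [S, mem_out] at hp hq
    exact nadj_of_three h e1 e2 n1 hp.1 (ne_of_mem_of_not_mem hu hp.2).symm
      (ne_of_mem_of_not_mem hy hp.2).symm hq.1 (ne_of_mem_of_not_mem hx hq.2).symm
      (ne_of_mem_of_not_mem hu hq.2).symm
  have mK : a ∈ K ∧ b ∈ K ∧ c ∈ K ∧ d ∈ K := by simp [K]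
  obtain ⟨ka, kb, kc, kd⟩ := mK
  -- pairwise: distinct and not adjacent
  have ab : ∀ p ∈ S a, ∀ q ∈ S b, p ≠ q ∧ ¬G.Adj p q := fun p hp q hq =>
    ⟨fun e => ne a b c d p hac hcd hbd.symm hab.ne had.ne hbc.ne' kc kd hp (e ▸ hq),
      na a b c p q hac hbc.symm hab.ne kc ka kb hp hq⟩
  have ac : ∀ p ∈ S a, ∀ q ∈ S c, p ≠ q ∧ ¬G.Adj p q := fun p hp q hq =>
    ⟨fun e => ne a c b d p hab hbd hcd.symm hac.ne had.ne hbc.ne kb kd hp (e ▸ hq),
      na a c b p q hab hbc hac.ne kb ka kc hp hq⟩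
  have ad : ∀ p ∈ S a, ∀ q ∈ S d, p ≠ q ∧ ¬G.Adj p q := fun p hp q hq =>
    ⟨fun e => ne a d b c p hab hbc hcd had.ne hac.ne hbd.ne kb kc hp (e ▸ hq),
      na a d b p q hab hbd had.ne kb ka kd hp hq⟩
  have bc : ∀ p ∈ S b, ∀ q ∈ S c, p ≠ q ∧ ¬G.Adj p q := fun p hp q hq =>
    ⟨fun e => ne b c a d p hab.symm had hcd.symm hbc.ne hbd.ne hac.ne ka kd hp (e ▸ hq),
      na b c a p q hab.symm hac hbc.ne ka kb kc hp hq⟩
  have bd : ∀ p ∈ S b, ∀ q ∈ S d, p ≠ q ∧ ¬G.Adj p q := fun p hp q hq =>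
    ⟨fun e => ne b d a c p hab.symm hac hcd hbd.ne hbc.ne had.ne ka kc hp (e ▸ hq),
      na b d a p q hab.symm had hbd.ne ka kb kd hp hq⟩
  have cd : ∀ p ∈ S c, ∀ q ∈ S d, p ≠ q ∧ ¬G.Adj p q := fun p hp q hq =>
    ⟨fun e => ne c d a b p hac.symm hab hbd hcd.ne hbc.ne' had.ne ka kb hp (e ▸ hq),
      na c d a p q hac.symm had hcd.ne ka kc kd hp hq⟩
  have pick : ∀ x ∈ K, ∃ p, p ∈ S x := fun x hx => by
    obtain ⟨p, h1, h2⟩ := h.exists_out x (K.erase x) (by
      have := Finset.card_le_four (a := a) (b := b) (c := c) (d := d)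
      rw [Finset.card_erase_of_mem hx]
      change K.card ≤ 4 at this
      omega)
    exact ⟨p, mem_out.2 ⟨h1, fun hp => h2 (Finset.mem_erase.2 ⟨h1.ne', hp⟩)⟩⟩
  obtain ⟨pa, hpa⟩ := pick a ka
  obtain ⟨pb, hpb⟩ := pick b kb
  obtain ⟨pc, hpc⟩ := pick c kc
  obtain ⟨pd, hpd⟩ := pick d kd
  -- the classes are cliques on at most three vertices
  have hS : ∀ x y z u py pz pu, x ∈ K → py ∈ S y → pz ∈ S z → pu ∈ S u →
      (∀ p ∈ S x, ∀ q ∈ S y, p ≠ q ∧ ¬G.Adj p q) → (∀ p ∈ S x, ∀ q ∈ S z, p ≠ q ∧ ¬G.Adj p q) →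
      (∀ p ∈ S x, ∀ q ∈ S u, p ≠ q ∧ ¬G.Adj p q) → (py ≠ pz ∧ ¬G.Adj py pz) →
      (py ≠ pu ∧ ¬G.Adj py pu) → (pz ≠ pu ∧ ¬G.Adj pz pu) → (S x).card ≤ 3 := by
    intro x y z u py pz pu hx hy hz hu h1 h2 h3 h4 h5 h6
    by_contra hbig'
    by_cases hcl : G.IsClique ((insert x (S x) : Finset V) : Set V)
    · refine h.free (clique_cycle hcl (by norm_num) ?_)
      change ¬(out G x K).card ≤ 3 at hbig'
      rw [Finset.card_insert_of_notMem (fun e => (mem_out.1 e).2 hx)]
      omega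
    obtain ⟨s, hs, t, ht, hst, hnst⟩ : ∃ s ∈ S x, ∃ t ∈ S x, s ≠ t ∧ ¬G.Adj s t := by
      by_contra hno
      push Not at hno
      refine hcl fun s hs t ht hst => ?_
      simp only [Finset.coe_insert, Set.mem_insert_iff, Finset.mem_coe] at hs ht
      rcases hs with rfl | hs <;> rcases ht with rfl | ht
      · exact absurd rfl hst
      · exact (mem_out.1 ht).1
      · exact (mem_out.1 hs).1.symm
      · exact hno s hs t ht hst
    have := h.list_le [s, t, py, pz, pu] (by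
      simp [hst, hnst, h1 s hs py hy, h2 s hs pz hz, h3 s hs pu hu, h1 t ht py hy, h2 t ht pz hz,
        h3 t ht pu hu, h4, h5, h6])
    simp at this
    omega
  have sym : ∀ {S T : Finset V}, (∀ p ∈ S, ∀ q ∈ T, p ≠ q ∧ ¬G.Adj p q) →
      ∀ p ∈ T, ∀ q ∈ S, p ≠ q ∧ ¬G.Adj p q := fun h p hp q hq =>
    ⟨(h q hq p hp).1.symm, fun e => (h q hq p hp).2 e.symm⟩
  have ca := hS a b c d pb pc pd ka hpb hpc hpd ab ac ad (bc _ hpb _ hpc) (bd _ hpb _ hpd)
    (cd _ hpc _ hpd)
  have cb := hS b a c d pa pc pd kb hpa hpc hpd (sym ab) bc bd (ac _ hpa _ hpc) (ad _ hpa _ hpd)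
    (cd _ hpc _ hpd)
  have cc := hS c a b d pa pb pd kc hpa hpb hpd (sym ac) (sym bc) cd (ab _ hpa _ hpb)
    (ad _ hpa _ hpd) (bd _ hpb _ hpd)
  have cdd := hS d a b c pa pb pc kd hpa hpb hpc (sym ad) (sym bd) (sym cd) (ab _ hpa _ hpb)
    (ac _ hpa _ hpc) (bc _ hpb _ hpc)
  have h4 : A = 4 := by
    have := h.list_le [pa, pb, pc, pd] (by
      simp [ab _ hpa _ hpb, ac _ hpa _ hpc, ad _ hpa _ hpd, bc _ hpb _ hpc, bd _ hpb _ hpd,
        cd _ hpc _ hpd])
    simp at this
    omega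
  -- every vertex is in the clique or in a class
  have hall : Finset.univ ⊆ K ∪ S a ∪ S b ∪ S c ∪ S d := by
    intro z _
    by_contra hz
    simp only [Finset.mem_union, not_or, S, mem_out, not_and, not_not] at hz
    obtain ⟨⟨⟨⟨hzK, za⟩, zb⟩, zc⟩, zd⟩ := hz
    have za : ¬G.Adj a z := fun e => hzK (za e)
    have zb : ¬G.Adj b z := fun e => hzK (zb e)
    have zc : ¬G.Adj c z := fun e => hzK (zc e)
    have zd : ¬G.Adj d z := fun e => hzK (zd e)
    obtain ⟨na', nb', nc', nd'⟩ := hK z hzK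
    have nS : ∀ x q, q ∈ S x → ¬G.Adj x z → z ≠ q := fun x q hq hxz e =>
      hxz (e ▸ (mem_out.1 hq).1)
    have off : ∀ x y q, x ∈ K → q ∈ S y → (∀ p ∈ S x, ∀ q ∈ S y, p ≠ q ∧ ¬G.Adj p q) →
        x ≠ q ∧ ¬G.Adj x q := fun x y q hx hq hd =>
      ⟨ne_of_mem_of_not_mem hx (mem_out.1 hq).2,
        fun e => (hd q (mem_out.2 ⟨e, (mem_out.1 hq).2⟩) q hq).1 rfl⟩
    have two : ∀ x y p q, G.Adj x y → x ∈ K → y ∈ K → p ∈ S x → q ∈ S y → p ≠ q →
        z ≠ x → z ≠ y → G.Adj z p → ¬G.Adj z q := fun x y p q e hx hy hp hq hpq n1 n2 =>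
      nadj_two h e (mem_out.1 hp).1 (ne_of_mem_of_not_mem hy (mem_out.1 hp).2).symm (mem_out.1 hq).1
        (ne_of_mem_of_not_mem hx (mem_out.1 hq).2).symm hpq n1 n2
    have five : ∀ x q r s, z ≠ x ∧ ¬G.Adj z x → (z ≠ q ∧ ¬G.Adj z q) → (z ≠ r ∧ ¬G.Adj z r) →
        (z ≠ s ∧ ¬G.Adj z s) → (x ≠ q ∧ ¬G.Adj x q) → (x ≠ r ∧ ¬G.Adj x r) →
        (x ≠ s ∧ ¬G.Adj x s) → (q ≠ r ∧ ¬G.Adj q r) → (q ≠ s ∧ ¬G.Adj q s) →
        (r ≠ s ∧ ¬G.Adj r s) → False := by
      intro x q r s g1 g2 g3 g4 g5 g6 g7 g8 g9 g10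
      have := h.list_le [z, x, q, r, s] (by simp [g1, g2, g3, g4, g5, g6, g7, g8, g9, g10])
      simp at this
      omega
    have xa : z ≠ a ∧ ¬G.Adj z a := ⟨na', fun e => za e.symm⟩
    have xb : z ≠ b ∧ ¬G.Adj z b := ⟨nb', fun e => zb e.symm⟩
    have xd : z ≠ d ∧ ¬G.Adj z d := ⟨nd', fun e => zd e.symm⟩
    by_cases eb : G.Adj z pb
    · have nab := fun e => two a b pa pb hab ka kb hpa hpb (ab _ hpa _ hpb).1 na' nb' e eb
      have nbc := two b c pb pc hbc kb kc hpb hpc (bc _ hpb _ hpc).1 nb' nc' eb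
      have nbd := two b d pb pd hbd kb kd hpb hpd (bd _ hpb _ hpd).1 nb' nd' eb
      exact five b pa pc pd xb ⟨nS a pa hpa za, nab⟩ ⟨nS c pc hpc zc, nbc⟩ ⟨nS d pd hpd zd, nbd⟩
        (off b a pa kb hpa (sym ab)) (off b c pc kb hpc bc) (off b d pd kb hpd bd)
        (ac _ hpa _ hpc) (ad _ hpa _ hpd) (cd _ hpc _ hpd)
    by_cases ec : G.Adj z pc
    · have nac := fun e => two a c pa pc hac ka kc hpa hpc (ac _ hpa _ hpc).1 na' nc' e ec
      have ncd := two c d pc pd hcd kc kd hpc hpd (cd _ hpc _ hpd).1 nc' nd' ec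
      exact five c pa pb pd ⟨nc', fun e => zc e.symm⟩ ⟨nS a pa hpa za, nac⟩ ⟨nS b pb hpb zb, eb⟩
        ⟨nS d pd hpd zd, ncd⟩
        (off c a pa kc hpa (sym ac)) (off c b pb kc hpb (sym bc)) (off c d pd kc hpd cd)
        (ab _ hpa _ hpb) (ad _ hpa _ hpd) (bd _ hpb _ hpd)
    by_cases ed : G.Adj z pd
    · have nad := fun e => two a d pa pd had ka kd hpa hpd (ad _ hpa _ hpd).1 na' nd' e ed
      exact five d pa pb pc xd ⟨nS a pa hpa za, nad⟩ ⟨nS b pb hpb zb, eb⟩ ⟨nS c pc hpc zc, ec⟩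
        (off d a pa kd hpa (sym ad)) (off d b pb kd hpb (sym bd)) (off d c pc kd hpc (sym cd))
        (ab _ hpa _ hpb) (ac _ hpa _ hpc) (bc _ hpb _ hpc)
    exact five a pb pc pd xa ⟨nS b pb hpb zb, eb⟩ ⟨nS c pc hpc zc, ec⟩ ⟨nS d pd hpd zd, ed⟩
      (off a b pb ka hpb ab) (off a c pc ka hpc ac) (off a d pd ka hpd ad)
      (bc _ hpb _ hpc) (bd _ hpb _ hpd) (cd _ hpc _ hpd)
  have hc := Finset.card_le_card hall
  have := Finset.card_le_four (a := a) (b := b) (c := c) (d := d)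
  change K.card ≤ 4 at this
  have := Finset.card_union_le K (S a)
  have := Finset.card_union_le (K ∪ S a) (S b)
  have := Finset.card_union_le (K ∪ S a ∪ S b) (S c)
  have := Finset.card_union_le (K ∪ S a ∪ S b ∪ S c) (S d)
  rw [Finset.card_univ] at hc
  omega

/-- No two triangles share an edge. -/
theorem no_diamond (h : Bad G 5 A) (hab : G.Adj a b) (hac : G.Adj a c) (hbc : G.Adj b c)
    (had : G.Adj a d) (hbd : G.Adj b d) (hcd : c ≠ d) : False := by
  classical
  have hA4 := h.hAm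
  have ncd : ¬G.Adj c d := no_k4 h hab hac had hbc hbd
  set C := out G c {a, b} with hC
  set D := out G d {a, b} with hD
  have fc : ∀ {x y u v : V}, G.Adj a b → G.Adj a x → G.Adj b x → G.Adj a y → G.Adj b y → x ≠ y →
      u ∈ out G x {a, b} → v ∈ out G y {a, b} →
      (u ≠ v ∧ ¬G.Adj u v) ∧ (a ≠ u ∧ ¬G.Adj a u) ∧ b ≠ u ∧ ¬G.Adj b u := by
    intro x y u v e eax ebx eay eby hxy hu hv
    simp only [mem_out, Finset.mem_insert, Finset.mem_singleton, not_or] at hu hv
    have nxy : ¬G.Adj x y := no_k4 h e eax eay ebx eby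
    have huy : u ≠ y := fun e => nxy (e ▸ hu.1)
    have hvx : v ≠ x := fun e => nxy (e ▸ hv.1).symm
    refine ⟨⟨?_, nadj_of_three h eax.symm eay hxy hu.1 hu.2.1 huy hv.1 hvx hv.2.1⟩,
      ⟨Ne.symm hu.2.1, ?_⟩, Ne.symm hu.2.2, ?_⟩
    · rintro rfl
      exact ne_of_four h eax.symm e eby hxy ebx.ne' eay.ne hu.1 hu.2.1 hu.2.2 hv.1
    · intro e'
      exact h.free (cyc5 e' hu.1.symm ebx.symm eby eay.symm eax.ne e.ne hu.2.2 huy hxy)
    · intro e'
      exact h.free (cyc5 e' hu.1.symm eax.symm eay eby.symm ebx.ne e.ne' hu.2.1 huy hxy)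
  -- one class has three vertices
  have hbigI := h.nbhd_large (I := {c, d}) (N := {a, b, c, d} ∪ C ∪ D) (Indep.pair ncd)
    ⟨c, by simp⟩ (fun x hx => by
      simp only [Finset.mem_insert, Finset.mem_singleton] at hx
      rcases hx with rfl | rfl <;> simp) (fun x hx y hy => by
      simp only [Finset.mem_insert, Finset.mem_singleton] at hx
      simp only [hC, hD, Finset.mem_union, Finset.mem_insert, Finset.mem_singleton, mem_out]
      rcases hx with rfl | rfl <;> tauto)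
  rw [Finset.card_pair hcd] at hbigI
  have hcount : 5 ≤ C.card + D.card := by
    have := Finset.card_union_le (({a, b, c, d} : Finset V) ∪ C) D
    have := Finset.card_union_le ({a, b, c, d} : Finset V) C
    have := Finset.card_le_four (a := a) (b := b) (c := c) (d := d)
    omega
  clear hbigI
  wlog hle : D.card ≤ C.card generalizing c d
  · exact this had hbd hac hbc hcd.symm (fun e => ncd e.symm) rfl rfl (by simp only [hC, hD] at *; omega) (by simp only [hC, hD] at *; omega)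
  have hDne : D.Nonempty := Finset.card_pos.1 (by
    have h1 := h.out_large d {a, b}
    have h2 := Finset.card_le_two (a := a) (b := b)
    rw [← hD] at h1
    omega)
  obtain ⟨q, hq⟩ := hDne
  obtain ⟨p, hp, p', hp', hpp, hnpp⟩ : ∃ p ∈ C, ∃ p' ∈ C, p ≠ p' ∧ ¬G.Adj p p' := by
    obtain ⟨x, hx, y, hy, z, hz, h1, h2, h3⟩ :=
      Finset.two_lt_card.1 (show 2 < C.card by omega)
    by_contra hno
    push Not at hno
    exact no_k4 h (mem_out.1 hx).1 (mem_out.1 hy).1 (mem_out.1 hz).1 (hno x hx y hy h1)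
      (hno x hx z hz h2) (hno y hy z hz h3)
  obtain ⟨hpq, hpa, hpb⟩ := fc hab hac hbc had hbd hcd hp hq
  obtain ⟨hp'q, hp'a, hp'b⟩ := fc hab hac hbc had hbd hcd hp' hq
  obtain ⟨-, hqa, hqb⟩ := fc hab had hbd hac hbc hcd.symm hq hp
  -- a third triangle on the same edge
  have third : ∀ e, G.Adj a e → G.Adj b e → e ≠ c → e ≠ d → False := by
    intro e eae ebe nec ned
    obtain ⟨o, ho1, ho2⟩ := h.exists_out e {a, b} (by
      have := Finset.card_le_two (a := a) (b := b)
      omega)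
    have ho : o ∈ out G e {a, b} := mem_out.2 ⟨ho1, ho2⟩
    obtain ⟨hpo, -, -⟩ := fc hab hac hbc eae ebe nec.symm hp ho
    obtain ⟨hp'o, -, -⟩ := fc hab hac hbc eae ebe nec.symm hp' ho
    obtain ⟨hqo, -, -⟩ := fc hab had hbd eae ebe ned.symm hq ho
    obtain ⟨-, hoa, -⟩ := fc hab eae ebe hac hbc nec ho hp
    have := h.list_le [a, p, p', q, o] (by
      simp [hpa, hp'a, hqa, hoa, hpp, hnpp, hpq, hp'q, hpo, hp'o, hqo])
    simp at this
    omega
  obtain ⟨r, har, hr⟩ := h.exists_out a {b, c, d} (by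
    have := Finset.card_le_three (a := b) (b := c) (c := d)
    omega)
  obtain ⟨s, hbs, hs⟩ := h.exists_out b {a, c, d} (by
    have := Finset.card_le_three (a := a) (b := c) (c := d)
    omega)
  simp only [Finset.mem_insert, Finset.mem_singleton, not_or] at hr hs
  by_cases hrb : G.Adj b r
  · exact third r har hrb hr.2.1 hr.2.2
  by_cases hsa : G.Adj a s
  · exact third s hsa hbs hs.2.1 hs.2.2
  have key : ∀ {x u : V}, G.Adj a x → G.Adj b x → x ≠ r → x ≠ s → u ∈ out G x {a, b} →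
      (a ≠ u ∧ ¬G.Adj a u) → (b ≠ u ∧ ¬G.Adj b u) → (u ≠ r ∧ ¬G.Adj u r) ∧ (u ≠ s ∧ ¬G.Adj u s) := by
    intro x u eax ebx nxr nxs hu hua hub
    simp only [mem_out, Finset.mem_insert, Finset.mem_singleton, not_or] at hu
    exact ⟨⟨fun e => hua.2 (e ▸ har), nadj_of_three h ebx.symm hab.symm eax.ne' hu.1
      hu.2.2 hu.2.1 har nxr.symm hr.1⟩, ⟨fun e => hub.2 (e ▸ hbs),
      nadj_of_three h eax.symm hab ebx.ne' hu.1 hu.2.1 hu.2.2 hbs nxs.symm hs.1⟩⟩
  obtain ⟨k1, k2⟩ := key hac hbc (Ne.symm hr.2.1) (Ne.symm hs.2.1) hp hpa hpb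
  obtain ⟨k3, k4⟩ := key hac hbc (Ne.symm hr.2.1) (Ne.symm hs.2.1) hp' hp'a hp'b
  obtain ⟨k5, k6⟩ := key had hbd (Ne.symm hr.2.2) (Ne.symm hs.2.2) hq hqa hqb
  have hrs : r ≠ s := fun e => hrb (e ▸ hbs)
  have nrs : ¬G.Adj r s :=
    nadj_of_three h hac hbc.symm hab.ne har hr.2.1 hr.1 hbs hs.1 hs.2.1
  have := h.list_le [p, p', q, r, s] (by
    simp [hpp, hnpp, hpq, hp'q, k1, k2, k3, k4, k5, k6, hrs, nrs])
  simp at this
  omega

/-- There is no triangle. -/
theorem no_triangle (h : Bad G 5 A) (hA : 3 ≤ A) (hab : G.Adj a b) (hbc : G.Adj b c)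
    (hca : G.Adj c a) : False := by
  classical
  have hA4 := h.hAm
  have hbig := h.big
  set T : Finset V := {a, b, c} with hT
  have hT3 : T.card ≤ 3 := Finset.card_le_three
  set S : V → Finset V := fun x => out G x T
  have mT : a ∈ T ∧ b ∈ T ∧ c ∈ T := by simp [hT]
  obtain ⟨ta, tb, tc⟩ := mT
  have dj : ∀ x y z p q, G.Adj x y → G.Adj y z → G.Adj z x → x ∈ T → y ∈ T → z ∈ T → p ∈ S x →
      q ∈ S y → p ≠ q ∧ ¬G.Adj p q := by
    intro x y z p q exy eyz ezx hx hy hz hp hq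
    simp only [S, mem_out] at hp hq
    refine ⟨?_, ?_⟩
    · rintro rfl
      exact no_diamond h exy hp.1 hq.1 ezx.symm eyz (ne_of_mem_of_not_mem hz hp.2).symm
    · exact nadj_of_three h ezx.symm eyz.symm exy.ne hp.1 (ne_of_mem_of_not_mem hz hp.2).symm
        (ne_of_mem_of_not_mem hy hp.2).symm hq.1 (ne_of_mem_of_not_mem hx hq.2).symm
        (ne_of_mem_of_not_mem hz hq.2).symm
  have xab := fun p hp q hq => dj a b c p q hab hbc hca ta tb tc hp hq
  have xbc := fun p hp q hq => dj b c a p q hbc hca hab tb tc ta hp hq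
  have xca := fun p hp q hq => dj c a b p q hca hab hbc tc ta tb hp hq
  have hsum : alpha G (S a) + alpha G (S b) + alpha G (S c) ≤ A := by
    have h1 := alpha_add_le (G := G) (W := S a ∪ S b) Finset.subset_union_left
      Finset.subset_union_right
      (Finset.disjoint_left.2 fun p hp hq => (xab p hp p hq).1 rfl) (fun p hp q hq => (xab p hp q hq).2)
    have h2 := alpha_add_le (G := G) (Finset.subset_univ (S a ∪ S b)) (Finset.subset_univ (S c))
      (Finset.disjoint_left.2 fun p hp hq => by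
        rcases Finset.mem_union.1 hp with hp | hp
        · exact (xca p hq p hp).1 rfl
        · exact (xbc p hp p hq).1 rfl)
      (fun p hp q hq e => by
        rcases Finset.mem_union.1 hp with hp | hp
        · exact (xca q hq p hp).2 e.symm
        · exact (xbc p hp q hq).2 e)
    have := h2.trans h.hA
    omega
  have size : ∀ x ∈ T, (S x).card ≤ 2 * alpha G (S x) ∧ 1 ≤ alpha G (S x) ∧ alpha G (S x) ≤ 2 := by
    intro x hx
    have h1 : 1 ≤ alpha G (S x) := by
      obtain ⟨p, hp1, hp2⟩ := h.exists_out x T (by omega)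
      exact alpha_pos (mem_out.2 ⟨hp1, hp2⟩ : p ∈ S x)
    have pos : ∀ y ∈ T, 1 ≤ alpha G (S y) := fun y hy => by
      obtain ⟨p, hp1, hp2⟩ := h.exists_out y T (by omega)
      exact alpha_pos (mem_out.2 ⟨hp1, hp2⟩ : p ∈ S y)
    have := pos a ta
    have := pos b tb
    have := pos c tc
    have h2 : alpha G (S x) ≤ 2 := by
      simp only [hT, Finset.mem_insert, Finset.mem_singleton] at hx
      rcases hx with rfl | rfl | rfl <;> omega
    refine ⟨?_, h1, h2⟩
    -- inside a class the edges form a matching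
    have match1 : ∀ u ∈ S x, ((S x).filter (G.Adj u)).card ≤ 1 := fun u hu =>
      Finset.card_le_one.2 fun v hv v' hv' => by
        simp only [Finset.mem_filter] at hv hv'
        by_contra hvv
        exact no_diamond h (mem_out.1 hu).1 (mem_out.1 hv.1).1 hv.2 (mem_out.1 hv'.1).1 hv'.2 hvv
    obtain ⟨u, hu⟩ : (S x).Nonempty := by
      rw [← Finset.card_pos]
      have := alpha_le_card (G := G) (S x)
      omega
    obtain ⟨R, hR, hRα, hRc⟩ := alpha_outside (G := G) hu le_rfl (b := alpha G (S x))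
    have := match1 u hu
    have hnb : nb G (S x) u = (S x).filter (G.Adj u) := rfl
    by_cases h1' : alpha G (S x) = 1
    · have : R.card = 0 := by
        rw [Finset.card_eq_zero, Finset.eq_empty_iff_forall_notMem]
        intro r hr
        have := alpha_pos (G := G) hr
        omega
      rw [hnb] at hRc
      omega
    have hR2 : R.card ≤ 2 := by
      by_contra hh
      obtain ⟨v, hv, v', hv', v'', hv'', d1, d2, d3⟩ := Finset.two_lt_card.1 (not_le.1 hh)
      have hcl := isClique_of_alpha_le_one (G := G) (X := R) (by omega)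
      exact no_diamond h (hcl hv hv' d1) (hcl hv hv'' d2) (hcl hv' hv'' d3)
        (mem_out.1 (hR hv)).1.symm (mem_out.1 (hR hv')).1.symm
        (ne_of_mem_of_not_mem hx (mem_out.1 (hR hv'')).2).symm
    rw [hnb] at hRc
    omega
  obtain ⟨pa, hpa⟩ := h.exists_out a T (by omega)
  obtain ⟨pb, hpb⟩ := h.exists_out b T (by omega)
  obtain ⟨pc, hpc⟩ := h.exists_out c T (by omega)
  have mpa : pa ∈ S a := mem_out.2 hpa
  have mpb : pb ∈ S b := mem_out.2 hpb
  have mpc : pc ∈ S c := mem_out.2 hpc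
  set W := Finset.univ \ (T ∪ S a ∪ S b ∪ S c) with hW
  have hWm : ∀ w ∈ W, w ∉ T ∧ (¬G.Adj a w ∧ ¬G.Adj b w ∧ ¬G.Adj c w) ∧
      w ∉ S a ∧ w ∉ S b ∧ w ∉ S c := fun w hw => by
    simp only [hW, Finset.mem_sdiff, Finset.mem_union, not_or] at hw
    obtain ⟨-, ⟨⟨w1, w2⟩, w3⟩, w4⟩ := hw
    exact ⟨w1, ⟨fun e => w2 (mem_out.2 ⟨e, w1⟩), fun e => w3 (mem_out.2 ⟨e, w1⟩),
      fun e => w4 (mem_out.2 ⟨e, w1⟩)⟩, w2, w3, w4⟩
  -- the vertices that see neither of two classes
  set F : V → V → Finset V := fun y z => W.filter fun w => ∀ p, p ∈ S y ∨ p ∈ S z → ¬G.Adj w p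
  have k4 : ∀ X : Finset V, G.IsClique (X : Set V) → X.card ≤ 3 := fun X hc => by
    by_contra h4
    obtain ⟨K, hK, hKc⟩ := Finset.exists_subset_card_eq (show 4 ≤ X.card by omega)
    obtain ⟨k1, k2, k3, k4, e12, e13, e14, e23, e24, e34, rfl⟩ := Finset.card_eq_four.1 hKc
    simp only [Finset.insert_subset_iff, Finset.singleton_subset_iff] at hK
    obtain ⟨m1, m2, m3, m4⟩ := hK
    exact no_k4 h (hc m1 m2 e12) (hc m1 m3 e13) (hc m1 m4 e14) (hc m2 m3 e23) (hc m2 m4 e24)
      (hc m3 m4 e34)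
  have key : ∀ x y z, x ∈ T → y ∈ T → z ∈ T → (∀ p ∈ S x, ∀ q ∈ S y, p ≠ q ∧ ¬G.Adj p q) →
      (∀ p ∈ S y, ∀ q ∈ S z, p ≠ q ∧ ¬G.Adj p q) → (∀ p ∈ S z, ∀ q ∈ S x, p ≠ q ∧ ¬G.Adj p q) →
      (∀ w ∈ W, ¬G.Adj x w ∧ w ∉ S y ∧ w ∉ S z) →
      alpha G (F y z) + 1 + alpha G (S y) + alpha G (S z) ≤ A ∧
      alpha G (S x ∪ F y z) + alpha G (S y) + alpha G (S z) ≤ A := by
    intro x y z hx hy hz dxy dyz dzx hxW
    have hFW : ∀ w ∈ F y z, w ∈ W ∧ (∀ p ∈ S y, ¬G.Adj w p) ∧ ∀ p ∈ S z, ¬G.Adj w p :=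
      fun w hw => by
        simp only [F, Finset.mem_filter] at hw
        exact ⟨hw.1, fun p hp => hw.2 p (Or.inl hp), fun p hp => hw.2 p (Or.inr hp)⟩
    have off : ∀ q, q ∈ S y ∪ S z → x ≠ q ∧ ¬G.Adj x q := fun q hq => by
      rcases Finset.mem_union.1 hq with hq | hq
      · exact ⟨ne_of_mem_of_not_mem hx (mem_out.1 hq).2,
          fun e => (dxy q (mem_out.2 ⟨e, (mem_out.1 hq).2⟩) q hq).1 rfl⟩
      · exact ⟨ne_of_mem_of_not_mem hx (mem_out.1 hq).2,
          fun e => (dzx q hq q (mem_out.2 ⟨e, (mem_out.1 hq).2⟩)).1 rfl⟩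
    have hyz := alpha_add_le (G := G) (W := S y ∪ S z) Finset.subset_union_left
      Finset.subset_union_right (Finset.disjoint_left.2 fun p hp hq => (dyz p hp p hq).1 rfl)
      (fun p hp q hq => (dyz p hp q hq).2)
    constructor
    · have h1 := alpha_add_le (G := G) (W := insert x (F y z)) (X := {x}) (Y := F y z) (by simp)
        (Finset.subset_insert _ _)
        (Finset.disjoint_singleton_left.2 fun e => (hWm x (hFW x e).1).1 hx)
        (fun p hp q hq => by
          rw [Finset.mem_singleton] at hp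
          exact hp ▸ (hxW q (hFW q hq).1).1)
      have h2 := alpha_add_le (G := G) (Finset.subset_univ (insert x (F y z)))
        (Finset.subset_univ (S y ∪ S z)) (Finset.disjoint_left.2 fun p hp hq => by
          rcases Finset.mem_insert.1 hp with rfl | hp
          · exact (off p hq).1 rfl
          · exact (Finset.mem_union.1 hq).elim (hxW p (hFW p hp).1).2.1 (hxW p (hFW p hp).1).2.2)
        (fun p hp q hq => by
          rcases Finset.mem_insert.1 hp with rfl | hp
          · exact (off q hq).2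
          · exact (Finset.mem_union.1 hq).elim ((hFW p hp).2.1 q) ((hFW p hp).2.2 q))
      have := alpha_pos (G := G) (Finset.mem_singleton_self x)
      have := h2.trans h.hA
      omega
    · have h2 := alpha_add_le (G := G) (Finset.subset_univ (S x ∪ F y z))
        (Finset.subset_univ (S y ∪ S z)) (Finset.disjoint_left.2 fun p hp hq => by
          rcases Finset.mem_union.1 hp with hp | hp <;> rcases Finset.mem_union.1 hq with hq | hq
          · exact (dxy p hp p hq).1 rfl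
          · exact (dzx p hq p hp).1 rfl
          · exact (hxW p (hFW p hp).1).2.1 hq
          · exact (hxW p (hFW p hp).1).2.2 hq)
        (fun p hp q hq e => by
          rcases Finset.mem_union.1 hp with hp | hp <;> rcases Finset.mem_union.1 hq with hq | hq
          · exact (dxy p hp q hq).2 e
          · exact (dzx q hq p hp).2 e.symm
          · exact (hFW p hp).2.1 q hq e
          · exact (hFW p hp).2.2 q hq e)
      have := h2.trans h.hA
      omega
  obtain ⟨qa, a1, -⟩ := size a ta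
  obtain ⟨qb, b1, -⟩ := size b tb
  obtain ⟨qc, c1, -⟩ := size c tc
  obtain ⟨FA1, FA2⟩ := key a b c ta tb tc xab xbc xca fun w hw =>
    ⟨(hWm w hw).2.1.1, (hWm w hw).2.2.2⟩
  obtain ⟨FB1, FB2⟩ := key b c a tb tc ta xbc xca xab fun w hw =>
    ⟨(hWm w hw).2.1.2.1, (hWm w hw).2.2.2.2, (hWm w hw).2.2.1⟩
  obtain ⟨FC1, FC2⟩ := key c a b tc ta tb xca xab xbc fun w hw =>
    ⟨(hWm w hw).2.1.2.2, (hWm w hw).2.2.1, (hWm w hw).2.2.2.1⟩
  have sees : ∀ x y p q w, x ∈ T → y ∈ T → G.Adj x y → w ∈ W → p ∈ S x → q ∈ S y → p ≠ q →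
      G.Adj w p → ¬G.Adj w q := fun x y p q w hx hy e hw hp hq hpq =>
    nadj_two h e (mem_out.1 hp).1 (ne_of_mem_of_not_mem hy (mem_out.1 hp).2).symm (mem_out.1 hq).1
      (ne_of_mem_of_not_mem hx (mem_out.1 hq).2).symm hpq
      (ne_of_mem_of_not_mem hx (hWm w hw).1).symm (ne_of_mem_of_not_mem hy (hWm w hw).1).symm
  -- every vertex outside lies in one of the three sets
  have hWsub : W ⊆ F b c ∪ F c a ∪ F a b := fun w hw => by
    simp only [F, Finset.mem_union, Finset.mem_filter, hw, true_and]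
    by_contra hno
    push Not at hno
    obtain ⟨⟨⟨u, hu, eu⟩, v, hv, ev⟩, t, ht, et⟩ := hno
    rcases hu with hu | hu <;> rcases hv with hv | hv <;> rcases ht with ht | ht
    all_goals first
      | exact sees a b t u w ta tb hab hw ht hu (xab t ht u hu).1 et eu
      | exact sees a b v u w ta tb hab hw hv hu (xab v hv u hu).1 ev eu
      | exact sees a b v t w ta tb hab hw hv ht (xab v hv t ht).1 ev et
      | exact sees b c u v w tb tc hbc hw hu hv (xbc u hu v hv).1 eu ev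
      | exact sees b c t u w tb tc hbc hw ht hu (xbc t ht u hu).1 et eu
      | exact sees b c t v w tb tc hbc hw ht hv (xbc t ht v hv).1 et ev
      | exact sees c a u v w tc ta hca hw hu hv (xca u hu v hv).1 eu ev
      | exact sees c a v t w tc ta hca hw hv ht (xca v hv t ht).1 ev et
      | exact sees c a u t w tc ta hca hw hu ht (xca u hu t ht).1 eu et
  have hall : Finset.univ ⊆ T ∪ S a ∪ S b ∪ S c ∪ W := fun z _ => by
    simp only [hW, Finset.mem_union, Finset.mem_sdiff, Finset.mem_univ, true_and, not_or]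
    tauto
  have hc := Finset.card_le_card hall
  rw [Finset.card_univ] at hc
  have := Finset.card_union_le (T ∪ S a ∪ S b ∪ S c) W
  have := Finset.card_union_le (T ∪ S a ∪ S b) (S c)
  have := Finset.card_union_le (T ∪ S a) (S b)
  have := Finset.card_union_le T (S a)
  have hWc := (Finset.card_le_card hWsub).trans ((Finset.card_union_le _ _).trans
    (Nat.add_le_add_right (Finset.card_union_le _ _) _))
  have fzero : ∀ X : Finset V, alpha G X = 0 → X.card = 0 := fun X hX => by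
    by_contra hne
    obtain ⟨x, hx⟩ := Finset.card_pos.1 (Nat.pos_of_ne_zero hne)
    have := alpha_pos (G := G) hx
    omega
  obtain rfl | rfl : A = 3 ∨ A = 4 := by omega
  · have := fzero (F b c) (by omega)
    have := fzero (F c a) (by omega)
    have := fzero (F a b) (by omega)
    omega
  have fclq : ∀ X : Finset V, alpha G X ≤ 1 → X.card ≤ 3 :=
    fun X hX => k4 X (isClique_of_alpha_le_one hX)
  have u3 := fclq (F b c) (by omega)
  have v3 := fclq (F c a) (by omega)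
  have w3 := fclq (F a b) (by omega)
  by_cases h2 : alpha G (S a) = 2 ∨ alpha G (S b) = 2 ∨ alpha G (S c) = 2
  · -- a class that is no clique leaves one place next to the other two
    have un : ∀ (S F : Finset V), S ⊆ Finset.univ \ W → F ⊆ W → alpha G (S ∪ F) ≤ 1 →
        S.card + F.card ≤ 3 := fun S F hS hF hα => by
      have := fclq _ hα
      rwa [Finset.card_union_of_disjoint (Finset.disjoint_left.2 fun p hp hq =>
        (Finset.mem_sdiff.1 (hS hp)).2 (hF hq))] at this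
    have sS : ∀ x ∈ T, S x ⊆ Finset.univ \ W := fun x hx p hp => Finset.mem_sdiff.2
      ⟨Finset.mem_univ p, fun hq => by
        simp only [hT, Finset.mem_insert, Finset.mem_singleton] at hx
        rcases hx with rfl | rfl | rfl
        · exact (hWm p hq).2.2.1 hp
        · exact (hWm p hq).2.2.2.1 hp
        · exact (hWm p hq).2.2.2.2 hp⟩
    rcases h2 with h2 | h2 | h2
    · have := un (S b) (F c a) (sS b tb) (Finset.filter_subset _ _) (by omega)
      have := un (S c) (F a b) (sS c tc) (Finset.filter_subset _ _) (by omega)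
      omega
    · have := un (S a) (F b c) (sS a ta) (Finset.filter_subset _ _) (by omega)
      have := un (S c) (F a b) (sS c tc) (Finset.filter_subset _ _) (by omega)
      omega
    · have := un (S a) (F b c) (sS a ta) (Finset.filter_subset _ _) (by omega)
      have := un (S b) (F c a) (sS b tb) (Finset.filter_subset _ _) (by omega)
      omega
  simp only [not_or] at h2
  by_cases h7 : W.card ≤ 7
  · omega
  -- a triangle of outside vertices has a member without neighbours in the classes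
  have big : ∀ x y z, x ∈ T → (S x).card ≤ 2 → (F y z).card = 3 → alpha G (F y z) ≤ 1 →
      (∀ w ∈ W, ¬G.Adj x w) → ∃ w ∈ F y z, ∀ p ∈ S x, ¬G.Adj w p := by
    intro x y z hx hSx hF hFa hxW
    by_contra hno
    push Not at hno
    choose g hg hga using hno
    obtain ⟨w, hw, w', hw', hne, he⟩ := Finset.exists_ne_map_eq_of_card_lt_of_maps_to
      (s := (F y z).attach) (t := S x) (f := fun w => g w.1 w.2)
      (by rw [Finset.card_attach]; omega) (fun w _ => hg w.1 w.2)
    obtain ⟨K, hK⟩ : ∃ K : Finset V, K = ((F y z).erase w.1).erase w'.1 := ⟨_, rfl⟩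
    have hKne : K.Nonempty := Finset.card_pos.1 (by
      rw [hK, Finset.card_erase_of_mem (Finset.mem_erase.2 ⟨fun e => hne (Subtype.ext e.symm), w'.2⟩),
        Finset.card_erase_of_mem w.2]
      omega)
    obtain ⟨u, hu⟩ := hKne
    simp only [hK, Finset.mem_erase] at hu
    have hcl := isClique_of_alpha_le_one hFa
    have e1 : G.Adj w.1 w'.1 := hcl w.2 w'.2 fun e => hne (Subtype.ext e)
    refine no_diamond h e1 (hga w.1 w.2) ?_ (hcl w.2 hu.2.2 (Ne.symm hu.2.1))
      (hcl w'.2 hu.2.2 (Ne.symm hu.1)) ?_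
    · simpa [he] using hga w'.1 w'.2
    · intro e
      exact hxW u (Finset.mem_filter.1 hu.2.2).1 (e ▸ (mem_out.1 (hg w.1 w.2)).1)
  have mem2 : ∀ x y z, ∀ w ∈ F y z, (∀ p ∈ S x, ¬G.Adj w p) →
      w ∈ F x y ∧ w ∈ F z x := fun x y z w hw hx => by
    simp only [F, Finset.mem_filter] at hw ⊢
    refine ⟨⟨hw.1, fun p hp => ?_⟩, hw.1, fun p hp => ?_⟩
    · exact hp.elim (hx p) (fun e => hw.2 p (Or.inl e))
    · exact hp.elim (fun e => hw.2 p (Or.inr e)) (hx p)
  have three : ∀ w, w ∈ F b c → w ∈ F c a → w ∈ F a b →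
      W.card + 2 ≤ (F b c).card + (F c a).card + (F a b).card := by
    intro w h1 h2' h3
    have hs : W ⊆ F b c ∪ (F c a).erase w ∪ (F a b).erase w := fun z hz => by
      rcases eq_or_ne z w with rfl | hne
      · simp [h1]
      · have := hWsub hz
        simpa [hne] using this
    have := Finset.card_le_card hs
    have := Finset.card_union_le (F b c ∪ (F c a).erase w) ((F a b).erase w)
    have := Finset.card_union_le (F b c) ((F c a).erase w)
    rw [Finset.card_erase_of_mem h2', Finset.card_erase_of_mem h3] at *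
    have := Finset.card_pos.2 ⟨w, h2'⟩
    have := Finset.card_pos.2 ⟨w, h3⟩
    omega
  rcases (show (F b c).card = 3 ∨ (F c a).card = 3 ∨ (F a b).card = 3 by omega) with e | e | e
  · obtain ⟨w, hw, hx⟩ := big a b c ta (by omega) e (by omega) fun w hw => (hWm w hw).2.1.1
    obtain ⟨m1, m2⟩ := mem2 a b c w hw hx
    have := three w hw m2 m1
    omega
  · obtain ⟨w, hw, hx⟩ := big b c a tb (by omega) e (by omega) fun w hw => (hWm w hw).2.1.2.1
    obtain ⟨m1, m2⟩ := mem2 b c a w hw hx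
    have := three w m1 hw m2
    omega
  · obtain ⟨w, hw, hx⟩ := big c a b tc (by omega) e (by omega) fun w hw => (hWm w hw).2.1.2.2
    obtain ⟨m1, m2⟩ := mem2 c a b w hw hx
    have := three w m2 m1 hw
    omega

/-- There is no counterexample. -/
theorem false_five (h : Bad G 5 A) : False := by
  classical
  have hA4 := h.hAm
  have hbig := h.big
  by_cases hA : A ≤ 2
  · exact h.false_le_half (by omega)
  have ht : ∀ x y z : V, G.Adj x y → G.Adj y z → ¬G.Adj x z := fun x y z e1 e2 e3 =>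
    no_triangle h (by omega) e1 e2 e3.symm
  obtain ⟨v⟩ : Nonempty V := Fintype.card_pos_iff.1 (by omega)
  obtain ⟨U, -, hUa, hUc⟩ := alpha_outside (b := A) (Finset.mem_univ v) h.hA
  have hN : (nb G Finset.univ v).card ≤ A := le_trans (le_alpha (Finset.subset_univ _)
    (fun p hp r hr e => ht v p r (mem_nb.1 hp).2 e (mem_nb.1 hr).2)) h.hA
  have hU := tf_bound (G := G) (A - 1) U (by omega) fun x y z _ _ _ => ht x y z
  rw [Finset.card_univ] at hUc
  obtain rfl | rfl : A = 3 ∨ A = 4 := by omega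
  all_goals omega

end Vale.Agent.P048.Full.Five
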