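import Vale.Agent.P048.Full.Small6K4

/-! # The six cycle

Without cliques on four vertices no neighbourhood holds two disjoint edges; a recursion on the
closed neighbourhoods then bounds the number of vertices. -/

namespace Vale.Agent.P048.Full.Six

open Finset

variable {V : Type} [Fintype V] {G : SimpleGraph V} {A : ℕ} {v a b c d e p q x y : V}

open Classical in
/-- The closed neighbourhood. -/
noncomputable def cl (G : SimpleGraph V) (v : V) : Finset V := insert v (nb G Finset.univ v)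

theorem mem_cl {u : V} : u ∈ cl G v ↔ u = v ∨ G.Adj v u := by
  classical
  simp [cl, mem_nb]

/-- The outside neighbours of a vertex of the neighbourhood. -/
noncomputable def cls (G : SimpleGraph V) (v x : V) : Finset V := out G x (cl G v)

theorem mem_cls : p ∈ cls G v x ↔ G.Adj x p ∧ p ≠ v ∧ ¬G.Adj v p := by
  simp [cls, mem_out, mem_cl]

theorem nk4 (h : Bad G 6 A) (hA : 3 ≤ A) (e1 : G.Adj v a) (e2 : G.Adj v b) (e3 : G.Adj v c)
    (e4 : G.Adj a b) (e5 : G.Adj b c) : ¬G.Adj a c := fun e6 => no_k4 h hA e1 e2 e3 e4 e6 e5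

/-- Four members pairwise as wanted, and the centre. -/
theorem five_le (h : Bad G 6 A) (hx : p ∈ cls G v x) (hy : q ∈ cls G v y) {r s : V} {z t : V}
    (hz : r ∈ cls G v z) (ht : s ∈ cls G v t) (h1 : p ≠ q ∧ ¬G.Adj p q)
    (h2 : p ≠ r ∧ ¬G.Adj p r) (h3 : p ≠ s ∧ ¬G.Adj p s) (h4 : q ≠ r ∧ ¬G.Adj q r)
    (h5 : q ≠ s ∧ ¬G.Adj q s) (h6 : r ≠ s ∧ ¬G.Adj r s) : 5 ≤ A := by
  rw [mem_cls] at hx hy hz ht
  have := h.list_le [v, p, q, r, s] (by
    simp [h1, h2, h3, h4, h5, h6, Ne.symm hx.2.1, Ne.symm hy.2.1, Ne.symm hz.2.1, Ne.symm ht.2.1,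
      hx.2.2, hy.2.2, hz.2.2, ht.2.2])
  simpa using this

theorem six_false (h : Bad G 6 A) {L : List V} (hlen : L.length = 5)
    (hv : ∀ z ∈ L, z ≠ v ∧ ¬G.Adj v z) (hL : L.Pairwise fun x y => x ≠ y ∧ ¬G.Adj x y) : False := by
  have := h.list_le (v :: L) (List.pairwise_cons.2 ⟨fun z hz => ⟨(hv z hz).1.symm, (hv z hz).2⟩, hL⟩)
  have hA := h.hAm
  simp [hlen] at this
  omega

/-- Members of classes at the ends of a path of order five are distinct, and of order four
non-adjacent. -/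
theorem sep (h : Bad G 6 A) {S : Set V} (hS : ∀ z ∈ S, z = v ∨ G.Adj v z)
    (P5 : Pth G x y 5 S) (P4 : Pth G x y 4 S) (hp : p ∈ cls G v x) (hq : q ∈ cls G v y) :
    p ≠ q ∧ ¬G.Adj p q := by
  rw [mem_cls] at hp hq
  have hpS : p ∉ S := fun g => (hS p g).elim hp.2.1 hp.2.2
  have hqS : q ∉ S := fun g => (hS q g).elim hq.2.1 hq.2.2
  exact ⟨fun g => close_one h.free P5 hpS hp.1 (g ▸ hq.1),
    close_two h.free P4 hpS hqS hp.1 hq.1⟩

/-- A class of three or more holds two non-adjacent vertices. -/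
theorem cls_pair (h : Bad G 6 A) (hA : 3 ≤ A) (h3 : 3 ≤ (cls G v x).card) :
    ∃ p ∈ cls G v x, ∃ q ∈ cls G v x, p ≠ q ∧ ¬G.Adj p q := by
  obtain ⟨p, hp, q, hq, r, hr, h1, h2, h3⟩ := Finset.two_lt_card.1 (show 2 < (cls G v x).card by omega)
  by_contra hno
  push Not at hno
  exact nk4 h hA (mem_cls.1 hp).1 (mem_cls.1 hq).1 (mem_cls.1 hr).1 (hno p hp q hq h1)
    (hno q hq r hr h3) (hno p hp r hr h2)

/-- Few neighbours inside the closed neighbourhood leave many outside. -/
theorem cls_card (h : Bad G 6 A) (F : Finset V) (hF : ∀ z, G.Adj v z → G.Adj x z → z ∈ F) :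
    4 ≤ (cls G v x).card + F.card := by
  classical
  have h1 : nb G Finset.univ x ⊆ cls G v x ∪ insert v F := fun z hz => by
    simp only [mem_nb] at hz
    simp only [Finset.mem_union, Finset.mem_insert, mem_cls]
    by_cases e : z = v
    · tauto
    by_cases e' : G.Adj v z
    · exact Or.inr (Or.inr (hF z e' hz.2))
    · tauto
  have := Finset.card_le_card h1
  have := Finset.card_union_le (cls G v x) (insert v F)
  have := Finset.card_insert_le v F
  have := h.deg_ge x
  omega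

/-- A neighbourhood holds no path on four vertices. -/
theorem no_p4 (h : Bad G 6 A) (hA : 3 ≤ A) (va : G.Adj v a) (vb : G.Adj v b) (vc : G.Adj v c)
    (vd : G.Adj v d) (hab : G.Adj a b) (hbc : G.Adj b c) (hcd : G.Adj c d) (hac : a ≠ c)
    (hbd : b ≠ d) (had : a ≠ d) : False := by
  classical
  have nac : ¬G.Adj a c := nk4 h hA va vb vc hab hbc
  have nbd : ¬G.Adj b d := nk4 h hA vb vc vd hbc hcd
  -- a fifth vertex cannot extend the path
  have endA : ∀ z, G.Adj v z → G.Adj a z → z = b ∨ z = d := fun z vz az => by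
    by_contra hno
    push Not at hno
    have zc : z ≠ c := fun g => nac (g ▸ az)
    exact h.free (cyc6 vz az.symm hab hbc hcd vd.symm va.ne vb.ne vc.ne hno.1 zc hno.2 hac had hbd)
  have endD : ∀ z, G.Adj v z → G.Adj d z → z = c ∨ z = a := fun z vz dz => by
    by_contra hno
    push Not at hno
    have zb : z ≠ b := fun g => nbd (g ▸ dz).symm
    exact h.free (cyc6 vz dz.symm hcd.symm hbc.symm hab.symm va.symm vd.ne vc.ne vb.ne hno.1 zb
      hno.2 hbd.symm had.symm hac.symm)
  set S : Set V := {v, a, b, c, d}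
  have hS : ∀ z ∈ S, z = v ∨ G.Adj v z := by
    simp [S, va, vb, vc, vd]
  have mv : v ∈ S := by simp [S]
  have ma : a ∈ S := by simp [S]
  have mb : b ∈ S := by simp [S]
  have mc : c ∈ S := by simp [S]
  have md : d ∈ S := by simp [S]
  have sad : ∀ p ∈ cls G v a, ∀ q ∈ cls G v d, p ≠ q ∧ ¬G.Adj p q := fun p hp q hq =>
    sep h hS (mk5 hab vb.symm vc hcd va.ne' hac had hbc.ne hbd vd.ne ma mb mv mc md)
      (mk4 hab hbc hcd hac hbd had ma mb mc md) hp hq
  have sab : ∀ p ∈ cls G v a, ∀ q ∈ cls G v b, p ≠ q ∧ ¬G.Adj p q := fun p hp q hq =>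
    sep h hS (mk5 va.symm vd hcd.symm hbc.symm had hac hab.ne vc.ne vb.ne hbd.symm ma mv md mc mb)
      (mk4 va.symm vc hbc.symm hac vb.ne hab.ne ma mv mc mb) hp hq
  have sbd : ∀ p ∈ cls G v b, ∀ q ∈ cls G v d, p ≠ q ∧ ¬G.Adj p q := fun p hp q hq =>
    sep h hS (mk5 hab.symm va.symm vc hcd vb.ne' hbc.ne hbd hac had vd.ne mb ma mv mc md)
      (mk4 vb.symm vc hcd hbc.ne vd.ne hbd mb mv mc md) hp hq
  by_cases hsq : G.Adj a d
  · -- the square
    have endB : ∀ z, G.Adj v z → G.Adj b z → z = a ∨ z = c := fun z vz bz => by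
      by_contra hno
      push Not at hno
      have zd : z ≠ d := fun g => nbd (g ▸ bz)
      exact h.free (cyc6 vz bz.symm hbc hcd hsq.symm va.symm vb.ne vc.ne vd.ne hno.2 zd hno.1
        hbd hab.ne' hac.symm)
    have endC : ∀ z, G.Adj v z → G.Adj c z → z = b ∨ z = d := fun z vz cz => by
      by_contra hno
      push Not at hno
      have za : z ≠ a := fun g => nac (g ▸ cz).symm
      exact h.free (cyc6 vz cz.symm hcd hsq.symm hab vb.symm vc.ne vd.ne va.ne hno.2 za hno.1
        hac.symm hbc.ne' hbd.symm)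
    have two : ∀ x y z, (∀ w, G.Adj v w → G.Adj x w → w = y ∨ w = z) → 2 ≤ (cls G v x).card := by
      intro x y z hend
      have := cls_card h {y, z} fun w h1 h2 => by simpa using hend w h1 h2
      have := Finset.card_le_two (a := y) (b := z)
      omega
    obtain ⟨pb, mpb⟩ := Finset.card_pos.1 (lt_of_lt_of_le Nat.zero_lt_two (two b a c endB))
    obtain ⟨pd, mpd⟩ := Finset.card_pos.1 (lt_of_lt_of_le Nat.zero_lt_two (two d c a endD))
    have sbc : ∀ p ∈ cls G v b, ∀ q ∈ cls G v c, p ≠ q ∧ ¬G.Adj p q := fun p hp q hq =>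
      sep h hS (mk5 hab.symm va.symm vd hcd.symm vb.ne' hbd hbc.ne had hac vc.ne mb ma mv md mc)
        (mk4 vb.symm vd hcd.symm hbd vc.ne hbc.ne mb mv md mc) hp hq
    have sdc : ∀ p ∈ cls G v d, ∀ q ∈ cls G v c, p ≠ q ∧ ¬G.Adj p q := fun p hp q hq =>
      sep h hS (mk5 hsq.symm va.symm vb hbc vd.ne' hbd.symm hcd.ne' hab.ne hac vc.ne md ma mv mb mc)
        (mk4 vd.symm vb hbc hbd.symm vc.ne hcd.ne' md mv mb mc) hp hq
    have sac : ∀ p ∈ cls G v a, ∀ q ∈ cls G v c, p ≠ q ∧ ¬G.Adj p q := fun p hp q hq =>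
      sep h hS (mk5 hab vb.symm vd hcd.symm va.ne' had hac hbd hbc.ne vc.ne ma mb mv md mc)
        (mk4 hab vb.symm vc va.ne' hbc.ne hac ma mb mv mc) hp hq
    have hI := h.nbhd_large (I := {a, c}) (N := {a, c, v, b, d} ∪ cls G v a ∪ cls G v c)
      (Indep.pair nac) ⟨a, by simp⟩ (fun z hz => by
        simp only [Finset.mem_insert, Finset.mem_singleton] at hz
        rcases hz with rfl | rfl <;> simp) (fun z hz w hw => by
        simp only [Finset.mem_insert, Finset.mem_singleton] at hz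
        simp only [Finset.mem_union, Finset.mem_insert, Finset.mem_singleton, mem_cls]
        by_cases e : G.Adj v w
        · rcases hz with rfl | rfl
          · rcases endA w e hw with rfl | rfl <;> simp
          · rcases endC w e hw with rfl | rfl <;> simp
        · by_cases e' : w = v
          · simp [e']
          · rcases hz with rfl | rfl <;> simp [hw, e, e'])
    rw [Finset.card_pair hac] at hI
    have h5 := Finset.card_union_le (({a, c, v, b, d} : Finset V) ∪ cls G v a) (cls G v c)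
    have := Finset.card_union_le ({a, c, v, b, d} : Finset V) (cls G v a)
    have := Finset.card_le_five (a := a) (b := c) (c := v) (d := b) (e := d)
    rcases (show 3 ≤ (cls G v a).card ∨ 3 ≤ (cls G v c).card by omega) with g | g
    · obtain ⟨u, hu, u', hu', huu⟩ := cls_pair h hA g
      obtain ⟨pc, mpc⟩ := Finset.card_pos.1 (lt_of_lt_of_le Nat.zero_lt_two (two c b d endC))
      exact six_false (v := v) h (L := [u, u', pb, pd, pc]) rfl
        (by simp [(mem_cls.1 hu).2, (mem_cls.1 hu').2, (mem_cls.1 mpb).2, (mem_cls.1 mpd).2,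
          (mem_cls.1 mpc).2])
        (by simp [huu, sab u hu pb mpb, sab u' hu' pb mpb, sad u hu pd mpd, sad u' hu' pd mpd,
          sac u hu pc mpc, sac u' hu' pc mpc, sbd pb mpb pd mpd, sbc pb mpb pc mpc,
          sdc pd mpd pc mpc])
    · obtain ⟨u, hu, u', hu', huu⟩ := cls_pair h hA g
      obtain ⟨pa, mpa⟩ := Finset.card_pos.1 (lt_of_lt_of_le Nat.zero_lt_two (two a b d endA))
      exact six_false (v := v) h (L := [pa, pb, pd, u, u']) rfl
        (by simp [(mem_cls.1 hu).2, (mem_cls.1 hu').2, (mem_cls.1 mpb).2, (mem_cls.1 mpd).2,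
          (mem_cls.1 mpa).2])
        (by simp [huu, sab pa mpa pb mpb, sad pa mpa pd mpd, sac pa mpa u hu, sac pa mpa u' hu',
          sbd pb mpb pd mpd, sbc pb mpb u hu, sbc pb mpb u' hu', sdc pd mpd u hu, sdc pd mpd u' hu'])
  -- the path
  have three : ∀ x y, (∀ w, G.Adj v w → G.Adj x w → w = y) → 3 ≤ (cls G v x).card := by
    intro x y hend
    have := cls_card h {y} fun w h1 h2 => by simpa using hend w h1 h2
    simpa using this
  obtain ⟨u, hu, u', hu', huu⟩ := cls_pair h hA (three a b fun w h1 h2 =>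
    (endA w h1 h2).resolve_right fun g => hsq (g ▸ h2))
  obtain ⟨r, hr, r', hr', hrr⟩ := cls_pair h hA (three d c fun w h1 h2 =>
    (endD w h1 h2).resolve_right fun g => hsq (g ▸ h2).symm)
  rcases (cls G v b).eq_empty_or_nonempty with hb | ⟨q, hq⟩
  swap
  · exact six_false (v := v) h (L := [u, u', q, r, r']) rfl
      (by simp [(mem_cls.1 hu).2, (mem_cls.1 hu').2, (mem_cls.1 hq).2, (mem_cls.1 hr).2,
        (mem_cls.1 hr').2])
      (by simp [huu, hrr, sab u hu q hq, sab u' hu' q hq, sad u hu r hr, sad u hu r' hr',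
        sad u' hu' r hr, sad u' hu' r' hr', sbd q hq r hr, sbd q hq r' hr'])
  -- another leaf at b
  obtain ⟨z, hvz, hbz, hza, hzc⟩ : ∃ z, G.Adj v z ∧ G.Adj b z ∧ z ≠ a ∧ z ≠ c := by
    by_contra hno
    push Not at hno
    have hc4 := cls_card (v := v) (x := b) h {a, c} fun w h1 h2 => by
      simp only [Finset.mem_insert, Finset.mem_singleton]
      exact or_iff_not_imp_left.2 (hno w h1 h2)
    have := Finset.card_le_two (a := a) (b := c)
    rw [hb, Finset.card_empty] at hc4
    omega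
  have hzd : z ≠ d := fun g => nbd (g ▸ hbz)
  have naz : ¬G.Adj a z := fun g => (endA z hvz g).elim hbz.ne' hzd
  have nzd : ¬G.Adj d z := fun g => (endD z hvz g).elim hzc hza
  have hSz : ∀ w ∈ insert z S, w = v ∨ G.Adj v w := by
    rintro w (rfl | hw)
    · exact Or.inr hvz
    · exact hS w hw
  have szd : ∀ p ∈ cls G v z, ∀ q ∈ cls G v d, p ≠ q ∧ ¬G.Adj p q := fun p hp q hq =>
    sep h hSz (mk5 hbz.symm vb.symm vc hcd hvz.ne' hzc hzd hbc.ne hbd vd.ne (Set.mem_insert z S)
        (Or.inr mb) (Or.inr mv) (Or.inr mc) (Or.inr md))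
      (mk4 hbz.symm hbc hcd hzc hbd hzd (Set.mem_insert z S) (Or.inr mb) (Or.inr mc) (Or.inr md))
      hp hq
  have sza : ∀ p ∈ cls G v z, ∀ q ∈ cls G v a, p ≠ q ∧ ¬G.Adj p q := fun p hp q hq =>
    sep h hSz (mk5 hbz.symm hbc vc.symm va hzc hvz.ne' hza vb.ne' hab.ne' hac.symm
        (Set.mem_insert z S) (Or.inr mb) (Or.inr mc) (Or.inr mv) (Or.inr ma))
      (mk4 hbz.symm vb.symm va hvz.ne' hab.ne' hza (Set.mem_insert z S) (Or.inr mb) (Or.inr mv)
        (Or.inr ma)) hp hq
  obtain ⟨t, ht⟩ := Finset.card_pos.1 (show 0 < (cls G v z).card by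
    have := three z b fun w h1 h2 => by
      by_contra g
      have wa : w ≠ a := fun g' => naz (g' ▸ h2).symm
      have wd : w ≠ d := fun g' => nzd (g' ▸ h2).symm
      have wc : w ≠ c := fun g' => nk4 h hA hvz vb vc hbz.symm hbc (g' ▸ h2)
      exact h.free (cyc6 h1 h2.symm hbz.symm hbc hcd vd.symm hvz.ne vb.ne vc.ne g wc wd hzc hzd
        hbd)
    omega)
  have za : ∀ q ∈ cls G v a, q ≠ t ∧ ¬G.Adj q t := fun q hq =>
    ⟨(sza t ht q hq).1.symm, fun g => (sza t ht q hq).2 g.symm⟩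
  exact six_false (v := v) h (L := [u, u', t, r, r']) rfl
    (by simp [(mem_cls.1 hu).2, (mem_cls.1 hu').2, (mem_cls.1 ht).2, (mem_cls.1 hr).2,
      (mem_cls.1 hr').2])
    (by simp [huu, hrr, za u hu, za u' hu', sad u hu r hr, sad u hu r' hr',
      sad u' hu' r hr, sad u' hu' r' hr', szd t ht r hr, szd t ht r' hr'])

/-- Edges in a neighbourhood at a leaf have one end without further neighbours there. -/
theorem leaf (h : Bad G 6 A) (hA : 3 ≤ A) (va : G.Adj v a) (vb : G.Adj v b) (hab : G.Adj a b) :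
    (∀ z, G.Adj v z → G.Adj a z → z = b) ∨ ∀ z, G.Adj v z → G.Adj b z → z = a := by
  by_contra hno
  push Not at hno
  obtain ⟨⟨x, vx, ax, xb⟩, y, vy, bye, ya⟩ := hno
  by_cases exy : x = y
  · subst exy
    exact nk4 h hA va vb vx hab bye ax
  exact no_p4 h hA vx va vb vy ax.symm hab bye xb ya.symm exy

/-- A neighbourhood holds no two disjoint edges. -/
theorem no_two_edges (h : Bad G 6 A) (hA : 3 ≤ A) (va : G.Adj v a) (vb : G.Adj v b)
    (vc : G.Adj v c) (vd : G.Adj v d) (hab : G.Adj a b) (hcd : G.Adj c d) (hac : a ≠ c)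
    (had : a ≠ d) (hbc : b ≠ c) (hbd : b ≠ d) : False := by
  classical
  wlog la : ∀ z, G.Adj v z → G.Adj a z → z = b generalizing a b
  · exact this vb va hab.symm hbc hbd hac had ((leaf h hA va vb hab).resolve_left la)
  wlog lc : ∀ z, G.Adj v z → G.Adj c z → z = d generalizing c d
  · exact this vd vc hcd.symm had hac hbd hbc ((leaf h hA vc vd hcd).resolve_left lc)
  have nbc : ¬G.Adj b c := fun g =>
    no_p4 h hA va vb vc vd hab g hcd hac hbd had
  have nbd : ¬G.Adj b d := fun g => no_p4 h hA va vb vd vc hab g hcd.symm had hbc hac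
  -- two leaves x and y on different edges x u and y w
  have sepxy : ∀ x u y w, G.Adj v x → G.Adj v u → G.Adj v y → G.Adj v w → G.Adj x u → G.Adj y w →
      x ≠ y → x ≠ w → u ≠ y → u ≠ w → ∀ p ∈ cls G v x, ∀ q ∈ cls G v y, p ≠ q ∧ ¬G.Adj p q :=
    fun x u y w vx vu vy vw exu eyw n1 n2 n3 n4 p hp q hq => sep h
      (S := ({v, x, u, y, w} : Set V)) (by simp [vx, vu, vy, vw])
      (mk5 exu vu.symm vw eyw.symm vx.ne' n2 n1 n4 n3 vy.ne (by simp) (by simp) (by simp) (by simp)
        (by simp))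
      (mk4 exu vu.symm vy vx.ne' n3 n1 (by simp) (by simp) (by simp) (by simp)) hp hq
  have three : ∀ x y, (∀ w, G.Adj v w → G.Adj x w → w = y) → 3 ≤ (cls G v x).card := by
    intro x y hend
    have := cls_card h {y} fun w h1 h2 => by simpa using hend w h1 h2
    simpa using this
  obtain ⟨u, hu, u', hu', huu⟩ := cls_pair h hA (three a b la)
  obtain ⟨r, hr, r', hr', hrr⟩ := cls_pair h hA (three c d lc)
  have sac := sepxy a b c d va vb vc vd hab hcd hac had hbc hbd
  have hA5 : 5 ≤ A := five_le h hu hu' hr hr' huu (sac u hu r hr) (sac u hu r' hr')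
    (sac u' hu' r hr) (sac u' hu' r' hr') hrr
  -- a second leaf next to a
  have second : ∀ a b c d, G.Adj v a → G.Adj v b → G.Adj v c → G.Adj v d → G.Adj a b → G.Adj c d →
      a ≠ c → a ≠ d → b ≠ c → b ≠ d → ¬G.Adj b c → ¬G.Adj b d →
      (∀ z, G.Adj v z → G.Adj a z → z = b) → (∀ z, G.Adj v z → G.Adj c z → z = d) →
      ∀ z, G.Adj v z → G.Adj b z → z = a := by
    intro a b c d va vb vc vd hab hcd hac had hbc hbd nbc nbd la lc z vz bz
    by_contra hza
    have lz : ∀ w, G.Adj v w → G.Adj z w → w = b := by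
      refine (leaf h hA vz vb bz.symm).resolve_right fun l => ?_
      exact hza (l a va hab.symm).symm
    have zc : z ≠ c := fun g => nbc (g ▸ bz)
    have zd : z ≠ d := fun g => nbd (g ▸ bz)
    have sac := sepxy a b c d va vb vc vd hab hcd hac had hbc hbd
    have szc := sepxy z b c d vz vb vc vd bz.symm hcd zc zd hbc hbd
    obtain ⟨r, hr, r', hr', hrr⟩ := cls_pair h hA (three c d lc)
    have naz : ∀ p ∈ cls G v a, ∀ q ∈ cls G v z, p ≠ q → ¬G.Adj p q := fun p hp q hq hne =>
      close_two h.free (S := ({v, a, b, z} : Set V))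
        (mk4 hab vb.symm vz va.ne' bz.ne (Ne.symm hza) (by simp) (by simp) (by simp) (by simp))
        (by
          have := mem_cls.1 hp
          simp [this.2.1, this.1.ne']
          exact ⟨fun g => this.2.2 (g ▸ vb), fun g => this.2.2 (g ▸ vz)⟩)
        (by
          have := mem_cls.1 hq
          simp [this.2.1, this.1.ne']
          exact ⟨fun g => this.2.2 (g ▸ va), fun g => this.2.2 (g ▸ vb)⟩)
        (mem_cls.1 hp).1 (mem_cls.1 hq).1
    obtain ⟨s1, m1, s2, m2, s3, m3, d12, d13, d23⟩ :=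
      Finset.two_lt_card.1 (show 2 < (cls G v z).card by
        have := three z b lz
        omega)
    obtain ⟨u, hu, u', hu', huu⟩ := cls_pair h hA (three a b la)
    by_cases hsub : ∃ q ∈ cls G v z, q ∉ cls G v a
    · obtain ⟨q, hq, hqa⟩ := hsub
      have uq : ∀ p ∈ cls G v a, p ≠ q ∧ ¬G.Adj p q := fun p hp =>
        ⟨fun g => hqa (g ▸ hp), naz p hp q hq fun g => hqa (g ▸ hp)⟩
      exact six_false (v := v) h (L := [u, u', q, r, r']) rfl
        (by simp [(mem_cls.1 hu).2, (mem_cls.1 hu').2, (mem_cls.1 hq).2, (mem_cls.1 hr).2,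
          (mem_cls.1 hr').2])
        (by simp [huu, hrr, uq u hu, uq u' hu', sac u hu r hr, sac u hu r' hr', sac u' hu' r hr,
          sac u' hu' r' hr', szc q hq r hr, szc q hq r' hr'])
    push Not at hsub
    exact six_false (v := v) h (L := [s1, s2, s3, r, r']) rfl
      (by simp [(mem_cls.1 m1).2, (mem_cls.1 m2).2, (mem_cls.1 m3).2, (mem_cls.1 hr).2,
        (mem_cls.1 hr').2])
      (by simp [hrr, d12, d13, d23, naz _ (hsub _ m1) _ m2 d12, naz _ (hsub _ m1) _ m3 d13,
        naz _ (hsub _ m2) _ m3 d23, szc _ m1 r hr, szc _ m1 r' hr', szc _ m2 r hr, szc _ m2 r' hr',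
        szc _ m3 r hr, szc _ m3 r' hr'])
  have lb := second a b c d va vb vc vd hab hcd hac had hbc hbd nbc nbd la lc
  have nda : ¬G.Adj d a := fun g => hbd (la d vd g.symm).symm
  have ld := second c d a b vc vd va vb hcd hab hac.symm hbc.symm had.symm hbd.symm nda
    (fun g => nbd g.symm) lc la
  -- a fifth vertex of the neighbourhood
  obtain ⟨e, hve, he⟩ := h.exists_out v {a, b, c, d} (by
    have := Finset.card_le_four (a := a) (b := b) (c := c) (d := d)
    omega)
  simp only [Finset.mem_insert, Finset.mem_singleton, not_or] at he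
  by_cases hef : ∃ f, G.Adj v f ∧ G.Adj e f
  · obtain ⟨f, hvf, hef⟩ := hef
    have out4 : ∀ x y, (∀ z, G.Adj v z → G.Adj x z → z = y) → y ≠ e → f ≠ x := fun x y lx hy g =>
      hy (lx e hve (g ▸ hef).symm).symm
    have fa : f ≠ a := out4 a b la (Ne.symm he.2.1)
    have fb : f ≠ b := out4 b a lb (Ne.symm he.1)
    have fc : f ≠ c := out4 c d lc (Ne.symm he.2.2.2)
    have fd : f ≠ d := out4 d c ld (Ne.symm he.2.2.1)
    obtain ⟨x, y, hvx, hvy, hxy, lx, xa, xb, xc, xd, ya, yb, yc, yd⟩ :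
        ∃ x y, G.Adj v x ∧ G.Adj v y ∧ G.Adj x y ∧ (∀ z, G.Adj v z → G.Adj x z → z = y) ∧
          x ≠ a ∧ x ≠ b ∧ x ≠ c ∧ x ≠ d ∧ y ≠ a ∧ y ≠ b ∧ y ≠ c ∧ y ≠ d := by
      rcases leaf h hA hve hvf hef with l | l
      · exact ⟨e, f, hve, hvf, hef, l, he.1, he.2.1, he.2.2.1, he.2.2.2, fa, fb, fc, fd⟩
      · exact ⟨f, e, hvf, hve, hef.symm, l, fa, fb, fc, fd, he.1, he.2.1, he.2.2.1, he.2.2.2⟩
    obtain ⟨t, ht⟩ := Finset.card_pos.1 (show 0 < (cls G v x).card by
      have := three x y lx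
      omega)
    have sxa := sepxy x y a b hvx hvy va vb hxy hab xa xb ya yb
    have sxc := sepxy x y c d hvx hvy vc vd hxy hcd xc xd yc yd
    exact six_false (v := v) h (L := [t, u, u', r, r']) rfl
      (by simp [(mem_cls.1 hu).2, (mem_cls.1 hu').2, (mem_cls.1 ht).2, (mem_cls.1 hr).2,
        (mem_cls.1 hr').2])
      (by simp [huu, hrr, sxa t ht u hu, sxa t ht u' hu', sxc t ht r hr, sxc t ht r' hr',
        sac u hu r hr, sac u hu r' hr', sac u' hu' r hr, sac u' hu' r' hr'])
  push Not at hef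
  have he4 : 4 ≤ (cls G v e).card := by
    simpa using cls_card (v := v) (x := e) h ∅ fun z h1 h2 => absurd h2 (hef z h1)
  have ne4 : ∀ x y, G.Adj v x → G.Adj v y → G.Adj x y → e ≠ x → e ≠ y →
      ∀ p ∈ cls G v x, ∀ q ∈ cls G v e, p ≠ q → ¬G.Adj p q := fun x y vx vy exy ex ey p hp q hq _ =>
    close_two h.free (S := ({v, x, y, e} : Set V))
      (mk4 exy vy.symm hve vx.ne' ey.symm ex.symm (by simp) (by simp) (by simp) (by simp))
      (by
        have := mem_cls.1 hp
        simp [this.2.1, this.1.ne']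
        exact ⟨fun g => this.2.2 (g ▸ vy), fun g => this.2.2 (g ▸ hve)⟩)
      (by
        have := mem_cls.1 hq
        simp [this.2.1, this.1.ne']
        exact ⟨fun g => this.2.2 (g ▸ vx), fun g => this.2.2 (g ▸ vy)⟩)
      (mem_cls.1 hp).1 (mem_cls.1 hq).1
  have nea := ne4 a b va vb hab he.1 he.2.1
  have nec := ne4 c d vc vd hcd he.2.2.1 he.2.2.2
  have once : ∀ x y (s t : V), (3 ≤ (cls G v x).card) →
      (∀ p ∈ cls G v x, ∀ q ∈ cls G v e, p ≠ q → ¬G.Adj p q) →
      (∀ p ∈ cls G v x, ∀ q ∈ cls G v y, p ≠ q ∧ ¬G.Adj p q) → s ∈ cls G v y → t ∈ cls G v y →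
      (s ≠ t ∧ ¬G.Adj s t) → ((cls G v e).filter fun z => z ∈ cls G v x).card ≤ 1 := by
    intro x y s t hx3 hxe hxy hs ht hst
    refine Finset.card_le_one.2 fun p hp q hq => ?_
    by_contra hpq
    rw [Finset.mem_filter] at hp hq
    obtain ⟨w, hw, hwn⟩ := Finset.exists_mem_notMem_of_card_lt_card
      (show ({p, q} : Finset V).card < (cls G v x).card from
        lt_of_le_of_lt Finset.card_le_two (by omega))
    simp only [Finset.mem_insert, Finset.mem_singleton, not_or] at hwn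
    exact six_false (v := v) h (L := [w, p, q, s, t]) rfl
      (by simp [(mem_cls.1 hw).2, (mem_cls.1 hp.2).2, (mem_cls.1 hq.2).2, (mem_cls.1 hs).2,
        (mem_cls.1 ht).2])
      (by simp [hpq, hwn, hst, hxe w hw p hp.1 hwn.1, hxe w hw q hq.1 hwn.2,
        hxe p hp.2 q hq.1 hpq, hxy w hw s hs, hxy w hw t ht, hxy p hp.2 s hs, hxy p hp.2 t ht,
        hxy q hq.2 s hs, hxy q hq.2 t ht])
  have o1 := once a c r r' (three a b la) nea sac hr hr' hrr
  have o2 := once c a u u' (three c d lc) nec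
    (fun p hp q hq => ⟨(sac q hq p hp).1.symm, fun g => (sac q hq p hp).2 g.symm⟩) hu hu' huu
  have hsub : cls G v e ⊆ (cls G v e).filter (fun z => z ∈ cls G v a) ∪
      (cls G v e).filter (fun z => z ∈ cls G v c) := fun q hq => by
    simp only [Finset.mem_union, Finset.mem_filter, hq, true_and]
    by_contra hno
    push Not at hno
    have n1 : ∀ p ∈ cls G v a, p ≠ q ∧ ¬G.Adj p q := fun p hp =>
      ⟨fun g => hno.1 (g ▸ hp), nea p hp q hq fun g => hno.1 (g ▸ hp)⟩
    have n2 : ∀ p ∈ cls G v c, q ≠ p ∧ ¬G.Adj q p := fun p hp =>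
      ⟨fun g => hno.2 (g ▸ hp), fun g => nec p hp q hq (fun g' => hno.2 (g' ▸ hp)) g.symm⟩
    exact six_false (v := v) h (L := [u, u', q, r, r']) rfl
      (by simp [(mem_cls.1 hu).2, (mem_cls.1 hu').2, (mem_cls.1 hq).2, (mem_cls.1 hr).2,
        (mem_cls.1 hr').2])
      (by simp [huu, hrr, n1 u hu, n1 u' hu', n2 r hr, n2 r' hr', sac u hu r hr, sac u hu r' hr',
        sac u' hu' r hr, sac u' hu' r' hr'])
  have := (Finset.card_le_card hsub).trans (Finset.card_union_le _ _)
  omega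

/-- The edges of a neighbourhood pass through one vertex. -/
theorem cover (h : Bad G 6 A) (hA : 3 ≤ A) (v : V) :
    ∃ z, ∀ x y, G.Adj v x → G.Adj v y → G.Adj x y → x = z ∨ y = z := by
  by_cases he : ∃ a b, G.Adj v a ∧ G.Adj v b ∧ G.Adj a b
  swap
  · push Not at he
    exact ⟨v, fun x y vx vy exy => absurd exy (he x y vx vy)⟩
  obtain ⟨a, b, va, vb, hab⟩ := he
  by_contra hno
  push Not at hno
  obtain ⟨x, y, vx, vy, exy, xa, ya⟩ := hno a
  obtain ⟨s, t, vs, vt, est, sb, tb⟩ := hno b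
  have key : ∀ p q r u, G.Adj v p → G.Adj v q → G.Adj v r → G.Adj v u → G.Adj p q → G.Adj r u →
      r ≠ p → u ≠ p → r = q ∨ u = q := fun p q r u vp vq vr vu epq eru n1 n2 => by
    by_contra g
    push Not at g
    exact no_two_edges h hA vp vq vr vu epq eru n1.symm n2.symm g.1.symm g.2.symm
  -- so one edge meets a b in b only and one in a only
  obtain ⟨y', vy', eby, hy'⟩ : ∃ z, G.Adj v z ∧ G.Adj b z ∧ z ≠ a := by
    rcases key a b x y va vb vx vy hab exy xa ya with rfl | rfl
    · exact ⟨y, vy, exy, ya⟩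
    · exact ⟨x, vx, exy.symm, xa⟩
  obtain ⟨t', vt', eat, ht'⟩ : ∃ z, G.Adj v z ∧ G.Adj a z ∧ z ≠ b := by
    rcases key b a s t vb va vs vt hab.symm est sb tb with rfl | rfl
    · exact ⟨t, vt, est, tb⟩
    · exact ⟨s, vs, est.symm, sb⟩
  by_cases hyt : y' = t'
  · subst hyt
    exact nk4 h hA va vb vy' hab eby eat
  exact no_two_edges h hA vb vy' va vt' eby eat hab.ne' ht'.symm hy' hyt

/-- A set grows at most quadratically in its independence number. -/
theorem rec_bound (h : Bad G 6 A) (hA : 3 ≤ A) : ∀ (k : ℕ) (X : Finset V), alpha G X ≤ k →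
    2 * X.card ≤ k * (k + 5) := by
  classical
  intro k
  induction k with
  | zero =>
    intro X hX
    rcases X.eq_empty_or_nonempty with rfl | ⟨x, hx⟩
    · simp
    · have := alpha_pos (G := G) hx
      omega
  | succ k ih =>
    intro X hX
    rcases X.eq_empty_or_nonempty with rfl | ⟨x, hx⟩
    · simp
    obtain ⟨U, -, hUa, hUc⟩ := alpha_outside (b := k + 1) hx hX
    have h2 := ih U (by omega)
    obtain ⟨z, hz⟩ := cover h hA x
    have hN : ((nb G X x).erase z).card ≤ k + 1 := le_trans (le_alpha (G := G)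
      (fun y hy => (mem_nb.1 (Finset.mem_of_mem_erase hy)).1) fun p hp r hr e => by
        rw [Finset.mem_erase, mem_nb] at hp hr
        rcases hz p r hp.2.2 hr.2.2 e with g | g
        · exact hp.1 g
        · exact hr.1 g) hX
    have := Finset.pred_card_le_card_erase (a := z) (s := nb G X x)
    rw [show (k + 1) * (k + 1 + 5) = k * (k + 5) + (2 * k + 6) by ring]
    omega

/-- There is no counterexample. -/
theorem false_six (h : Bad G 6 A) : False := by
  have hA := h.hAm
  have hbig := h.big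
  by_cases hA3 : A ≤ 2
  · exact h.false_le_half (by omega)
  have h2 := rec_bound h (by omega) A Finset.univ h.hA
  rw [Finset.card_univ] at h2
  obtain rfl | rfl | rfl : A = 3 ∨ A = 4 ∨ A = 5 := by omega
  all_goals omega

end Vale.Agent.P048.Full.Six
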