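import Vale.Agent.P048.Full.SmallBase
import Vale.Agent.P048.Full.Colour

/-! # The colouring block for cycles on seven to ten vertices -/

namespace Vale.Agent.P048.Full

open Finset

/-- The radius exceeds half of `m` for small `m`. -/
theorem sColourPin : SColourPin := by
  intro V _ G m A h v hv
  classical
  have hb := h.bad.hAm
  have hlo := h.lo
  have hhi := h.hi
  by_cases hA : A + 2 ≤ m
  · refine CBad.radius_gt (e := 0) ⟨h.bad, by omega, h.hω, fun X b b2 bh ha hc => ?_⟩ v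
      (Or.inl ⟨hA, by omega⟩)
    by_cases hm : m ≤ 8
    · exact h.hM.upto3 X b b2 (by omega) ha hc
    · exact h.hM.upto5 (by omega) X b b2 (by omega) ha hc
  by_cases hm : m ≤ 8
  · obtain hv' | hv' := hv hm
    · omega
    refine CBad.radius_gt (e := 0) ⟨h.bad, by omega, h.hω, fun X b b2 bh ha hc => ?_⟩ v
      (Or.inr (Or.inr (Or.inr (Or.inl ⟨hm, star G v, hv', fun z hz => ?_⟩))))
    · exact h.hM.upto3 X b b2 (by omega) ha hc
    · simpa [star] using hz
  · have hM : ∀ (X : Finset V) (b : ℕ), 2 ≤ b → b ≤ (m - 1) / 2 + 1 → alpha G X ≤ b →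
        CliqueLE G X ((m - 1) / 2) → X.card ≤ (m - 1) * (b - 1) :=
      fun X b b2 bh ha hc => h.hM.upto5 (by omega) X b b2 (by omega) ha hc
    by_cases h9 : m ≤ 9
    · exact CBad.radius_gt (e := 1) ⟨h.bad, by omega, h.hω, hM⟩ v
        (Or.inr (Or.inr (Or.inl ⟨le_rfl, h9⟩)))
    · exact CBad.radius_gt (e := 1) ⟨h.bad, by omega, h.hω, hM⟩ v
        (Or.inr (Or.inr (Or.inr (Or.inr ⟨by omega, le_rfl, h.hM.four (by omega)⟩))))

end Vale.Agent.P048.Full
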