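import Vale.Agent.P048.Full.SmallCore
import Vale.Agent.P048.Full.A2

/-! # Long paths in small triangle-free sets -/

namespace Vale.Agent.P048.Full.SFinal

open Finset

variable {V : Type} {G : SimpleGraph V} {H : Finset V}

/-- No three members of `H` form a triangle. -/
def TF (G : SimpleGraph V) (H : Finset V) : Prop :=
  ∀ x y z : V, x ∈ H → y ∈ H → z ∈ H → G.Adj x y → G.Adj y z → ¬G.Adj x z

/-- There is a path on `n` vertices inside `H`. -/
def HasPath (G : SimpleGraph V) (H : Finset V) (n : ℕ) : Prop :=
  ∃ f : ℕ → V, (∀ i, i < n → f i ∈ H) ∧ (∀ i j, i < j → j < n → f i ≠ f j) ∧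
    ∀ i, i + 1 < n → G.Adj (f i) (f (i + 1))

theorem HasPath.mono {n k : ℕ} (h : HasPath G H n) (hk : k ≤ n) : HasPath G H k := by
  obtain ⟨f, h1, h2, h3⟩ := h
  exact ⟨f, fun i hi => h1 i (by omega), fun i j a b => h2 i j a (by omega),
    fun i hi => h3 i (by omega)⟩

theorem HasPath.cons {n : ℕ} {f : ℕ → V} {y : V} (hy : y ∈ H) (h1 : ∀ i, i < n → f i ∈ H)
    (h2 : ∀ i j, i < j → j < n → f i ≠ f j) (h3 : ∀ i, i + 1 < n → G.Adj (f i) (f (i + 1)))
    (hne : ∀ i, i < n → y ≠ f i) (ha : G.Adj y (f 0)) : HasPath G H (n + 1) := by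
  refine ⟨fun t => if t = 0 then y else f (t - 1), fun i hi => ?_, fun i j hij hj => ?_,
    fun i hi => ?_⟩
  · by_cases c : i = 0
    · simpa [c] using hy
    · simpa [c] using h1 (i - 1) (by omega)
  · by_cases c : i = 0
    · simpa [c, show j ≠ 0 by omega] using hne (j - 1) (by omega)
    · simpa [c, show j ≠ 0 by omega] using h2 (i - 1) (j - 1) (by omega) (by omega)
  · by_cases c : i = 0
    · simpa [c] using ha
    · simpa [c, show i - 1 + 1 = i by omega] using h3 (i - 1) (by omega)

/-- In a triangle-free set with minimum degree three there is a path on seven vertices. -/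
theorem path_of_deg [DecidableEq V] {a : ℕ} (ht : TF G H) (hα : alpha G H ≤ a) (hne : H.Nonempty)
    (hdeg : ∀ x ∈ H, 3 ≤ (nb G H x).card)
    (hC : ∀ C : Finset V, C ⊆ H → C.card = 6 → a < alpha G (H \ C) + 3) : HasPath G H 7 := by
  classical
  suffices h : ∀ n, 1 ≤ n → n ≤ 7 → HasPath G H n from h 7 (by omega) le_rfl
  intro n hn
  induction n, hn using Nat.le_induction with
  | base =>
    intro _
    obtain ⟨x, hx⟩ := hne
    exact ⟨fun _ => x, fun _ _ => hx, fun i j h1 h2 => by omega, fun i hi => by omega⟩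
  | succ n hn ih =>
    intro hn7
    obtain ⟨f, h1, h2, h3⟩ := ih (by omega)
    by_cases hext : ∃ y ∈ nb G H (f 0), ∀ i, i < n → y ≠ f i
    · obtain ⟨y, hy, hy'⟩ := hext
      exact HasPath.cons (mem_nb.1 hy).1 h1 h2 h3 hy' (mem_nb.1 hy).2.symm
    push Not at hext
    let I := (Finset.range n).filter fun i => G.Adj (f 0) (f i)
    have hI : 3 ≤ I.card := by
      refine (hdeg _ (h1 0 (by omega))).trans (le_trans (Finset.card_le_card ?_)
        (Finset.card_image_le (f := f)))
      intro y hy
      obtain ⟨i, hi, rfl⟩ := hext y hy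
      exact Finset.mem_image.2 ⟨i, Finset.mem_filter.2 ⟨Finset.mem_range.2 hi, (mem_nb.1 hy).2⟩,
        rfl⟩
    have hpos : ∀ i ∈ I, 1 ≤ i ∧ i < n ∧ G.Adj (f 0) (f i) := fun i hi => by
      obtain ⟨a1, a2⟩ := Finset.mem_filter.1 hi
      refine ⟨Nat.pos_of_ne_zero fun e => ?_, Finset.mem_range.1 a1, a2⟩
      subst e
      exact G.irrefl a2
    have h5 : n = 6 ∧ G.Adj (f 0) (f 5) := by
      by_contra hno
      have hlt : ∀ i ∈ I, i ≤ 4 := fun i hi => by
        obtain ⟨a1, a2, a3⟩ := hpos i hi
        by_contra h4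
        exact hno ⟨by omega, (show i = 5 by omega) ▸ a3⟩
      have := Finset.card_le_card_of_injOn (s := I) (t := Finset.range 2) (fun i => (i - 1) / 2)
        (fun i hi => Finset.mem_range.2 (by have := hlt i hi; dsimp only; omega)) (fun i hi j hj e => by
          obtain ⟨a1, a2, a3⟩ := hpos i hi
          obtain ⟨b1, b2, b3⟩ := hpos j hj
          simp only at e
          by_contra hne
          rcases Nat.lt_or_gt_of_ne hne with c | c
          · exact ht (f 0) (f i) (f (i + 1)) (h1 0 (by omega)) (h1 i a2) (h1 _ (by omega)) a3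
              (h3 i (by omega)) ((show j = i + 1 by omega) ▸ b3)
          · exact ht (f 0) (f j) (f (j + 1)) (h1 0 (by omega)) (h1 j b2) (h1 _ (by omega)) b3
              (h3 j (by omega)) ((show i = j + 1 by omega) ▸ a3))
      rw [Finset.card_range] at this
      omega
    obtain ⟨rfl, hcl⟩ := h5
    -- the path closes to a cycle on six vertices
    let C := (Finset.range 6).image f
    have hCH : C ⊆ H := fun y hy => by
      obtain ⟨i, hi, rfl⟩ := Finset.mem_image.1 hy
      exact h1 i (Finset.mem_range.1 hi)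
    have hCc : C.card = 6 := by
      rw [Finset.card_image_of_injOn, Finset.card_range]
      intro i hi j hj e
      simp only [Finset.coe_range, Set.mem_Iio] at hi hj
      by_contra hne
      rcases Nat.lt_or_gt_of_ne hne with c | c
      · exact h2 i j c hj e
      · exact h2 j i c hi e.symm
    have hout : ∃ y ∈ H \ C, ∃ i, i < 6 ∧ G.Adj y (f i) := by
      by_contra hno
      push Not at hno
      have h3' : 3 ≤ alpha G C := by
        have hI' : Indep G ({f 0, f 2, f 4} : Finset V) := by
          have e02 : ¬G.Adj (f 0) (f 2) := ht _ _ _ (h1 0 (by omega)) (h1 1 (by omega))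
            (h1 2 (by omega)) (h3 0 (by omega)) (h3 1 (by omega))
          have e24 : ¬G.Adj (f 2) (f 4) := ht _ _ _ (h1 2 (by omega)) (h1 3 (by omega))
            (h1 4 (by omega)) (h3 2 (by omega)) (h3 3 (by omega))
          have e04 : ¬G.Adj (f 0) (f 4) := ht _ _ _ (h1 0 (by omega)) (h1 5 (by omega))
            (h1 4 (by omega)) hcl (h3 4 (by omega)).symm
          intro x hx y hy
          simp only [Finset.mem_insert, Finset.mem_singleton] at hx hy
          rcases hx with rfl | rfl | rfl <;> rcases hy with rfl | rfl | rfl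
          all_goals
            first
              | exact G.irrefl
              | assumption
              | exact fun e => e02 e.symm
              | exact fun e => e24 e.symm
              | exact fun e => e04 e.symm
        have hsub : ({f 0, f 2, f 4} : Finset V) ⊆ C := by
          simp only [Finset.insert_subset_iff, Finset.singleton_subset_iff]
          exact ⟨Finset.mem_image_of_mem f (by simp), Finset.mem_image_of_mem f (by simp),
            Finset.mem_image_of_mem f (by simp)⟩
        have := le_alpha hsub hI'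
        rwa [Finset.card_insert_of_notMem (by
            simp [h2 0 2 (by omega) (by omega), h2 0 4 (by omega) (by omega)]),
          Finset.card_pair (h2 2 4 (by omega) (by omega))] at this
      have := hC C hCH hCc
      have := alpha_add_le (G := G) hCH (Finset.sdiff_subset (s := H) (t := C))
        Finset.disjoint_sdiff (fun x hx y hy e => by
          obtain ⟨i, hi, rfl⟩ := Finset.mem_image.1 hx
          exact hno y hy i (Finset.mem_range.1 hi) e.symm)
      omega
    obtain ⟨y, hy, i, hi, hyi⟩ := hout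
    obtain ⟨hyH, hyC⟩ := Finset.mem_sdiff.1 hy
    refine HasPath.cons (f := fun t => f ((i + t) % 6)) hyH (fun t _ => h1 _ (Nat.mod_lt _ (by omega)))
      (fun s t hst ht6 e => ?_) (fun t ht6 => ?_) (fun t _ e => hyC (e ▸ Finset.mem_image_of_mem f
        (Finset.mem_range.2 (Nat.mod_lt _ (by omega))))) (by simpa [Nat.mod_eq_of_lt hi] using hyi)
    · rcases lt_trichotomy ((i + s) % 6) ((i + t) % 6) with c | c | c
      · exact h2 _ _ c (Nat.mod_lt _ (by omega)) e
      · omega
      · exact h2 _ _ c (Nat.mod_lt _ (by omega)) e.symm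
    · by_cases c : (i + t) % 6 = 5
      · simpa [c, show (i + (t + 1)) % 6 = 0 by omega] using hcl.symm
      · simpa [show (i + (t + 1)) % 6 = (i + t) % 6 + 1 by omega] using h3 _ (by omega)

/-- A spanning cycle as a periodic sequence. -/
theorem ham_fun {S : Finset V} (h : Ham G S) (hne : 2 ≤ S.card) :
    ∃ f : ℕ → V, (∀ i, f i ∈ S) ∧ (∀ i, f (i % S.card) = f i) ∧
      (∀ i j, i < j → j < S.card → f i ≠ f j) ∧ (∀ i, G.Adj (f i) (f (i + 1))) ∧
      ∀ y ∈ S, ∃ i, i < S.card ∧ f i = y := by
  classical
  obtain ⟨a, b, ⟨p, hp, hpl, hps⟩, hba⟩ := h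
  obtain ⟨N, hN⟩ : ∃ N, N = S.card := ⟨_, rfl⟩
  rw [← hN] at hpl hne ⊢
  let f : ℕ → V := fun i => p.getVert (i % N)
  have hmem : ∀ i, f i ∈ S := fun i => Finset.mem_coe.1 (hps _ (p.getVert_mem_support _))
  have hinj : ∀ i j, i < j → j < N → f i ≠ f j := fun i j hij hj e => by
    simp only [f, Nat.mod_eq_of_lt hj, Nat.mod_eq_of_lt (hij.trans hj)] at e
    have := hp.getVert_injOn (show i ∈ {k | k ≤ p.length} by simp only [Set.mem_ofPred_eq]; omega)
      (show j ∈ {k | k ≤ p.length} by simp only [Set.mem_ofPred_eq]; omega) e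
    omega
  refine ⟨f, hmem, fun i => by simp [f], hinj, fun i => ?_, fun y hy => ?_⟩
  · simp only [f]
    by_cases c : i % N = N - 1
    · have c0 : (i + 1) % N = 0 := by
        rw [Nat.add_mod, c, Nat.mod_eq_of_lt (show 1 < N by omega), show N - 1 + 1 = N by omega,
          Nat.mod_self]
      rw [c, c0, show N - 1 = p.length by omega, p.getVert_length, p.getVert_zero]
      exact hba
    · have hlt := Nat.mod_lt i (show 0 < N by omega)
      have c0 : (i + 1) % N = i % N + 1 := by
        rw [Nat.add_mod, Nat.mod_eq_of_lt (show 1 < N by omega),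
          Nat.mod_eq_of_lt (show i % N + 1 < N by omega)]
      rw [c0]
      exact p.adj_getVert_succ (by omega)
  · have himg : (Finset.range N).image f = S := by
      refine Finset.eq_of_subset_of_card_le (by simp [Finset.image_subset_iff, hmem]) ?_
      rw [Finset.card_image_of_injOn, Finset.card_range, hN]
      intro i hi j hj e
      simp only [Finset.coe_range, Set.mem_Iio] at hi hj
      by_contra hne
      rcases Nat.lt_or_gt_of_ne hne with c | c
      · exact hinj i j c hj e
      · exact hinj j i c hi e.symm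
    rw [← himg, Finset.mem_image] at hy
    obtain ⟨i, hi, e⟩ := hy
    exact ⟨i, Finset.mem_range.1 hi, e⟩

theorem clique_le_two (ht : TF G H) {K : Finset V} (hKH : K ⊆ H) (hK : G.IsClique (K : Set V)) :
    K.card ≤ 2 := by
  classical
  by_contra h3
  obtain ⟨p, hp, q, hq, r, hr, hpq, hpr, hqr⟩ := Finset.two_lt_card.1 (show 2 < K.card by omega)
  exact ht p q r (hKH hp) (hKH hq) (hKH hr) (hK hp hq hpq) (hK hq hr hqr) (hK hp hr hpr)

/-- Eight vertices, no triangle and no four independent: a path on seven vertices. -/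
theorem path_eight [DecidableEq V] (ht : TF G H) (hα : alpha G H ≤ 3) (h8 : H.card = 8) :
    HasPath G H 7 := by
  classical
  have hfar : ∀ z ∈ H, alpha G (H \ insert z (nb G H z)) ≤ 2 := fun z hz => by
    have := alpha_add_le (G := G) (W := H) (X := {z}) (Y := H \ insert z (nb G H z))
      (Finset.singleton_subset_iff.2 hz) Finset.sdiff_subset (by simp) (fun p hp r hr => by
        rw [Finset.mem_singleton] at hp
        subst hp
        obtain ⟨r1, r2⟩ := Finset.mem_sdiff.1 hr
        exact fun e => r2 (Finset.mem_insert_of_mem (mem_nb.2 ⟨r1, e⟩)))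
    have := alpha_pos (G := G) (Finset.mem_singleton_self z)
    omega
  have htf : ∀ W ⊆ H, TF G W := fun W hW x y z hx hy hz => ht x y z (hW hx) (hW hy) (hW hz)
  have hcard : ∀ z ∈ H, (H \ insert z (nb G H z)).card + (nb G H z).card + 1 = 8 := fun z hz => by
    rw [Finset.card_sdiff_of_subset (Finset.insert_subset hz fun y hy => (mem_nb.1 hy).1),
      Finset.card_insert_of_notMem fun e => G.irrefl (mem_nb.1 e).2, h8]
    have := Finset.card_le_card (Finset.insert_subset hz fun y (hy : y ∈ nb G H z) => (mem_nb.1 hy).1)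
    rw [Finset.card_insert_of_notMem fun e => G.irrefl (mem_nb.1 e).2, h8] at this
    omega
  by_cases hd : ∀ x ∈ H, 3 ≤ (nb G H x).card
  · refine path_of_deg ht hα (Finset.card_pos.1 (by omega)) hd fun C hC hC6 => ?_
    obtain ⟨y, hy⟩ := Finset.card_pos.1 (show 0 < (H \ C).card by
      rw [Finset.card_sdiff_of_subset hC]; omega)
    have := alpha_pos (G := G) hy
    omega
  push Not at hd
  obtain ⟨z, hz, hz2⟩ := hd
  have h5 := tf_alpha_two (hfar z hz) (htf _ Finset.sdiff_subset)
  have hc := hcard z hz
  have hW : (H \ insert z (nb G H z)).card = 5 := by omega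
  rcases ham_or_split _ (hfar z hz) (by omega) with hham | hsplit
  · obtain ⟨b, hb⟩ := Finset.card_pos.1 (show 0 < (nb G H z).card by omega)
    obtain ⟨hbH, hzb⟩ := mem_nb.1 hb
    have hb2 : 2 ≤ (nb G H b).card := by
      have := tf_alpha_two (hfar b hbH) (htf _ Finset.sdiff_subset)
      have := hcard b hbH
      omega
    obtain ⟨y, hy, hyz⟩ := Finset.exists_mem_ne (show 1 < (nb G H b).card by omega) z
    obtain ⟨hyH, hby⟩ := mem_nb.1 hy
    have hyW : y ∈ H \ insert z (nb G H z) := Finset.mem_sdiff.2 ⟨hyH, fun e => by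
      rcases Finset.mem_insert.1 e with e | e
      · exact hyz e
      · exact ht z b y hz hbH hyH hzb hby (mem_nb.1 e).2⟩
    obtain ⟨f, f1, f2, f3, f4, f5⟩ := ham_fun hham (by omega)
    obtain ⟨i, hi, rfl⟩ := f5 y hyW
    rw [hW] at f2 f3 hi
    have hfH : ∀ t, f t ∈ H := fun t => Finset.sdiff_subset (f1 t)
    have P : HasPath G H (5 + 1) := HasPath.cons (f := fun t => f (i + t)) hbH (fun t _ => hfH _)
      (fun s t hst ht5 e => by
        rw [← f2 (i + s), ← f2 (i + t)] at e
        rcases lt_trichotomy ((i + s) % 5) ((i + t) % 5) with c | c | c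
        · exact f3 _ _ c (Nat.mod_lt _ (by omega)) e
        · omega
        · exact f3 _ _ c (Nat.mod_lt _ (by omega)) e.symm)
      (fun t _ => f4 (i + t)) (fun t _ e => (Finset.mem_sdiff.1 (f1 (i + t))).2
        (Finset.mem_insert_of_mem (e ▸ hb))) hby
    let g : ℕ → V := fun t => if t = 0 then b else f (i + (t - 1))
    refine HasPath.cons (f := g) hz (fun t _ => ?_) (fun s t hst ht6 => ?_) (fun t ht6 => ?_)
      (fun t _ => ?_) (by simpa [g] using hzb)
    · by_cases c : t = 0
      · simpa [g, c] using hbH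
      · simpa [g, c] using hfH _
    · by_cases c : s = 0
      · simp only [g, c, if_true, show t ≠ 0 by omega, if_false]
        exact fun e => (Finset.mem_sdiff.1 (f1 _)).2 (Finset.mem_insert_of_mem (e ▸ hb))
      · simp only [g, c, show t ≠ 0 by omega, if_false]
        rw [← f2, ← f2 (i + (t - 1))]
        intro e
        rcases lt_trichotomy ((i + (s - 1)) % 5) ((i + (t - 1)) % 5) with c | c | c
        · exact f3 _ _ c (Nat.mod_lt _ (by omega)) e
        · omega
        · exact f3 _ _ c (Nat.mod_lt _ (by omega)) e.symm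
    · by_cases c : t = 0
      · simpa [g, c] using hby
      · simpa [g, c, show i + (t - 1) + 1 = i + t by omega] using f4 (i + (t - 1))
    · by_cases c : t = 0
      · simpa [g, c] using hzb.ne
      · simp only [g, c, if_false]
        exact fun e => (Finset.mem_sdiff.1 (f1 _)).2 (Finset.mem_insert.2 (Or.inl e.symm))
  · exfalso
    obtain ⟨w, K, L, hw, hK, hL, hwK, hwL, hKL, hcov, -, -, cK, cL, hno⟩ := hsplit
    have k2 := clique_le_two ht (hK.trans Finset.sdiff_subset) cK
    have l2 := clique_le_two ht (hL.trans Finset.sdiff_subset) cL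
    have hc' : (H \ insert z (nb G H z)).card ≤ (insert w (K ∪ L)).card :=
      Finset.card_le_card fun y hy => by
        simp only [Finset.mem_insert, Finset.mem_union]
        exact hcov y hy
    rw [Finset.card_insert_of_notMem (by simp [hwK, hwL]),
      Finset.card_union_of_disjoint hKL] at hc'
    have pick : ∀ K : Finset V, K ⊆ H \ insert z (nb G H z) → G.IsClique (K : Set V) →
        K.card = 2 → ∃ k ∈ K, ¬G.Adj w k := fun K hK cK hc2 => by
      by_contra hall
      push Not at hall
      obtain ⟨p, hp, q, hq, hpq⟩ := Finset.one_lt_card.1 (show 1 < K.card by omega)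
      exact ht w p q (Finset.sdiff_subset hw) (Finset.sdiff_subset (hK hp))
        (Finset.sdiff_subset (hK hq)) (hall p hp) (cK hp hq hpq) (hall q hq)
    obtain ⟨k, hk, hwk⟩ := pick K hK cK (by omega)
    obtain ⟨l, hl, hwl⟩ := pick L hL cL (by omega)
    exact hno k hk l hl (adj_of_two (hfar z hz) hw (hK hk) (hL hl) (fun e => hwK (e ▸ hk))
      (fun e => hwL (e ▸ hl)) (fun e => Finset.disjoint_left.1 hKL hk (e ▸ hl)) hwk hwl)

/-- Thirteen vertices, no triangle and no five independent: a path on seven vertices. -/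
theorem path_thirteen [Fintype V] [DecidableEq V] (ht : TF G H) (hα : alpha G H ≤ 4) (h13 : H.card = 13) :
    HasPath G H 7 := by
  classical
  refine path_of_deg ht hα (Finset.card_pos.1 (by omega)) (fun x hx => ?_) fun C hC hC6 => ?_
  · obtain ⟨U, hU, hUa, hUc⟩ := alpha_outside hx hα
    have := tf_bound 3 U (by omega) fun a b c ha hb hc => ht a b c (hU ha) (hU hb) (hU hc)
    omega
  · have hc : (H \ C).card = 7 := by rw [Finset.card_sdiff_of_subset hC]; omega
    by_contra hlt
    have := clique_le_two ht (Finset.sdiff_subset (s := H) (t := C))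
      (isClique_of_alpha_le_one (show alpha G (H \ C) ≤ 1 by omega))
    omega

/-- A path inside the neighbourhood of `x` closes to a cycle. -/
theorem HasPath.cycle {x : V} {n : ℕ} (h : HasPath G H n) (hx : ∀ y ∈ H, G.Adj x y)
    (hn : 2 ≤ n) : HasCyc G (n + 1) := by
  obtain ⟨f, h1, h2, h3⟩ := h
  have P := Pth.seg (G := G) f (Nat.zero_le (n - 1)) (fun p q _ a b => h2 p q a (by omega))
    fun p _ b => h3 p (by omega)
  have Q := P.snoc (hx _ (h1 (n - 1) (by omega))).symm (by
    rintro ⟨t, ⟨-, ht⟩, e⟩
    exact (hx _ (h1 t (by omega))).ne e.symm)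
  rw [show n - 1 - 0 + 1 + 1 = n + 1 by omega] at Q
  exact Q.cycle (hx _ (h1 0 (by omega))) (by omega)

end Vale.Agent.P048.Full.SFinal
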