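import Vale.Agent.P048.Full.Final
import Vale.Agent.P048.Full.SmallColour
import Vale.Agent.P048.Full.SmallPaths

/-! # The ball argument for cycles on seven to ten vertices

The balls grow as in block Final. For `m ≤ 8` a root with four independent vertices in its closed
neighbourhood exists, since otherwise all degrees are at most seven. In the two cases `(8, 7)` and
`(10, 9)` two vertices at distance `h + 1` are joined by two disjoint shortest paths. -/

namespace Vale.Agent.P048.Full.SFinal

open Finset Final

variable {V : Type} [Fintype V] {G : SimpleGraph V} {m A : ℕ} {v k x : V}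

theorem mem_one : x ∈ ball G v 1 ↔ x = v ∨ G.Adj v x := by
  rw [mem_succ, Final.mem_zero]
  simp [Final.mem_zero]

/-- The bound with three or, for `m ≥ 9`, five in place of `h + 2`. -/
def MTop (G : SimpleGraph V) (m t : ℕ) : Prop :=
  ∀ (X : Finset V) (b : ℕ), 2 ≤ b → b ≤ t → alpha G X ≤ b → X.card ≤ (m - 1) * (b - 1)

theorem mtop_three (h : SBad G m A) : MTop G m 3 := fun X b b2 b3 ha =>
  h.hM.upto3 X b b2 b3 ha (h.hω.mono (Finset.subset_univ X))

theorem mtop_five (h : SBad G m A) (hm : 9 ≤ m) : MTop G m 5 := fun X b b2 b5 ha =>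
  h.hM.upto5 hm X b b2 b5 ha (h.hω.mono (Finset.subset_univ X))

/-- Balls grow by two. -/
theorem step (h : SBad G m A) {t : ℕ} (hM : MTop G m t) (v : V) (j : ℕ)
    (hs : A ≤ 2 * t ∨ alpha G (ball G v j) + 1 ≤ t ∨ A ≤ alpha G (ball G v j) + t) :
    min (alpha G (ball G v j) + 2) A ≤ alpha G (ball G v (j + 1)) := by
  by_contra hlt
  have h1 := alpha_ball_pos (G := G) (v := v) j
  have hsum := outer_add (v := v) h.bad j
  have hc : Fintype.card V = (ball G v (j + 1)).card + (outer G v j).card := card_split j
  have ha2 : 2 ≤ alpha G (ball G v (j + 1)) :=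
    (two_le_first h.bad h.hω).trans (alpha_mono (ball_mono (by omega)))
  have hbig := h.bad.big
  have hlo := h.lo
  have hb := h.bad.small (ball G v (j + 1)) (by omega)
  by_cases hU : alpha G (outer G v j) ≤ 1
  · have hk := h.hω _ (Finset.subset_univ (outer G v j)) (isClique_of_alpha_le_one hU)
    have e := Nat.mul_le_mul_left (m - 1) (show alpha G (ball G v (j + 1)) + 1 ≤ A by omega)
    rw [Nat.mul_add, Nat.mul_one] at e
    omega
  by_cases hle : alpha G (ball G v (j + 1)) ≤ t
  · have hb' := hM (ball G v (j + 1)) _ ha2 hle le_rfl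
    have hu' := h.bad.small (outer G v j) (by omega)
    have e := Nat.mul_le_mul_left (m - 1)
      (show (alpha G (ball G v (j + 1)) - 1) + alpha G (outer G v j) ≤ A by omega)
    rw [Nat.mul_add] at e
    omega
  · have hu := hM (outer G v j) _ (by omega) (by omega) le_rfl
    have e := Nat.mul_le_mul_left (m - 1)
      (show alpha G (ball G v (j + 1)) + (alpha G (outer G v j) - 1) ≤ A by omega)
    rw [Nat.mul_add] at e
    omega

theorem lb (h : SBad G m A) {t : ℕ} (hM : MTop G m t) (hA : A ≤ 2 * t) (v : V) (j : ℕ) :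
    min (2 * j + 1) A ≤ alpha G (ball G v j) := by
  induction j with
  | zero => have := alpha_ball_pos (G := G) (v := v) 0; omega
  | succ j ih => have := step h hM v j (Or.inl hA); omega

theorem three_le_first (h : SBad G m A) (v : V) : 3 ≤ alpha G (ball G v 1) := by
  have := step h (mtop_three h) v 0 (by
    right
    left
    have : alpha G (ball G v 0) ≤ (ball G v 0).card := alpha_le_card _
    simp [ball] at this ⊢
    omega)
  simp only [Nat.zero_add] at this
  have := alpha_ball_pos (G := G) (v := v) 0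
  have := h.hh
  have := h.lo
  omega

theorem no_full (h : SBad G m A) (v : V) (hv : m ≤ 8 → A + 2 ≤ m ∨ 4 ≤ alpha G (star G v))
    (hfull : A ≤ alpha G (ball G v ((m - 1) / 2 - 1))) : False := by
  obtain ⟨k, hk⟩ := sColourPin V G m A h v hv
  have hx := mem_of_full h.bad hfull k
  obtain ⟨w, hw⟩ := exists_walk hx
  have := hk w
  have := h.lo
  omega

/-- The vertices common to a clique `S` hold no triangle when `S` is large. -/
theorem tf_common (h : SBad G m A) {S W : Finset V} (hS : G.IsClique (S : Set V))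
    (hW : ∀ s ∈ S, ∀ y ∈ W, G.Adj s y) (hc : (m - 1) / 2 < S.card + 3) : TF G W := by
  classical
  intro p q r hp hq hr hpq hqr hpr
  have hcl : G.IsClique (({p, q, r} ∪ S : Finset V) : Set V) := by
    intro a ha b hb hab
    simp only [Finset.coe_union, Finset.coe_insert, Finset.coe_singleton, Set.mem_union,
      Set.mem_insert_iff, Set.mem_singleton_iff, Finset.mem_coe] at ha hb
    rcases ha with (rfl | rfl | rfl) | ha <;> rcases hb with (rfl | rfl | rfl) | hb
    all_goals
      first
        | exact absurd rfl hab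
        | exact hS ha hb hab
        | exact hW _ ha _ ‹_›
        | exact (hW _ hb _ ‹_›).symm
        | assumption
        | exact SimpleGraph.Adj.symm (by assumption)
  have := h.hω _ (Finset.subset_univ _) hcl
  rw [Finset.card_union_of_disjoint (Finset.disjoint_left.2 fun y hy hyS => by
      simp only [Finset.mem_insert, Finset.mem_singleton] at hy
      rcases hy with rfl | rfl | rfl
      · exact G.irrefl (hW _ hyS _ hp)
      · exact G.irrefl (hW _ hyS _ hq)
      · exact G.irrefl (hW _ hyS _ hr)),
    Finset.card_insert_of_notMem (by simp [hpq.ne, hpr.ne]), Finset.card_pair hqr.ne] at this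
  omega

/-- A vertex without four independent vertices in its closed neighbourhood has degree at most
seven. -/
theorem low_deg (h : SBad G m A) (hm : m ≤ 8) (hx : alpha G (star G x) ≤ 3) :
    (nb G Finset.univ x).card ≤ 7 := by
  classical
  by_contra hbig
  obtain ⟨W, hW, hWc⟩ := Finset.exists_subset_card_eq (show 8 ≤ (nb G Finset.univ x).card by omega)
  have hadj : ∀ y ∈ W, G.Adj x y := fun y hy => (mem_nb.1 (hW hy)).2
  have htf : TF G W := tf_common h (S := {x}) (by simp) (by simpa using hadj) (by simp; omega)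
  have hα : alpha G W ≤ 3 := le_trans (alpha_mono fun y hy => by simp [star, hadj y hy]) hx
  have hlo := h.lo
  have hcyc := ((path_eight htf hα hWc).mono (show m - 1 ≤ 7 by omega)).cycle hadj (by omega)
  rw [show m - 1 + 1 = m by omega] at hcyc
  exact h.bad.free hcyc

/-- Not all closed neighbourhoods have independence number at most three. -/
theorem exists_high (h : SBad G m A) (hm : m ≤ 8) (hA : 6 ≤ A) :
    ∃ v, 4 ≤ alpha G (star G v) := by
  classical
  by_contra hno
  push Not at hno
  have key : ∀ (c : ℕ) (X : Finset V), alpha G X ≤ c + 3 → X.card ≤ (m - 1) * 2 + 8 * c := by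
    intro c
    induction c with
    | zero =>
      intro X hX
      have := mtop_three h X 3 (by omega) le_rfl hX
      omega
    | succ c ih =>
      intro X hX
      rcases X.eq_empty_or_nonempty with rfl | ⟨x, hx⟩
      · simp
      obtain ⟨U, -, hUa, hUc⟩ := alpha_outside hx hX
      have := ih U (by omega)
      have := low_deg h hm (x := x) (by have := hno x; omega)
      have : (nb G X x).card ≤ (nb G Finset.univ x).card :=
        Finset.card_le_card fun y hy => mem_nb.2 ⟨Finset.mem_univ y, (mem_nb.1 hy).2⟩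
      omega
  have := key (A - 3) Finset.univ (h.bad.hA.trans (by omega))
  rw [Finset.card_univ] at this
  have := h.bad.big
  have := h.lo
  have := h.bad.hAm
  obtain rfl | rfl : m = 7 ∨ m = 8 := by omega
  all_goals obtain rfl | rfl : A = 6 ∨ A = 7 := by omega
  all_goals omega

theorem star_le (v : V) : alpha G (star G v) ≤ alpha G (ball G v 1) :=
  alpha_mono fun y hy => mem_one.2 (by simpa [star] using hy)

open Classical in
/-- A single shortest-path vertex in a layer bounds the two sides. -/
theorem single (h : SBad G m A) {d t s : ℕ} (hfar : k ∉ ball G v d) (hd : t + s = d) {w : V}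
    (hno : ∀ y, y ≠ w → y ∈ ball G v t → y ∉ ball G k (s + 1)) :
    alpha G ((ball G v t).erase w) + alpha G (ball G k s) ≤ A ∧
      alpha G (ball G v t) ≤ alpha G ((ball G v t).erase w) + 1 := by
  refine ⟨le_trans (alpha_add_le (Finset.subset_univ _) (Finset.subset_univ _) ?_ ?_) h.bad.hA, ?_⟩
  · exact Finset.disjoint_left.2 fun y hy hy' =>
      hfar (hd ▸ mem_ball_add (Finset.mem_erase.1 hy).2 hy')
  · intro a ha b hb e
    obtain ⟨haw, hav⟩ := Finset.mem_erase.1 ha
    exact hno a haw hav (mem_succ.2 (Or.inr ⟨b, hb, e.symm⟩))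
  · obtain ⟨S, hS, hSi, hSc⟩ := exists_alpha (G := G) (ball G v t)
    have := le_alpha (G := G) (W := (ball G v t).erase w) (S := S.erase w)
      (Finset.erase_subset_erase w hS)
      (fun a ha b hb => hSi a (Finset.mem_of_mem_erase ha) b (Finset.mem_of_mem_erase hb))
    have := Finset.pred_card_le_card_erase (a := w) (s := S)
    omega

/-- Two shortest-path vertices in every layer give a cycle. -/
theorem cycle_far {d : ℕ} (hd : 1 ≤ d) (hin : k ∈ ball G v (d + 1)) (hfar : k ∉ ball G v d)
    (two : ∀ t w, 1 ≤ t → t ≤ d → ∃ y, y ≠ w ∧ y ∈ ball G v t ∧ y ∈ ball G k (d + 1 - t)) :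
    HasCyc G (2 * d + 2) := by
  let Z : ℕ → V → Prop := fun t y => y ∈ ball G v t ∧ y ∈ ball G k (d + 1 - t)
  have far : ∀ {t s : ℕ} {y : V}, y ∈ ball G v t → y ∈ ball G k s → d < t + s :=
    fun hy hy' => not_le.1 fun hle => hfar (ball_mono hle (mem_ball_add hy hy'))
  have pred : ∀ t y, t < d + 1 → Z (t + 1) y → ∃ z, Z t z ∧ G.Adj z y := by
    rintro t y ht ⟨hy, hy'⟩
    rw [show d + 1 - (t + 1) = d - t by omega] at hy'
    rcases mem_succ.1 hy with hz | ⟨z, hz, e⟩
    · have := far hz hy'
      omega
    · refine ⟨z, ⟨hz, ?_⟩, e⟩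
      rw [show d + 1 - t = d - t + 1 by omega]
      exact mem_succ.2 (Or.inr ⟨y, hy', e.symm⟩)
  have succ : ∀ t y, t < d + 1 → Z t y → ∃ z, Z (t + 1) z ∧ G.Adj y z := by
    rintro t y ht ⟨hy, hy'⟩
    rw [show d + 1 - t = d - t + 1 by omega] at hy'
    rcases mem_succ.1 hy' with hz | ⟨z, hz, e⟩
    · have := far hy hz
      omega
    · exact ⟨z, ⟨mem_succ.2 (Or.inr ⟨y, hy, e.symm⟩),
        by rwa [show d + 1 - (t + 1) = d - t by omega]⟩, e.symm⟩
  obtain ⟨y, -, hy⟩ := two d v hd le_rfl
  obtain ⟨f, g, hf, hg, -, hdis⟩ :=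
    two_paths (Z := Z) (h := d) ⟨Final.mem_zero.2 rfl, mem_symm hin⟩ (fun z hz => Final.mem_zero.1 hz.1)
      (fun t z ht => pred t z (by omega)) (fun t z ht => succ t z (by omega)) two d hd le_rfl y hy
  have last : ∀ z, Z d z → G.Adj z k := by
    intro z hz
    obtain ⟨z', ⟨-, hz'⟩, e⟩ := succ d z (by omega) hz
    rw [show d + 1 - (d + 1) = 0 by omega] at hz'
    exact Final.mem_zero.1 hz' ▸ e
  refine cycle_of_paths hd hf hg ?_ ?_ (last _ (hf.2.1 d le_rfl)).symm (last _ (hg.2.1 d le_rfl))
    hdis
  · rintro i j z hij hj ⟨hz, -⟩ ⟨-, hz'⟩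
    have := far hz hz'
    omega
  · exact fun i hi hz => hfar (ball_mono hi hz.1)

/-- The case of eight vertices and seven independent ones. -/
theorem case_eight (h : SBad G 8 7) : False := by
  classical
  obtain ⟨v, hv⟩ := exists_high h le_rfl (by omega)
  obtain ⟨k, hk⟩ := sColourPin V G 8 7 h v fun _ => Or.inr hv
  have hfar : k ∉ ball G v 3 := fun hx => by
    obtain ⟨w, hw⟩ := exists_walk hx
    have := hk w
    omega
  have M := mtop_three h
  have v1 : 4 ≤ alpha G (ball G v 1) := hv.trans (star_le v)
  have v2 : 6 ≤ alpha G (ball G v 2) := by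
    have := step h M v 1 (Or.inr (Or.inr (by omega)))
    simp only [Nat.reduceAdd] at this
    omega
  have v3 : 7 ≤ alpha G (ball G v 3) := by
    have := step h M v 2 (Or.inr (Or.inr (by omega)))
    simp only [Nat.reduceAdd] at this
    omega
  have hin : k ∈ ball G v 4 := mem_of_full h.bad v3 k
  have k1 := three_le_first h k
  have k2 : 5 ≤ alpha G (ball G k 2) := by
    by_cases hh : 4 ≤ alpha G (star G k)
    · have := hh.trans (star_le k)
      have := step h M k 1 (Or.inr (Or.inr (by omega)))
      simp only [Nat.reduceAdd] at this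
      omega
    by_contra hlt
    have hb : (ball G k 2).card ≤ 22 := by
      obtain ⟨U, -, hUa, hUc⟩ := alpha_outside (G := G) (b := 4)
        (ball_mono (Nat.zero_le 2) (Final.mem_zero.2 rfl) : k ∈ ball G k 2) (by omega)
      have := M U 3 (by omega) le_rfl (by omega)
      have := low_deg h le_rfl (x := k) (by omega)
      have : (nb G (ball G k 2) k).card ≤ (nb G Finset.univ k).card :=
        Finset.card_le_card fun y hy => mem_nb.2 ⟨Finset.mem_univ y, (mem_nb.1 hy).2⟩
      omega
    have ho : (outer G k 1).card ≤ 27 := by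
      rcases (outer G k 1).eq_empty_or_nonempty with e | ⟨u, hu⟩
      · simp [e]
      have hα : alpha G (outer G k 1) ≤ 4 := by
        have := outer_add (v := k) h.bad 1
        omega
      obtain ⟨U, -, hUa, hUc⟩ := alpha_outside hu hα
      have := M U 3 (by omega) le_rfl (by omega)
      by_contra hbig
      obtain ⟨W, hW, hWc⟩ :=
        Finset.exists_subset_card_eq (show 13 ≤ (nb G (outer G k 1) u).card by omega)
      have hadj : ∀ y ∈ W, G.Adj u y := fun y hy => (mem_nb.1 (hW hy)).2
      exact h.bad.free ((path_thirteen (tf_common h (S := {u}) (by simp) (by simpa using hadj)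
        (by simp)) ((alpha_mono fun y hy => (mem_nb.1 (hW hy)).1).trans hα) hWc).cycle hadj
        (by omega))
    have := card_split (G := G) (v := k) 1
    simp only [Nat.reduceAdd] at this
    have := h.bad.big
    omega
  refine h.bad.free (cycle_far (d := 3) (by omega) hin hfar fun t w ht1 ht => ?_)
  by_contra hno
  push Not at hno
  obtain rfl | rfl | rfl : t = 1 ∨ t = 2 ∨ t = 3 := by omega
  · have := single h (t := 1) (s := 2) hfar rfl hno
    omega
  · have := single h (t := 2) (s := 1) hfar rfl hno
    omega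
  · have := single h (v := k) (k := v) (t := 1) (s := 2) (fun e => hfar (mem_symm e)) rfl
      (w := w) fun y hy hy1 hy2 => hno y hy hy2 hy1
    omega

omit [Fintype V] in
/-- A periodic sequence around `v` gives paths of all orders between two of its members. -/
theorem rim_path {f : ℕ → V} {X : Finset V} (hf : ∀ i, f (i % 8) = f i)
    (hinj : ∀ i j, i < j → j < 8 → f i ≠ f j) (hadj : ∀ i, G.Adj (f i) (f (i + 1)))
    (hX : ∀ i, f i ∈ X) (hvX : v ∈ X) (hv : ∀ i, G.Adj v (f i)) {a b n : ℕ} (ha : a < 8)
    (hb : b < 8) (hab : a ≠ b) (h3 : 3 ≤ n) (h9 : n ≤ 9) : Pth G (f a) (f b) n (X : Set V) := by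
  obtain ⟨d, hd1, hd7, hdb⟩ : ∃ d, 1 ≤ d ∧ d ≤ 7 ∧ (a + d) % 8 = b :=
    ⟨(b + 8 - a) % 8, by omega, by omega, by omega⟩
  obtain ⟨p, q, hp, hq, hpd, hqd, hpq⟩ :
      ∃ p q, 1 ≤ p ∧ 1 ≤ q ∧ p + d ≤ 8 ∧ q ≤ d ∧ p + q + 1 = n := by
    by_cases c : d + 2 ≤ n
    · exact ⟨n - 1 - d, d, by omega, by omega, by omega, le_rfl, by omega⟩
    · exact ⟨1, n - 2, le_rfl, by omega, by omega, by omega, by omega⟩
  let P : ℕ → V := fun i =>
    if i < p then f (a + (8 - i)) else if i = p then v else f (a + (d + i + 1 - n))
  have ne : ∀ i j, 1 ≤ i → i ≤ 8 → 1 ≤ j → j ≤ 8 → i ≠ j → f (a + i) ≠ f (a + j) := by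
    intro i j i1 i8 j1 j8 hij e
    rw [← hf (a + i), ← hf (a + j)] at e
    rcases Nat.lt_trichotomy ((a + i) % 8) ((a + j) % 8) with c | c | c
    · exact hinj _ _ c (Nat.mod_lt _ (by omega)) e
    · omega
    · exact hinj _ _ c (Nat.mod_lt _ (by omega)) e.symm
  have inj : ∀ i j, 0 ≤ i → i < j → j ≤ n - 1 → P i ≠ P j := by
    intro i j _ hij hj
    simp only [P]
    split_ifs
    all_goals
      first
        | omega
        | exact (hv _).ne
        | exact (hv _).ne'
        | exact ne _ _ (by omega) (by omega) (by omega) (by omega) (by omega)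
  have adj : ∀ i, 0 ≤ i → i < n - 1 → G.Adj (P i) (P (i + 1)) := by
    intro i _ hi
    simp only [P]
    split_ifs
    all_goals
      first
        | omega
        | exact hv _
        | exact (hv _).symm
        | (have hh := (hadj (a + (8 - (i + 1)))).symm
           rw [show a + (8 - (i + 1)) + 1 = a + (8 - i) by omega] at hh
           exact hh)
        | (have hh := hadj (a + (d + i + 1 - n))
           rw [show a + (d + i + 1 - n) + 1 = a + (d + (i + 1) + 1 - n) by omega] at hh
           exact hh)
  have R := Pth.seg (G := G) P (Nat.zero_le (n - 1)) inj adj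
  have e1 : P 0 = f a := by
    simp only [P, if_pos (show 0 < p by omega)]
    rw [← hf, show (a + (8 - 0)) % 8 = a by omega]
  have e2 : P (n - 1) = f b := by
    simp only [P, if_neg (show ¬n - 1 < p by omega), if_neg (show n - 1 ≠ p by omega)]
    rw [← hf, show (a + (d + (n - 1) + 1 - n)) % 8 = b by
      rw [show d + (n - 1) + 1 - n = d by omega]; exact hdb]
  rw [e1, e2, show n - 1 - 0 + 1 = n by omega] at R
  refine R.mono ?_
  rintro _ ⟨i, -, rfl⟩
  simp only [P]
  split_ifs
  · exact hX _
  · exact hvX
  · exact hX _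

open Classical in
/-- Ten vertices, nine independent ones: no vertex has all but one of its closed neighbourhood
of independence number two. -/
theorem first_layer (h : SBad G 10 9) (v w : V)
    (hX : alpha G ((ball G v 1).erase w) ≤ 2) : False := by
  have s1 := three_le_first h v
  have hwv : w ≠ v := by
    rintro rfl
    obtain ⟨S, hS, hSi, hSc⟩ := exists_alpha (G := G) (ball G w 1)
    have hwS : w ∉ S := fun hw => by
      obtain ⟨y, hy, hne⟩ := Finset.exists_mem_ne (show 1 < S.card by omega) w
      exact hSi w hw y hy ((mem_one.1 (hS hy)).resolve_left hne)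
    have := le_alpha (G := G) (W := (ball G w 1).erase w)
      (fun y hy => Finset.mem_erase.2 ⟨fun e => hwS (e ▸ hy), hS hy⟩) hSi
    omega
  set X := (ball G v 1).erase w with hXdef
  have hvX : v ∈ X := Finset.mem_erase.2 ⟨Ne.symm hwv, mem_one.2 (Or.inl rfl)⟩
  have hXv : ∀ y ∈ X, y ≠ v → G.Adj v y := fun y hy hne =>
    (mem_one.1 (Finset.mem_erase.1 hy).2).resolve_left hne
  have x9 := a2Pin V G 10 4 X (by omega) h.bad.free hX (h.hω.mono (Finset.subset_univ X))
  have hsum := outer_add (v := v) h.bad 0
  have := alpha_ball_pos (G := G) (v := v) 0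
  have ho := (h.bad.small (outer G v 0) (by omega)).trans
    (Nat.mul_le_mul_left _ (show alpha G (outer G v 0) ≤ 8 by omega))
  have hc : Fintype.card V = (ball G v 1).card + (outer G v 0).card := card_split 0
  have hbig := h.bad.big
  have hB : (ball G v 1).card ≤ X.card + 1 := by
    have := Finset.pred_card_le_card_erase (a := w) (s := ball G v 1)
    rw [← hXdef] at this
    omega
  have hX9 : X.card = 9 := by omega
  set H := X.erase v with hHdef
  have hH8 : H.card = 8 := by rw [hHdef, Finset.card_erase_of_mem hvX, hX9]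
  have hHX : H ⊆ X := Finset.erase_subset _ _
  have hvH : ∀ y ∈ H, G.Adj v y := fun y hy =>
    hXv y (hHX hy) (Finset.mem_erase.1 hy).1
  obtain ⟨f, f1, f2, f3, f4, f5⟩ : ∃ f : ℕ → V, (∀ i, f i ∈ H) ∧ (∀ i, f (i % 8) = f i) ∧
      (∀ i j, i < j → j < 8 → f i ≠ f j) ∧ (∀ i, G.Adj (f i) (f (i + 1))) ∧
      ∀ y ∈ H, ∃ i, i < 8 ∧ f i = y := by
    rcases ham_or_split H ((alpha_mono hHX).trans hX) (by omega) with hh | hh
    · simpa only [hH8] using ham_fun hh (by omega)
    exfalso
    obtain ⟨z, K, L, hz, hK, hL, hzK, hzL, hKL, hcov, -, -, cK, cL, -⟩ := hh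
    have cl : ∀ K : Finset V, K ⊆ H → G.IsClique (K : Set V) → K.card ≤ 3 := by
      intro K hK cK
      have := h.hω (insert v K) (Finset.subset_univ _) (by
        rw [Finset.coe_insert]
        exact cK.insert fun y hy _ => hvH y (hK hy))
      rw [Finset.card_insert_of_notMem fun e => (Finset.mem_erase.1 (hK e)).1 rfl] at this
      omega
    have : H.card ≤ (insert z (K ∪ L)).card := Finset.card_le_card fun y hy => by
      simp only [Finset.mem_insert, Finset.mem_union]
      exact hcov y hy
    have := Finset.card_insert_le z (K ∪ L)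
    have := Finset.card_union_le K L
    have := cl K hK cK
    have := cl L hL cL
    omega
  have path : ∀ u ∈ H, ∀ u' ∈ H, u ≠ u' → ∀ n, 3 ≤ n → n ≤ 9 → Pth G u u' n (X : Set V) := by
    intro u hu u' hu' hne n h3 h9
    obtain ⟨a, ha, rfl⟩ := f5 u hu
    obtain ⟨b, hb, rfl⟩ := f5 u' hu'
    exact rim_path f2 f3 f4 (fun i => hHX (f1 i)) hvX (fun i => hvH _ (f1 i)) ha hb
      (fun e => hne (e ▸ rfl)) h3 h9
  let P : V → Finset V := fun u => nb G Finset.univ u \ ball G v 1
  have hP : ∀ {u y : V}, y ∈ P u → G.Adj u y ∧ y ∉ ball G v 1 ∧ y ∉ X := fun {u y} hy => by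
    obtain ⟨y1, y2⟩ := Finset.mem_sdiff.1 hy
    exact ⟨(mem_nb.1 y1).2, y2, fun e => y2 (Finset.mem_erase.1 e).2⟩
  have pne : ∀ u ∈ H, (P u).Nonempty := by
    intro u hu
    have h1 := h.bad.deg_ge u
    have h2 : (nb G H u).card ≤ 5 := tf_alpha_two
      ((alpha_mono fun y hy => hHX (mem_nb.1 hy).1).trans hX)
      (tf_common h (S := {v, u})
        (by rw [Finset.coe_pair, SimpleGraph.isClique_pair]; exact fun _ => hvH u hu)
        (fun s hs y hy => by
          simp only [Finset.mem_insert, Finset.mem_singleton] at hs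
          rcases hs with rfl | rfl
          · exact hvH y (mem_nb.1 hy).1
          · exact (mem_nb.1 hy).2)
        (by rw [Finset.card_pair (hvH u hu).ne]; norm_num))
    have h3 : (nb G Finset.univ u).card ≤ (P u ∪ insert v (insert w (nb G H u))).card := by
      refine Finset.card_le_card fun y hy => ?_
      by_cases hyB : y ∈ ball G v 1
      · refine Finset.mem_union_right _ ?_
        simp only [Finset.mem_insert, mem_nb, H, X, Finset.mem_erase]
        have := (mem_nb.1 hy).2
        tauto
      · exact Finset.mem_union_left _ (Finset.mem_sdiff.2 ⟨hy, hyB⟩)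
    have := Finset.card_union_le (P u) (insert v (insert w (nb G H u)))
    have := Finset.card_insert_le v (insert w (nb G H u))
    have := Finset.card_insert_le w (nb G H u)
    exact Finset.card_pos.1 (by omega)
  choose! r hr using pne
  -- two classes are disjoint and without edges between them
  have sep : ∀ u ∈ H, ∀ u' ∈ H, u ≠ u' → ∀ y ∈ P u, ∀ y' ∈ P u', y ≠ y' ∧ ¬G.Adj y y' := by
    intro u hu u' hu' hne y hy y' hy'
    obtain ⟨yu, -, yX⟩ := hP hy
    obtain ⟨yu', -, yX'⟩ := hP hy'
    refine ⟨fun e => ?_, fun e => ?_⟩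
    · subst e
      exact h.bad.free (((path u hu u' hu' hne 9 (by omega) le_rfl).snoc yu' yX).cycle yu.symm
        (by omega))
    · refine h.bad.free ((((path u hu u' hu' hne 8 (by omega) (by omega)).snoc yu' yX').snoc e.symm
        ?_).cycle yu.symm (by omega))
      simp only [Set.mem_union, Set.mem_singleton_iff, Finset.mem_coe, not_or]
      exact ⟨yX, e.ne⟩
  let C : V → Finset V := fun u => Finset.univ.filter fun z =>
    z ∉ ball G v 1 ∧ ∀ p ∈ P u, p ≠ z → G.Adj z p
  have apart : ∀ u ∈ H, ∀ u' ∈ H, u ≠ u' → ∀ z ∈ C u, ∀ y ∈ P u', z ≠ y ∧ ¬G.Adj z y := by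
    intro u hu u' hu' hne z hz y hy
    obtain ⟨-, hzB, hzP⟩ := Finset.mem_filter.1 hz
    obtain ⟨hyp, hnp⟩ := sep u hu u' hu' hne (r u) (hr u hu) y hy
    by_cases hzr : z = r u
    · exact hzr ▸ ⟨hyp, hnp⟩
    have hza := hzP (r u) (hr u hu) (Ne.symm hzr)
    have hzy : z ≠ y := fun e => hnp (e ▸ hza).symm
    refine ⟨hzy, fun e => ?_⟩
    obtain ⟨yu, -, yX⟩ := hP hy
    obtain ⟨ru, -, rX⟩ := hP (hr u hu)
    have zX : z ∉ X := fun e => hzB (Finset.mem_erase.1 e).2
    refine h.bad.free (((((path u hu u' hu' hne 7 (by omega) (by omega)).snoc yu yX).snoc e.symm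
      ?_).snoc hza ?_).cycle ru.symm (by omega))
    · simp only [Set.mem_union, Set.mem_singleton_iff, Finset.mem_coe, not_or]
      exact ⟨zX, hzy⟩
    · simp only [Set.mem_union, Set.mem_singleton_iff, Finset.mem_coe, not_or]
      exact ⟨⟨rX, hyp⟩, Ne.symm hzr⟩
  -- ten independent vertices
  have ten : ∀ (T J : Finset V) (q : V → V), J ⊆ H → (∀ u ∈ J, q u ∈ P u) → Indep G T →
      (∀ t ∈ T, ∀ u ∈ J, t ≠ q u ∧ ¬G.Adj t (q u)) → v ∉ T → (∀ t ∈ T, t ∉ ball G v 1) →
      9 ≤ T.card + J.card → False := by
    intro T J q hJ hq hT hTq hvT hTB hcard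
    have hi : Indep G (J.image q) := by
      intro a ha b hb
      obtain ⟨u, hu, rfl⟩ := Finset.mem_image.1 ha
      obtain ⟨u', hu', rfl⟩ := Finset.mem_image.1 hb
      by_cases e : u = u'
      · subst e
        exact G.irrefl
      · exact (sep u (hJ hu) u' (hJ hu') e _ (hq u hu) _ (hq u' hu')).2
    have hic : (J.image q).card = J.card := Finset.card_image_of_injOn fun a ha b hb e => by
      by_contra hne
      exact (sep a (hJ ha) b (hJ hb) hne _ (hq a ha) _ (hq b hb)).1 e
    have hd : Disjoint T (J.image q) := Finset.disjoint_left.2 fun t ht ht' => by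
      obtain ⟨u, hu, e⟩ := Finset.mem_image.1 ht'
      exact (hTq t ht u hu).1 e.symm
    have hout : ∀ y ∈ T ∪ J.image q, y ∉ ball G v 1 := fun y hy => by
      rcases Finset.mem_union.1 hy with hy | hy
      · exact hTB y hy
      · obtain ⟨u, hu, rfl⟩ := Finset.mem_image.1 hy
        exact (hP (hq u hu)).2.1
    have hall : Indep G ({v} ∪ (T ∪ J.image q)) :=
      (Indep.singleton v).union (hT.union hi fun a ha b hb => by
        obtain ⟨u, hu, rfl⟩ := Finset.mem_image.1 hb
        exact (hTq a ha u hu).2) fun a ha b hb => by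
          rw [Finset.mem_singleton] at ha
          subst ha
          exact fun e => hout b hb (mem_one.2 (Or.inr e))
    have := (le_alpha (G := G) (Finset.subset_univ _) hall).trans h.bad.hA
    rw [Finset.card_union_of_disjoint (Finset.disjoint_singleton_left.2 fun e =>
        hout v e (mem_one.2 (Or.inl rfl))), Finset.card_union_of_disjoint hd, hic,
      Finset.card_singleton] at this
    omega
  have ccl : ∀ u ∈ H, (C u).card ≤ 4 := by
    intro u hu
    refine h.hω (C u) (Finset.subset_univ _) fun z hz z' hz' hne => ?_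
    by_contra hn
    have hzB := (Finset.mem_filter.1 hz).2.1
    have hzB' := (Finset.mem_filter.1 hz').2.1
    refine ten {z, z'} (H.erase u) r (Finset.erase_subset _ _)
      (fun a ha => hr a (Finset.mem_of_mem_erase ha)) (Indep.pair hn) (fun t ht a ha => ?_)
      (fun e => ?_) (fun t ht => ?_) ?_
    · obtain ⟨hau, haH⟩ := Finset.mem_erase.1 ha
      simp only [Finset.mem_insert, Finset.mem_singleton] at ht
      rcases ht with rfl | rfl
      · exact apart u hu a haH (Ne.symm hau) _ hz _ (hr a haH)
      · exact apart u hu a haH (Ne.symm hau) _ hz' _ (hr a haH)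
    · simp only [Finset.mem_insert, Finset.mem_singleton] at e
      rcases e with rfl | rfl
      · exact hzB (mem_one.2 (Or.inl rfl))
      · exact hzB' (mem_one.2 (Or.inl rfl))
    · simp only [Finset.mem_insert, Finset.mem_singleton] at ht
      rcases ht with rfl | rfl <;> assumption
    · rw [Finset.card_pair hne, Finset.card_erase_of_mem hu]
      omega
  have cover : Finset.univ ⊆ ball G v 1 ∪ H.biUnion C := by
    intro z _
    by_cases hzB : z ∈ ball G v 1
    · exact Finset.mem_union_left _ hzB
    refine Finset.mem_union_right _ (Finset.mem_biUnion.2 ?_)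
    by_contra hno
    push Not at hno
    have hno' : ∀ u ∈ H, ∃ p, p ∈ P u ∧ p ≠ z ∧ ¬G.Adj z p := fun u hu => by
      by_contra hn
      push Not at hn
      exact hno u hu (Finset.mem_filter.2 ⟨Finset.mem_univ z, hzB, hn⟩)
    choose! q hq using hno'
    refine ten {z} H q subset_rfl (fun u hu => (hq u hu).1) (Indep.singleton z)
      (fun t ht u hu => ?_) (fun e => ?_) (fun t ht => ?_) ?_
    · rw [Finset.mem_singleton] at ht
      exact ht ▸ ⟨(hq u hu).2.1.symm, (hq u hu).2.2⟩
    · rw [Finset.mem_singleton] at e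
      exact hzB (mem_one.2 (Or.inl e.symm))
    · rw [Finset.mem_singleton] at ht
      exact ht ▸ hzB
    · rw [Finset.card_singleton, hH8]
  have := Finset.card_le_card cover
  have := Finset.card_union_le (ball G v 1) (H.biUnion C)
  have := Finset.card_biUnion_le_card_mul H C 4 ccl
  rw [Finset.card_univ] at *
  omega

/-- The case of ten vertices and nine independent ones. -/
theorem case_ten (h : SBad G 10 9) : False := by
  classical
  obtain ⟨v⟩ : Nonempty V := Fintype.card_pos_iff.1 (by have := h.bad.big; omega)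
  obtain ⟨k, hk⟩ := sColourPin V G 10 9 h v (by omega)
  have hfar : k ∉ ball G v 4 := fun hx => by
    obtain ⟨w, hw⟩ := exists_walk hx
    have := hk w
    omega
  have M := mtop_five h (by omega)
  have l1 : ∀ u : V, 3 ≤ alpha G (ball G u 1) := three_le_first h
  have l2 : ∀ u : V, 5 ≤ alpha G (ball G u 2) := fun u => by
    have := lb h M (by omega) u 2
    omega
  have l3 : ∀ u : V, 7 ≤ alpha G (ball G u 3) := fun u => by
    have := lb h M (by omega) u 3
    omega
  have l4 := lb h M (by omega) v 4
  have hin : k ∈ ball G v 5 := mem_of_full h.bad (by omega) k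
  -- the two middle layers
  have mid : ∀ a b : V, b ∉ ball G a 4 → ∀ w, ∃ y, y ≠ w ∧ y ∈ ball G a 2 ∧ y ∈ ball G b 3 := by
    intro a b hab w
    by_contra hno
    push Not at hno
    obtain ⟨h1, -⟩ := single h (t := 2) (s := 2) hab rfl hno
    have := l2 b
    have h26 := h.hM.four (by omega) ((ball G a 2).erase w) (by omega)
      (h.hω.mono (Finset.subset_univ _))
    have := Finset.pred_card_le_card_erase (a := w) (s := ball G a 2)
    have := outer_add (v := a) h.bad 1
    have := l1 a
    have := (h.bad.small (outer G a 1) (by omega)).trans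
      (Nat.mul_le_mul_left _ (show alpha G (outer G a 1) ≤ 6 by omega))
    have := card_split (G := G) (v := a) 1
    simp only [Nat.reduceAdd] at this
    have := h.bad.big
    omega
  have fst : ∀ a b : V, b ∉ ball G a 4 → ∀ w, ∃ y, y ≠ w ∧ y ∈ ball G a 1 ∧ y ∈ ball G b 4 := by
    intro a b hab w
    by_contra hno
    push Not at hno
    obtain ⟨h1, -⟩ := single h (t := 1) (s := 3) hab rfl hno
    have := l3 b
    exact first_layer h a w (by omega)
  refine h.bad.free (cycle_far (d := 4) (by omega) hin hfar fun t w ht1 ht => ?_)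
  have hback : v ∉ ball G k 4 := fun e => hfar (mem_symm e)
  obtain rfl | rfl | rfl | rfl : t = 1 ∨ t = 2 ∨ t = 3 ∨ t = 4 := by omega
  · exact fst v k hfar w
  · exact mid v k hfar w
  · obtain ⟨y, y1, y2, y3⟩ := mid k v hback w
    exact ⟨y, y1, y3, y2⟩
  · obtain ⟨y, y1, y2, y3⟩ := fst k v hback w
    exact ⟨y, y1, y3, y2⟩

end Vale.Agent.P048.Full.SFinal

namespace Vale.Agent.P048.Full

open SFinal Final

/-- There is no smallest counterexample for `7 ≤ m ≤ 10` above half of `m`. -/
theorem SBad.false {V : Type} [Fintype V] {G : SimpleGraph V} {m A : ℕ} (h : SBad G m A) :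
    False := by
  classical
  have hlo := h.lo
  have hhi := h.hi
  have hh := h.hh
  have hAm := h.bad.hAm
  have hbig := h.bad.big
  obtain ⟨v⟩ : Nonempty V := Fintype.card_pos_iff.1 (by omega)
  by_cases hm : m ≤ 8
  · have M := mtop_three h
    by_cases hA : A ≤ 5
    · have := lb h M (by omega) v ((m - 1) / 2 - 1)
      exact no_full h v (fun _ => Or.inl (by omega)) (by omega)
    by_cases hA7 : A = 7
    · obtain rfl : m = 8 := by omega
      subst hA7
      exact case_eight h
    obtain ⟨u, hu⟩ := exists_high h hm (by omega)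
    have := hu.trans (star_le u)
    have := step h M u 1 (Or.inl (by omega))
    simp only [Nat.reduceAdd] at this
    refine no_full h u (fun _ => Or.inr hu) ?_
    rw [show (m - 1) / 2 - 1 = 2 by omega]
    omega
  have M := mtop_five h (by omega)
  by_cases hA : A ≤ 7
  · have := lb h M (by omega) v ((m - 1) / 2 - 1)
    exact no_full h v (fun e => absurd e hm) (by omega)
  by_cases hA9 : A = 9
  · obtain rfl : m = 10 := by omega
    subst hA9
    exact case_ten h
  obtain rfl : A = 8 := by omega
  refine no_full h v (fun e => absurd e hm) ?_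
  rw [show (m - 1) / 2 - 1 = 3 by omega]
  have s1 := three_le_first h v
  suffices s2 : 6 ≤ alpha G (ball G v 2) by
    have := step h M v 2 (Or.inl (by omega))
    simp only [Nat.reduceAdd] at this
    omega
  by_contra hlt
  have hsum := outer_add (v := v) h.bad 1
  have ha2 : 2 ≤ alpha G (ball G v 2) :=
    (two_le_first h.bad h.hω).trans (alpha_mono (ball_mono (by omega)))
  have hb := (M (ball G v 2) _ ha2 (by omega) le_rfl).trans
    (Nat.mul_le_mul_left _ (show alpha G (ball G v 2) - 1 ≤ 4 by omega))
  have hu := M (outer G v 1) 5 (by omega) le_rfl (by omega)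
  have := card_split (G := G) (v := v) 1
  simp only [Nat.reduceAdd] at this
  omega

end Vale.Agent.P048.Full
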