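import Vale.Agent.P048.Full.A2
import Vale.Agent.P048.Full.M
import Vale.Agent.P048.Full.Small4
import Vale.Agent.P048.Full.Small5
import Vale.Agent.P048.Full.Small6
import Vale.Agent.P048.Full.SmallFinal
import Vale.Agent.P048.Full.SClash.Nine

/-! # Block Small: cycles on at most ten vertices -/

namespace Vale.Agent.P048.Full

/-- Block Small, given that cycles on seven to ten vertices exclude large cliques. -/
theorem smallPin_of (pC : SClashPin) : SmallPin := by
  intro V _ G m A h hm
  have h4 := h.hm
  by_cases hA : 2 * A + 1 ≤ m
  · exact h.false_le_half hA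
  by_cases hm7 : m ≤ 6
  · obtain rfl | rfl | rfl : m = 4 ∨ m = 5 ∨ m = 6 := by omega
    · exact h.false_four
    · exact Five.false_five h
    · exact Six.false_six h
  exact SBad.false
    ⟨h, by omega, hm, by omega, pC V G m A h (by omega) hm (by omega),
      sMPin a2Pin V G m (by omega) hm h.free⟩

/-- Block Small. -/
theorem smallPin : SmallPin := smallPin_of sClashPin

end Vale.Agent.P048.Full
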