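import Vale.Agent.P048.Full.SmallCore

/-! # The six cycle: five vertices joined by paths of every order -/

namespace Vale.Agent.P048.Full.Six

open Finset

variable {V : Type} {G : SimpleGraph V} {A : ℕ} {a b c d e p q w x y : V} {S : Set V}

theorem mk3 (hab : G.Adj a b) (hbc : G.Adj b c) (hac : a ≠ c) (ha : a ∈ S) (hb : b ∈ S)
    (hc : c ∈ S) : Pth G a c 3 S := by
  refine (((Pth.single a).snoc hab ?_).snoc hbc ?_).mono ?_
  · simpa using hab.ne'
  · simpa [hac.symm] using hbc.ne'
  · simp [Set.insert_subset_iff, ha, hb, hc]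

theorem mk4 (hab : G.Adj a b) (hbc : G.Adj b c) (hcd : G.Adj c d) (hac : a ≠ c) (hbd : b ≠ d)
    (had : a ≠ d) (ha : a ∈ S) (hb : b ∈ S) (hc : c ∈ S) (hd : d ∈ S) : Pth G a d 4 S := by
  refine ((((Pth.single a).snoc hab ?_).snoc hbc ?_).snoc hcd ?_).mono ?_
  · simpa using hab.ne'
  · simpa [hac.symm] using hbc.ne'
  · simpa [hbd.symm, had.symm] using hcd.ne'
  · simp [Set.insert_subset_iff, ha, hb, hc, hd]

theorem mk5 (hab : G.Adj a b) (hbc : G.Adj b c) (hcd : G.Adj c d) (hde : G.Adj d e) (hac : a ≠ c)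
    (had : a ≠ d) (hae : a ≠ e) (hbd : b ≠ d) (hbe : b ≠ e) (hce : c ≠ e)
    (ha : a ∈ S) (hb : b ∈ S) (hc : c ∈ S) (hd : d ∈ S) (he : e ∈ S) : Pth G a e 5 S := by
  refine (((((Pth.single a).snoc hab ?_).snoc hbc ?_).snoc hcd ?_).snoc hde ?_).mono ?_
  · simpa using hab.ne'
  · simpa [hac.symm] using hbc.ne'
  · simpa [hbd.symm, had.symm] using hcd.ne'
  · simpa [hce.symm, hbe.symm, hae.symm] using hde.ne'
  · simp [Set.insert_subset_iff, ha, hb, hc, hd, he]

/-- A path and a common outside neighbour of its ends. -/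
theorem close_one (hfree : ¬HasCyc G 6) (P : Pth G x y 5 S) (hp : p ∉ S) (hxp : G.Adj x p) :
    ¬G.Adj y p := fun e => hfree ((P.snoc e hp).cycle hxp.symm (by norm_num))

/-- A path and two adjacent outside neighbours of its ends. -/
theorem close_two (hfree : ¬HasCyc G 6) (P : Pth G x y 4 S) (hp : p ∉ S) (hq : q ∉ S)
    (hxp : G.Adj x p) (hyq : G.Adj y q) : ¬G.Adj p q := fun e =>
  hfree (((P.snoc hyq hq).snoc e.symm (by simp [hp, e.ne])).cycle hxp.symm (by norm_num))

/-- A path and an outside path on three vertices between neighbours of its ends. -/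
theorem close_three (hfree : ¬HasCyc G 6) (P : Pth G x y 3 S) (hp : p ∉ S) (hq : q ∉ S)
    (hw : w ∉ S) (hpq : p ≠ q) (hxp : G.Adj x p) (hyq : G.Adj y q) (hwp : G.Adj w p) :
    ¬G.Adj w q := fun e =>
  hfree ((((P.snoc hyq hq).snoc e.symm (by simp [hw, e.ne])).snoc hwp
    (by simp [hp, hwp.ne', hpq])).cycle hxp.symm (by norm_num))

variable [Fintype V]

/-- Five vertices with pairwise disjoint outside neighbourhoods and joined by paths of order three
and four exclude a counterexample. -/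
theorem five_core (h : Bad G 6 A) (X : Finset V) (hX : X.card = 5)
    (dis : ∀ x ∈ X, ∀ y ∈ X, x ≠ y → ∀ p, p ∉ X → G.Adj x p → ¬G.Adj y p)
    (four : ∀ x ∈ X, ∀ y ∈ X, x ≠ y → Pth G x y 4 (X : Set V))
    (three : ∀ x ∈ X, ∀ y ∈ X, x ≠ y → Pth G x y 3 (X : Set V)) : False := by
  classical
  have hA := h.hAm
  have hbig := h.big
  have pick : ∀ x ∈ X, ∃ p, p ∈ out G x X := fun x hx => by
    obtain ⟨p, h1, h2⟩ := h.exists_out x (X.erase x) (by
      rw [Finset.card_erase_of_mem hx]
      omega)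
    exact ⟨p, mem_out.2 ⟨h1, fun hp => h2 (Finset.mem_erase.2 ⟨h1.ne', hp⟩)⟩⟩
  choose f hf using pick
  have sep : ∀ x ∈ X, ∀ y ∈ X, x ≠ y → ∀ p ∈ out G x X, ∀ q ∈ out G y X,
      p ≠ q ∧ ¬G.Adj p q := by
    intro x hx y hy hxy p hp q hq
    rw [mem_out] at hp hq
    exact ⟨fun e => dis x hx y hy hxy p hp.2 hp.1 (e ▸ hq.1),
      close_two h.free (four x hx y hy hxy) hp.2 hq.2 hp.1 hq.1⟩
  set R : Finset V → Finset V := fun Y => Y.attach.image fun y =>
    if hy : y.1 ∈ X then f y.1 hy else y.1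
  have memR : ∀ Y ⊆ X, ∀ r ∈ R Y, ∃ y ∈ Y, ∃ hy : y ∈ X, r = f y hy := fun Y hY r hr => by
    simp only [R, Finset.mem_image, Finset.mem_attach, true_and] at hr
    obtain ⟨⟨y, hy⟩, rfl⟩ := hr
    exact ⟨y, hy, hY hy, by simp [hY hy]⟩
  have hR : ∀ Y ⊆ X, Y.card ≤ alpha G (R Y) := fun Y hY => by
    refine le_trans (le_of_eq ?_) (le_alpha (S := R Y) (Finset.Subset.refl _) ?_)
    · rw [Finset.card_image_of_injective _ ?_, Finset.card_attach]
      intro y z e
      simp only [hY y.2, hY z.2, dif_pos] at e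
      by_contra hne
      exact (sep y.1 (hY y.2) z.1 (hY z.2) (fun e' => hne (Subtype.ext e')) _ (hf y.1 (hY y.2)) _
        (hf z.1 (hY z.2))).1 e
    · intro r hr r' hr' e
      obtain ⟨y, -, hy, rfl⟩ := memR Y hY r hr
      obtain ⟨z, -, hz, rfl⟩ := memR Y hY r' hr'
      by_cases hyz : y = z
      · subst hyz
        exact G.irrefl e
      · exact (sep y hy z hz hyz _ (hf y hy) _ (hf z hz)).2 e
  have add : ∀ (Y : Finset V), Y ⊆ X → ∀ U : Finset V,
      (∀ y ∈ Y, ∀ hy : y ∈ X, ∀ u ∈ U, u ≠ f y hy ∧ ¬G.Adj u (f y hy)) →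
      alpha G U + Y.card ≤ A := fun Y hY U hU => by
    have := (alpha_add_le (G := G) (Finset.subset_univ U) (Finset.subset_univ (R Y))
      (Finset.disjoint_left.2 fun u hu hr => by
        obtain ⟨y, hy', hy, rfl⟩ := memR Y hY u hr
        exact (hU y hy' hy _ hu).1 rfl)
      (fun u hu r hr => by
        obtain ⟨y, hy', hy, rfl⟩ := memR Y hY r hr
        exact (hU y hy' hy u hu).2)).trans h.hA
    have := hR Y hY
    omega
  have hA5 : A = 5 := by
    have := add X le_rfl ∅ (fun _ _ _ u hu => absurd hu (Finset.notMem_empty u))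
    omega
  have size : ∀ x ∈ X, (out G x X).card ≤ 4 := fun x hx => by
    by_contra hbig'
    refine h.free (clique_cycle (K := insert x (out G x X)) ?_ (by norm_num) ?_)
    · have hc : G.IsClique (out G x X : Set V) := by
        refine isClique_of_alpha_le_one ?_
        have := add (X.erase x) (Finset.erase_subset _ _) (out G x X) fun y hy hy' u hu =>
          sep x hx y hy' (Finset.mem_erase.1 hy).1.symm u hu _ (hf y hy')
        rw [Finset.card_erase_of_mem hx] at this
        omega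
      rw [Finset.coe_insert]
      exact hc.insert fun u hu _ => (mem_out.1 hu).1
    · rw [Finset.card_insert_of_notMem (fun e => (mem_out.1 e).2 hx)]
      omega
  have hall : Finset.univ ⊆ X ∪ X.biUnion fun x => out G x X := by
    intro z _
    by_contra hz
    simp only [Finset.mem_union, Finset.mem_biUnion, not_or, not_exists, not_and, mem_out,
      not_not] at hz
    obtain ⟨hzX, hz⟩ := hz
    have hzn : ∀ x ∈ X, ¬G.Adj x z := fun x hx e => hzX (hz x hx e)
    have seen : ∀ x y hx hy, x ≠ y → G.Adj z (f x hx) → ¬G.Adj z (f y hy) := fun x y hx hy hxy =>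
      close_three h.free (three x hx y hy hxy) (mem_out.1 (hf x hx)).2 (mem_out.1 (hf y hy)).2 hzX
        (sep x hx y hy hxy _ (hf x hx) _ (hf y hy)).1 (mem_out.1 (hf x hx)).1 (mem_out.1 (hf y hy)).1
    obtain ⟨x, hx, hxz⟩ : ∃ x, ∃ hx : x ∈ X, ∀ y hy, y ≠ x → ¬G.Adj z (f y hy) := by
      by_cases he : ∃ x, ∃ hx : x ∈ X, G.Adj z (f x hx)
      · obtain ⟨x, hx, e⟩ := he
        exact ⟨x, hx, fun y hy hne => seen x y hx hy hne.symm e⟩
      · push Not at he
        obtain ⟨x, hx⟩ := Finset.card_pos.1 (show 0 < X.card by omega)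
        exact ⟨x, hx, fun y hy _ => he y hy⟩
    have h2 := two_le_alpha (G := G) (X := ({z, x} : Finset V)) (a := z) (b := x) (by simp)
      (by simp) (ne_of_mem_of_not_mem hx hzX).symm (fun e => hzn x hx e.symm)
    have := add (X.erase x) (Finset.erase_subset _ _) {z, x} fun y hy hy' u hu => by
      simp only [Finset.mem_insert, Finset.mem_singleton] at hu
      have hy1 := (Finset.mem_erase.1 hy).1
      rcases hu with rfl | rfl
      · exact ⟨fun e => hzn y hy' (e ▸ (mem_out.1 (hf y hy')).1), hxz y hy' hy1⟩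
      · exact ⟨ne_of_mem_of_not_mem hx (mem_out.1 (hf y hy')).2,
          fun e => dis y hy' u hx hy1 _ (mem_out.1 (hf y hy')).2 (mem_out.1 (hf y hy')).1 e⟩
    rw [Finset.card_erase_of_mem hx] at this
    omega
  have hc := Finset.card_le_card hall
  rw [Finset.card_univ] at hc
  have h1 := Finset.card_union_le X (X.biUnion fun x => out G x X)
  have h2 := Finset.card_biUnion_le (s := X) (t := fun x => out G x X)
  have h3 := Finset.sum_le_card_nsmul X (fun x => (out G x X).card) 4 size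
  rw [smul_eq_mul, hX] at h3
  subst hA5
  omega

/-- No five vertices span all but one edge. -/
theorem no_five (h : Bad G 6 A) (hab : G.Adj a b) (hac : G.Adj a c) (had : G.Adj a d)
    (hae : G.Adj a e) (hbc : G.Adj b c) (hbd : G.Adj b d) (hbe : G.Adj b e) (hcd : G.Adj c d)
    (hce : G.Adj c e) (hde : d ≠ e) : False := by
  classical
  set X : Finset V := {a, b, c, d, e} with hXd
  have hX : X.card = 5 := by
    rw [hXd, Finset.card_insert_of_notMem (by simp [hab.ne, hac.ne, had.ne, hae.ne]),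
      Finset.card_insert_of_notMem (by simp [hbc.ne, hbd.ne, hbe.ne]),
      Finset.card_insert_of_notMem (by simp [hcd.ne, hce.ne]), Finset.card_pair hde]
  have ma : a ∈ (X : Set V) := by simp [hXd]
  have mb : b ∈ (X : Set V) := by simp [hXd]
  have mc : c ∈ (X : Set V) := by simp [hXd]
  have md : d ∈ (X : Set V) := by simp [hXd]
  have me : e ∈ (X : Set V) := by simp [hXd]
  set Q : V → V → Prop := fun x y =>
    Pth G x y 5 (X : Set V) ∧ Pth G x y 4 (X : Set V) ∧ Pth G x y 3 (X : Set V)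
  have qs : ∀ {x y}, Q x y → Q y x := fun q => ⟨q.1.symm, q.2.1.symm, q.2.2.symm⟩
  have top : ∀ u v w, G.Adj u v → G.Adj u w → G.Adj v w → G.Adj u d → G.Adj v d → G.Adj w d →
      G.Adj u e → G.Adj v e → G.Adj w e → u ∈ (X : Set V) → v ∈ (X : Set V) → w ∈ (X : Set V) →
      Q u v ∧ Q u d ∧ Q u e := by
    intro u v w euv euw evw eud evd ewd eue eve ewe mu mv mw
    refine ⟨⟨mk5 eud ewd.symm ewe eve.symm euw.ne eue.ne euv.ne hde evd.ne' evw.ne' mu md mw me mv,
      mk4 eud ewd.symm evw.symm euw.ne evd.ne' euv.ne mu md mw mv,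
      mk3 euw evw.symm euv.ne mu mw mv⟩,
      ⟨mk5 eue ewe.symm evw.symm evd euw.ne euv.ne eud.ne eve.ne' hde.symm ewd.ne mu me mw mv md,
      mk4 euw evw.symm evd euv.ne ewd.ne eud.ne mu mw mv md,
      mk3 euw ewd eud.ne mu mw md⟩,
      mk5 eud ewd.symm evw.symm eve euw.ne euv.ne eue.ne evd.ne' hde ewe.ne mu md mw mv me,
      mk4 euw evw.symm eve euv.ne ewe.ne eue.ne mu mw mv me,
      mk3 euw ewe eue.ne mu mw me⟩
  obtain ⟨qab, qad, qae⟩ := top a b c hab hac hbc had hbd hcd hae hbe hce ma mb mc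
  obtain ⟨qbc, qbd, qbe⟩ := top b c a hbc hab.symm hac.symm hbd hcd had hbe hce hae mb mc ma
  obtain ⟨qca, qcd, qce⟩ := top c a b hac.symm hbc.symm hab hcd had hbd hce hae hbe mc ma mb
  have qde : Q d e := ⟨mk5 had.symm hab hbc hce hbd.ne' hcd.ne' hde hac.ne hae.ne hbe.ne md ma mb mc
    me, mk4 had.symm hab hbe hbd.ne' hae.ne hde md ma mb me, mk3 had.symm hae hde md ma me⟩
  have all : ∀ x ∈ X, ∀ y ∈ X, x ≠ y → Q x y := by
    intro x hx y hy hne
    simp only [hXd, Finset.mem_insert, Finset.mem_singleton] at hx hy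
    rcases hx with rfl | rfl | rfl | rfl | rfl <;> rcases hy with rfl | rfl | rfl | rfl | rfl
    all_goals first
      | exact absurd rfl hne
      | assumption
      | exact qs (by assumption)
  exact five_core h X hX
    (fun x hx y hy hne p hp e1 => close_one h.free (all x hx y hy hne).1 hp e1)
    (fun x hx y hy hne => (all x hx y hy hne).2.1) (fun x hx y hy hne => (all x hx y hy hne).2.2)

end Vale.Agent.P048.Full.Six
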