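import Vale.Agent.P048.Full.Small6Core

/-! # The six cycle: no clique on four vertices -/

namespace Vale.Agent.P048.Full.Six

open Finset

variable {V : Type} [Fintype V] {G : SimpleGraph V} {A : ℕ} {a b c d p p' r s u v w x y : V}

/-- Four vertices spanning a clique, and a fifth one adjacent to two of them. -/
structure Ear (G : SimpleGraph V) (a b c d p : V) : Prop where
  ab : G.Adj a b
  ac : G.Adj a c
  ad : G.Adj a d
  bc : G.Adj b c
  bd : G.Adj b d
  cd : G.Adj c d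
  pa : G.Adj p a
  pb : G.Adj p b
  pc : p ≠ c
  pd : p ≠ d

theorem Ear.swapcd (e : Ear G a b c d p) : Ear G a b d c p :=
  ⟨e.ab, e.ad, e.ac, e.bd, e.bc, e.cd.symm, e.pa, e.pb, e.pd, e.pc⟩

theorem Ear.swapab (e : Ear G a b c d p) : Ear G b a c d p :=
  ⟨e.ab.symm, e.bc, e.bd, e.ac, e.ad, e.cd, e.pb, e.pa, e.pc, e.pd⟩

theorem Ear.npc (h : Bad G 6 A) (e : Ear G a b c d p) : ¬G.Adj p c := fun f =>
  no_five h e.ab e.ac e.ad e.pa.symm e.bc e.bd e.pb.symm e.cd f.symm e.pd.symm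

/-- A second ear on the same pair is no neighbour of the first. -/
theorem Ear.nadj (h : Bad G 6 A) (e : Ear G a b c d p) (f : Ear G a b c d p') :
    ¬G.Adj p p' := fun g =>
  h.free (cyc6 e.pa.symm g f.pb e.bd e.cd.symm e.ac.symm f.pa.ne' e.ab.ne e.ad.ne e.pb.ne e.pd
    e.pc f.pd f.pc e.bc.ne)

open Classical in
/-- The neighbours of `p` and those of `c` are disjoint and not adjacent. -/
theorem Ear.side (h : Bad G 6 A) (e : Ear G a b c d p) (hu : u ∈ out G p {a, b})
    (hv : v ∈ out G c {a, b, d}) :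
    (u ≠ v ∧ ¬G.Adj u v) ∧ (a ≠ u ∧ ¬G.Adj a u) ∧ (a ≠ v ∧ ¬G.Adj a v) ∧ (¬G.Adj c u) ∧
      u ≠ c ∧ u ≠ d ∧ v ≠ p := by
  simp only [mem_out, Finset.mem_insert, Finset.mem_singleton, not_or] at hu hv
  have uc : u ≠ c := fun g => e.npc h (g ▸ hu.1)
  have ud : u ≠ d := fun g => e.swapcd.npc h (g ▸ hu.1)
  have vp : v ≠ p := fun g => e.npc h (g ▸ hv.1).symm
  have ncu : ¬G.Adj c u := fun g =>
    h.free (cyc6 g.symm e.ac.symm e.ad e.bd.symm e.pb.symm hu.1 hu.2.1 ud hu.2.2 e.cd.ne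
      e.bc.ne' e.pc.symm e.ab.ne e.pa.ne' e.pd.symm)
  refine ⟨⟨fun g => ncu (g ▸ hv.1), close_two h.free (S := {p, a, d, c})
    (mk4 e.pa e.ad e.cd.symm e.pd e.ac.ne e.pc (by simp) (by simp) (by simp) (by simp)) ?_ ?_ hu.1
    hv.1⟩, ⟨Ne.symm hu.2.1, ?_⟩, ⟨Ne.symm hv.2.1, ?_⟩, ncu, uc, ud, vp⟩
  · simp [hu.1.ne', hu.2.1, ud, uc]
  · simp [vp, hv.2.1, hv.2.2.2, hv.1.ne']
  · intro g
    exact h.free (cyc6 g hu.1.symm e.pb e.bd e.cd.symm e.ac.symm e.pa.ne' e.ab.ne e.ad.ne hu.2.2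
      ud uc e.pd e.pc e.bc.ne)
  · intro g
    exact h.free (cyc6 hv.1.symm e.cd e.bd.symm e.pb.symm e.pa g hv.2.2.2 hv.2.2.1 vp
      e.bc.ne' e.pc.symm e.ac.ne' e.pd.symm e.ad.ne' e.ab.ne')

theorem pair_of_clique_free (h : Bad G 6 A) {X : Finset V}
    (hc : ¬G.IsClique (X : Set V)) : ∃ p ∈ X, ∃ q ∈ X, p ≠ q ∧ ¬G.Adj p q := by
  simpa [SimpleGraph.isClique_iff, Set.Pairwise] using hc

/-- Two ears on one pair. -/
theorem no_two_ears (h : Bad G 6 A) (e : Ear G a b c d p) (f : Ear G a b c d p')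
    (hpp : p ≠ p') : False := by
  classical
  have hA := h.hAm
  set P := out G p {a, b} with hP
  set P' := out G p' {a, b} with hP'
  have npp := e.nadj h f
  -- one of the two classes is no clique
  by_cases hcl : G.IsClique (P : Set V) ∧ G.IsClique (P' : Set V)
  · have small : ∀ q, G.Adj q a → G.Adj q b → G.IsClique (out G q {a, b} : Set V) →
        (out G q {a, b}).card ≤ 3 := fun q _ _ hc => by
      by_contra h4
      obtain ⟨K, hK, hKc⟩ := Finset.exists_subset_card_eq (show 4 ≤ (out G q {a, b}).card by omega)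
      obtain ⟨k1, k2, k3, k4, e12, e13, e14, e23, e24, e34, rfl⟩ := Finset.card_eq_four.1 hKc
      simp only [Finset.insert_subset_iff, Finset.singleton_subset_iff] at hK
      obtain ⟨m1, m2, m3, m4⟩ := hK
      exact no_five h (mem_out.1 m1).1 (mem_out.1 m2).1 (mem_out.1 m3).1 (mem_out.1 m4).1
        (hc m1 m2 e12) (hc m1 m3 e13) (hc m1 m4 e14) (hc m2 m3 e23) (hc m2 m4 e24) e34
    have h1 := small p e.pa e.pb (hP ▸ hcl.1)
    have h2 := small p' f.pa f.pb (hP' ▸ hcl.2)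
    have hb := h.nbhd_large (I := {p, p'}) (N := {p, p', a, b} ∪ P ∪ P') (Indep.pair npp)
      ⟨p, by simp⟩ (fun z hz => by
        simp only [Finset.mem_insert, Finset.mem_singleton] at hz
        rcases hz with rfl | rfl <;> simp) (fun z hz y hy => by
        simp only [Finset.mem_insert, Finset.mem_singleton] at hz
        simp only [hP, hP', Finset.mem_union, Finset.mem_insert, Finset.mem_singleton, mem_out]
        rcases hz with rfl | rfl <;> tauto)
    rw [Finset.card_pair hpp, hP, hP'] at hb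
    have := Finset.card_union_le (({p, p', a, b} : Finset V) ∪ out G p {a, b}) (out G p' {a, b})
    have := Finset.card_union_le ({p, p', a, b} : Finset V) (out G p {a, b})
    have := Finset.card_le_four (a := p) (b := p') (c := a) (d := b)
    omega
  clear hP hP'
  wlog hnc : ¬G.IsClique (P : Set V) generalizing p p'
  · exact this f e hpp.symm (fun g => npp g.symm) (fun g => hcl g.symm) fun g => hcl ⟨not_not.1 hnc, g⟩
  obtain ⟨u, hu, u', hu', huu, nuu⟩ := pair_of_clique_free h hnc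
  obtain ⟨v, hv1, hv2⟩ := h.exists_out p' {a, b} (by
    have := Finset.card_le_two (a := a) (b := b)
    omega)
  obtain ⟨c', hc1, hc2⟩ := h.exists_out c {a, b, d} (by
    have := Finset.card_le_three (a := a) (b := b) (c := d)
    omega)
  obtain ⟨d', hd1, hd2⟩ := h.exists_out d {a, b, c} (by
    have := Finset.card_le_three (a := a) (b := b) (c := c)
    omega)
  have hv : v ∈ out G p' {a, b} := mem_out.2 ⟨hv1, hv2⟩
  have hc : c' ∈ out G c {a, b, d} := mem_out.2 ⟨hc1, hc2⟩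
  have hd : d' ∈ out G d {a, b, c} := mem_out.2 ⟨hd1, hd2⟩
  obtain ⟨s1, sa1, sac, -⟩ := e.side h hu hc
  obtain ⟨s2, sa2, -⟩ := e.side h hu' hc
  obtain ⟨s3, sa3, -⟩ := f.side h hv hc
  obtain ⟨t1, -, sad, -⟩ := e.swapcd.side h hu hd
  obtain ⟨t2, -⟩ := e.swapcd.side h hu' hd
  obtain ⟨t3, -⟩ := f.swapcd.side h hv hd
  simp only [Finset.mem_insert, Finset.mem_singleton, not_or] at hv2 hc2 hd2
  have pp : ∀ u ∈ out G p {a, b}, u ≠ v ∧ ¬G.Adj u v := by
    intro u hu
    simp only [mem_out, Finset.mem_insert, Finset.mem_singleton, not_or] at hu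
    have up' : u ≠ p' := fun g => npp (g ▸ hu.1)
    have vp : v ≠ p := fun g => npp (g ▸ hv1).symm
    refine ⟨?_, close_two h.free (S := {p, a, b, p'})
      (mk4 e.pa e.ab f.pb.symm e.pb.ne f.pa.ne' hpp (by simp) (by simp) (by simp) (by simp))
      ?_ ?_ hu.1 hv1⟩
    · rintro rfl
      exact h.free (cyc6 hu.1.symm e.pa e.ac e.bc.symm f.pb.symm hv1 hu.2.1
        (fun g => f.npc h (g ▸ hv1)) hu.2.2 e.pc e.pb.ne hpp e.ab.ne f.pa.ne' f.pc.symm)
    · simp [hu.1.ne', hu.2.1, hu.2.2, up']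
    · simp [vp, hv2.1, hv2.2, hv1.ne']
  have cd' : c' ≠ d' ∧ ¬G.Adj c' d' := by
    have hc'p : c' ≠ p := fun g => e.npc h (g ▸ hc1).symm
    have hd'p : d' ≠ p := fun g => e.swapcd.npc h (g ▸ hd1).symm
    refine ⟨?_, close_two h.free (S := {c, a, b, d})
      (mk4 e.ac.symm e.ab e.bd e.bc.ne' e.ad.ne e.cd.ne (by simp) (by simp) (by simp) (by simp))
      ?_ ?_ hc1 hd1⟩
    · rintro rfl
      exact h.free (cyc6 hc1.symm e.ac.symm e.pa.symm e.pb e.bd hd1 hc2.1 hc'p hc2.2.1 e.pc.symm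
        e.bc.ne' e.cd.ne e.ab.ne e.ad.ne e.pd)
    · simp [hc1.ne', hc2.1, hc2.2.1, hc2.2.2]
    · simp [hd1.ne', hd2.1, hd2.2.1, hd2.2.2]
  have := h.list_le [a, u, u', v, c', d'] (by
    simp [huu, nuu, pp u hu, pp u' hu', s1, s2, s3, t1, t2, t3, cd', sa1, sa2, sa3, sac, sad])
  simp at this
  omega

/-- No outside vertex has two neighbours in a clique on four vertices. -/
theorem no_ear (h : Bad G 6 A) (e : Ear G a b c d p) : False := by
  classical
  set X : Finset V := {a, b, c, d, p} with hXd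
  have hX : X.card = 5 := by
    rw [hXd, Finset.card_insert_of_notMem (by simp [e.ab.ne, e.ac.ne, e.ad.ne, e.pa.ne']),
      Finset.card_insert_of_notMem (by simp [e.bc.ne, e.bd.ne, e.pb.ne']),
      Finset.card_insert_of_notMem (by simp [e.cd.ne, e.pc.symm]), Finset.card_pair e.pd.symm]
  have ma : a ∈ (X : Set V) := by simp [hXd]
  have mb : b ∈ (X : Set V) := by simp [hXd]
  have mc : c ∈ (X : Set V) := by simp [hXd]
  have md : d ∈ (X : Set V) := by simp [hXd]
  have mp : p ∈ (X : Set V) := by simp [hXd]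
  set Q : V → V → Prop := fun x y => (∀ q, q ∉ X → G.Adj x q → ¬G.Adj y q) ∧
    Pth G x y 4 (X : Set V) ∧ Pth G x y 3 (X : Set V)
  have qs : ∀ {x y}, Q x y → Q y x := fun q =>
    ⟨fun z hz h1 h2 => q.1 z hz h2 h1, q.2.1.symm, q.2.2.symm⟩
  have c1 : ∀ {x y}, Pth G x y 5 (X : Set V) → ∀ q, q ∉ X → G.Adj x q → ¬G.Adj y q :=
    fun P q hq h1 => close_one h.free P (by simpa using hq) h1
  have qab : Q a b := by
    refine ⟨fun q hq h1 h2 => ?_,
      mk4 e.ac e.cd e.bd.symm e.ad.ne e.bc.ne' e.ab.ne ma mc md mb,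
      mk3 e.ac e.bc.symm e.ab.ne ma mc mb⟩
    simp only [hXd, Finset.mem_insert, Finset.mem_singleton, not_or] at hq
    exact no_two_ears h e ⟨e.ab, e.ac, e.ad, e.bc, e.bd, e.cd, h1.symm, h2.symm, hq.2.2.1,
      hq.2.2.2.1⟩ (Ne.symm hq.2.2.2.2)
  have qac : Q a c := ⟨c1 (mk5 e.pa.symm e.pb e.bd e.cd.symm e.ab.ne e.ad.ne e.ac.ne
      e.pd e.pc e.bc.ne ma mp mb md mc),
    mk4 e.ab e.bd e.cd.symm e.ad.ne e.bc.ne e.ac.ne ma mb md mc,
    mk3 e.ab e.bc e.ac.ne ma mb mc⟩
  have qad : Q a d := ⟨c1 (mk5 e.pa.symm e.pb e.bc e.cd e.ab.ne e.ac.ne e.ad.ne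
      e.pc e.pd e.bd.ne ma mp mb mc md),
    mk4 e.ab e.bc e.cd e.ac.ne e.bd.ne e.ad.ne ma mb mc md,
    mk3 e.ab e.bd e.ad.ne ma mb md⟩
  have qbc : Q b c := ⟨c1 (mk5 e.pb.symm e.pa e.ad e.cd.symm e.ab.ne' e.bd.ne e.bc.ne
      e.pd e.pc e.ac.ne mb mp ma md mc),
    mk4 e.ab.symm e.ad e.cd.symm e.bd.ne e.ac.ne e.bc.ne mb ma md mc,
    mk3 e.ab.symm e.ac e.bc.ne mb ma mc⟩
  have qbd : Q b d := ⟨c1 (mk5 e.pb.symm e.pa e.ac e.cd e.ab.ne' e.bc.ne e.bd.ne
      e.pc e.pd e.ad.ne mb mp ma mc md),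
    mk4 e.ab.symm e.ac e.cd e.bc.ne e.ad.ne e.bd.ne mb ma mc md,
    mk3 e.ab.symm e.ad e.bd.ne mb ma md⟩
  have qpa : Q p a := ⟨c1 (mk5 e.pb e.bc e.cd e.ad.symm e.pc e.pd e.pa.ne e.bd.ne
      e.ab.ne' e.ac.ne' mp mb mc md ma),
    mk4 e.pb e.bc e.ac.symm e.pc e.ab.ne' e.pa.ne mp mb mc ma,
    mk3 e.pb e.ab.symm e.pa.ne mp mb ma⟩
  have qpb : Q p b := ⟨c1 (mk5 e.pa e.ac e.cd e.bd.symm e.pc e.pd e.pb.ne e.ad.ne
      e.ab.ne e.bc.ne' mp ma mc md mb),
    mk4 e.pa e.ac e.bc.symm e.pc e.ab.ne e.pb.ne mp ma mc mb,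
    mk3 e.pa e.ab e.pb.ne mp ma mb⟩
  have qpc : Q p c := ⟨c1 (mk5 e.pa e.ab e.bd e.cd.symm e.pb.ne e.pd e.pc e.ad.ne
      e.ac.ne e.bc.ne mp ma mb md mc),
    mk4 e.pa e.ab e.bc e.pb.ne e.ac.ne e.pc mp ma mb mc,
    mk3 e.pa e.ac e.pc mp ma mc⟩
  have qpd : Q p d := ⟨c1 (mk5 e.pa e.ab e.bc e.cd e.pb.ne e.pc e.pd e.ac.ne
      e.ad.ne e.bd.ne mp ma mb mc md),
    mk4 e.pa e.ab e.bd e.pb.ne e.ad.ne e.pd mp ma mb md,
    mk3 e.pa e.ad e.pd mp ma md⟩
  have qcd : Q c d := ⟨c1 (mk5 e.ac.symm e.pa.symm e.pb e.bd e.pc.symm e.bc.ne'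
      e.cd.ne e.ab.ne e.ad.ne e.pd mc ma mp mb md),
    mk4 e.ac.symm e.ab e.bd e.bc.ne' e.ad.ne e.cd.ne mc ma mb md,
    mk3 e.ac.symm e.ad e.cd.ne mc ma md⟩
  have all : ∀ x ∈ X, ∀ y ∈ X, x ≠ y → Q x y := by
    intro x hx y hy hne
    simp only [hXd, Finset.mem_insert, Finset.mem_singleton] at hx hy
    rcases hx with rfl | rfl | rfl | rfl | rfl <;> rcases hy with rfl | rfl | rfl | rfl | rfl
    all_goals first
      | exact absurd rfl hne
      | assumption
      | exact qs (by assumption)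
  exact five_core h X hX (fun x hx y hy hne q hq => (all x hx y hy hne).1 q hq)
    (fun x hx y hy hne => (all x hx y hy hne).2.1) (fun x hx y hy hne => (all x hx y hy hne).2.2)

set_option maxHeartbeats 1600000 in
/-- There is no clique on four vertices. -/
theorem no_k4 (h : Bad G 6 A) (hA3 : 3 ≤ A) (hab : G.Adj a b) (hac : G.Adj a c) (had : G.Adj a d)
    (hbc : G.Adj b c) (hbd : G.Adj b d) (hcd : G.Adj c d) : False := by
  classical
  have hA := h.hAm
  have hbig := h.big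
  set K : Finset V := {a, b, c, d} with hKd
  have hK4 : K.card ≤ 4 := Finset.card_le_four
  have ka : a ∈ K := by simp [hKd]
  have kb : b ∈ K := by simp [hKd]
  have kc : c ∈ K := by simp [hKd]
  have kd : d ∈ K := by simp [hKd]
  have kq : ∀ q, q ∉ K → q ≠ a ∧ q ≠ b ∧ q ≠ c ∧ q ≠ d := fun q hq => by simpa [hKd] using hq
  -- an outside vertex sees one corner at most, and paths of order three and four join all corners
  have pr : ∀ x ∈ K, ∀ y ∈ K, x ≠ y → ∃ z w, G.Adj x y ∧ G.Adj x z ∧ G.Adj x w ∧ G.Adj y z ∧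
      G.Adj y w ∧ G.Adj z w ∧ z ∈ K ∧ w ∈ K := by
    have tr : ∀ {u v}, G.Adj u v → G.Adj v u := fun g => g.symm
    intro x hx y hy hne
    simp only [hKd, Finset.mem_insert, Finset.mem_singleton] at hx hy
    rcases hx with rfl | rfl | rfl | rfl <;> rcases hy with rfl | rfl | rfl | rfl
    all_goals first
      | exact absurd rfl hne
      | exact ⟨c, d, hab, hac, had, hbc, hbd, hcd, kc, kd⟩
      | exact ⟨b, d, hac, hab, had, tr hbc, hcd, hbd, kb, kd⟩
      | exact ⟨b, c, had, hab, hac, tr hbd, tr hcd, hbc, kb, kc⟩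
      | exact ⟨c, d, tr hab, hbc, hbd, hac, had, hcd, kc, kd⟩
      | exact ⟨a, d, hbc, tr hab, hbd, tr hac, hcd, had, ka, kd⟩
      | exact ⟨a, c, hbd, tr hab, hbc, tr had, tr hcd, hac, ka, kc⟩
      | exact ⟨b, d, tr hac, tr hbc, hcd, hab, had, hbd, kb, kd⟩
      | exact ⟨a, d, tr hbc, tr hac, hcd, tr hab, hbd, had, ka, kd⟩
      | exact ⟨a, b, hcd, tr hac, tr hbc, tr had, tr hbd, hab, ka, kb⟩
      | exact ⟨b, c, tr had, tr hbd, tr hcd, hab, hac, hbc, kb, kc⟩
      | exact ⟨a, c, tr hbd, tr had, tr hcd, tr hab, hbc, hac, ka, kc⟩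
      | exact ⟨a, b, tr hcd, tr had, tr hbd, tr hac, tr hbc, hab, ka, kb⟩
  have one : ∀ x ∈ K, ∀ y ∈ K, x ≠ y → ∀ q, q ∉ K → G.Adj x q → ¬G.Adj y q := by
    intro x hx y hy hne q hq h1 h2
    obtain ⟨z, w, exy, exz, exw, eyz, eyw, ezw, hz, hw⟩ := pr x hx y hy hne
    exact no_ear h ⟨exy, exz, exw, eyz, eyw, ezw, h1.symm, h2.symm,
      (ne_of_mem_of_not_mem hz hq).symm, (ne_of_mem_of_not_mem hw hq).symm⟩
  set S : V → Finset V := fun x => out G x K
  have sep : ∀ x ∈ K, ∀ y ∈ K, x ≠ y → ∀ p ∈ S x, ∀ q ∈ S y, p ≠ q ∧ ¬G.Adj p q := by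
    intro x hx y hy hne p hp q hq
    simp only [S, mem_out] at hp hq
    obtain ⟨z, w, exy, exz, exw, eyz, eyw, ezw, hz, hw⟩ := pr x hx y hy hne
    exact ⟨fun g => one x hx y hy hne p hp.2 hp.1 (g ▸ hq.1),
      close_two h.free (S := (K : Set V)) (mk4 exz ezw eyw.symm exw.ne eyz.ne' exy.ne
        hx hz hw hy) hp.2 hq.2 hp.1 hq.1⟩
  have off : ∀ x ∈ K, ∀ y ∈ K, x ≠ y → ∀ q ∈ S y, x ≠ q ∧ ¬G.Adj x q := fun x hx y hy hne q hq =>
    ⟨ne_of_mem_of_not_mem hx (mem_out.1 hq).2,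
      fun g => one y hy x hx hne.symm q (mem_out.1 hq).2 (mem_out.1 hq).1 g⟩
  have three : ∀ x ∈ K, ∀ y ∈ K, x ≠ y → ∀ p ∈ S x, ∀ q ∈ S y, ∀ w, w ∉ K → G.Adj w p →
      ¬G.Adj w q := by
    intro x hx y hy hne p hp q hq v hv
    obtain ⟨z, w, exy, exz, exw, eyz, eyw, ezw, hz, hw⟩ := pr x hx y hy hne
    exact close_three h.free (S := (K : Set V)) (mk3 exz eyz.symm exy.ne hx hz hy) (mem_out.1 hp).2
      (mem_out.1 hq).2 hv (sep x hx y hy hne p hp q hq).1 (mem_out.1 hp).1 (mem_out.1 hq).1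
  have two : ∀ x ∈ K, ∀ y ∈ K, x ≠ y → ∀ p ∈ S x, ∀ q ∈ S y, ∀ v w, v ∉ K → w ∉ K → G.Adj v p →
      G.Adj w q → p ≠ w → q ≠ v → ¬G.Adj v w := by
    intro x hx y hy hne p hp q hq v w hv hw hvp hwq hpw hqv hvw
    obtain ⟨z, z', exy, -⟩ := pr x hx y hy hne
    simp only [S, mem_out] at hp hq
    exact h.free (cyc6 hvp hp.1.symm exy hq.1 hwq.symm hvw.symm (ne_of_mem_of_not_mem hx hv).symm
      (ne_of_mem_of_not_mem hy hv).symm hqv.symm (ne_of_mem_of_not_mem hy hp.2).symm
      (fun g => one x hx y hy hne p hp.2 hp.1 (g ▸ hq.1)) hpw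
      (ne_of_mem_of_not_mem hx hq.2) (ne_of_mem_of_not_mem hx hw) (ne_of_mem_of_not_mem hy hw))
  obtain ⟨pa, ma⟩ : ∃ p, p ∈ S a := by
    obtain ⟨p, h1, h2⟩ := h.exists_out a K (by omega)
    exact ⟨p, mem_out.2 ⟨h1, h2⟩⟩
  obtain ⟨pb, mb⟩ : ∃ p, p ∈ S b := by
    obtain ⟨p, h1, h2⟩ := h.exists_out b K (by omega)
    exact ⟨p, mem_out.2 ⟨h1, h2⟩⟩
  obtain ⟨pc, mc⟩ : ∃ p, p ∈ S c := by
    obtain ⟨p, h1, h2⟩ := h.exists_out c K (by omega)
    exact ⟨p, mem_out.2 ⟨h1, h2⟩⟩
  obtain ⟨pd, md⟩ : ∃ p, p ∈ S d := by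
    obtain ⟨p, h1, h2⟩ := h.exists_out d K (by omega)
    exact ⟨p, mem_out.2 ⟨h1, h2⟩⟩
  have hA4 : 4 ≤ A := by
    have := h.list_le [pa, pb, pc, pd] (by
      simp [sep a ka b kb hab.ne _ ma _ mb, sep a ka c kc hac.ne _ ma _ mc,
        sep a ka d kd had.ne _ ma _ md, sep b kb c kc hbc.ne _ mb _ mc,
        sep b kb d kd hbd.ne _ mb _ md, sep c kc d kd hcd.ne _ mc _ md])
    simpa using this
  clear pr
  set W := Finset.univ.filter fun w => w ∉ K ∧ ∀ x ∈ K, w ∉ S x with hW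
  have hWn : ∀ w ∈ W, w ∉ K ∧ ∀ x ∈ K, ¬G.Adj x w ∧ w ∉ S x := fun w hw => by
    simp only [hW, Finset.mem_filter, Finset.mem_univ, true_and] at hw
    exact ⟨hw.1, fun x hx => ⟨fun g => hw.2 x hx (mem_out.2 ⟨g, hw.1⟩), hw.2 x hx⟩⟩
  set E : V → Finset V := fun x => W.filter fun w => ∃ q ∈ S x, G.Adj w q
  set U : V → Finset V := fun x => S x ∪ E x
  have anti : ∀ x ∈ K, ∀ y ∈ K, x ≠ y → ∀ p ∈ U x, ∀ q ∈ U y, p ≠ q ∧ ¬G.Adj p q := by
    intro x hx y hy hne p hp q hq
    simp only [U, E, Finset.mem_union, Finset.mem_filter] at hp hq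
    rcases hp with hp | ⟨hp, p', hp', ep⟩ <;> rcases hq with hq | ⟨hq, q', hq', eq⟩
    · exact sep x hx y hy hne p hp q hq
    · exact ⟨fun g => ((hWn q hq).2 x hx).2 (g ▸ hp),
        fun g => three x hx y hy hne p hp q' hq' q (hWn q hq).1 g.symm eq⟩
    · exact ⟨fun g => ((hWn p hp).2 y hy).2 (g ▸ hq),
        fun g => three x hx y hy hne p' hp' q hq p (hWn p hp).1 ep g⟩
    · refine ⟨fun g => three x hx y hy hne p' hp' q' hq' p (hWn p hp).1 ep (g ▸ eq), ?_⟩
      exact two x hx y hy hne p' hp' q' hq' p q (hWn p hp).1 (hWn q hq).1 ep eq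
        (fun g => ((hWn q hq).2 x hx).2 (g ▸ hp')) fun g => ((hWn p hp).2 y hy).2 (g ▸ hq')
  have add : ∀ X Y : Finset V, (∀ p ∈ X, ∀ q ∈ Y, p ≠ q ∧ ¬G.Adj p q) →
      alpha G X + alpha G Y ≤ alpha G (X ∪ Y) := fun X Y hd =>
    alpha_add_le Finset.subset_union_left Finset.subset_union_right
      (Finset.disjoint_left.2 fun p hp hq => (hd p hp p hq).1 rfl) fun p hp q hq => (hd p hp q hq).2
  have top : ∀ X : Finset V, alpha G X ≤ A := fun X =>
    (alpha_mono (Finset.subset_univ X)).trans h.hA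
  have k5 : ∀ X : Finset V, alpha G X ≤ 1 → X.card ≤ 4 := fun X hX => by
    by_contra h5
    have hc := isClique_of_alpha_le_one hX
    obtain ⟨L, hL, hLc⟩ := Finset.exists_subset_card_eq (show 5 ≤ X.card by omega)
    obtain ⟨t, ht⟩ := Finset.card_pos.1 (show 0 < L.card by omega)
    obtain ⟨k1, k2, k3, k4, e12, e13, e14, e23, e24, e34, he⟩ := Finset.card_eq_four.1
      (show (L.erase t).card = 4 by rw [Finset.card_erase_of_mem ht]; omega)
    have m : ∀ z ∈ ({k1, k2, k3, k4} : Finset V), z ≠ t ∧ z ∈ X := fun z hz => by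
      rw [← he, Finset.mem_erase] at hz
      exact ⟨hz.1, hL hz.2⟩
    obtain ⟨n1, m1⟩ := m k1 (by simp)
    obtain ⟨n2, m2⟩ := m k2 (by simp)
    obtain ⟨n3, m3⟩ := m k3 (by simp)
    obtain ⟨n4, m4⟩ := m k4 (by simp)
    exact no_five h (hc m1 m2 e12) (hc m1 m3 e13) (hc m1 m4 e14) (hc m1 (hL ht) n1)
      (hc m2 m3 e23) (hc m2 m4 e24) (hc m2 (hL ht) n2) (hc m3 m4 e34) (hc m3 (hL ht) n3) n4
  have s3 : ∀ x ∈ K, alpha G (S x) ≤ 1 → (S x).card ≤ 3 := fun x hx hα => by
    have hc := isClique_of_alpha_le_one hα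
    by_contra h4
    obtain ⟨L, hL, hLc⟩ := Finset.exists_subset_card_eq (show 4 ≤ (S x).card by omega)
    obtain ⟨k1, k2, k3, k4, e12, e13, e14, e23, e24, e34, rfl⟩ := Finset.card_eq_four.1 hLc
    simp only [Finset.insert_subset_iff, Finset.singleton_subset_iff] at hL
    obtain ⟨m1, m2, m3, m4⟩ := hL
    exact no_five h (mem_out.1 m1).1 (mem_out.1 m2).1 (mem_out.1 m3).1 (mem_out.1 m4).1
      (hc m1 m2 e12) (hc m1 m3 e13) (hc m1 m4 e14) (hc m2 m3 e23) (hc m2 m4 e24) e34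
  have s7 : ∀ x ∈ K, alpha G (S x) ≤ 2 → (S x).card ≤ 7 := fun x hx hα => by
    by_contra h8
    have hdeg : ∀ z ∈ S x, 4 ≤ (nb G (S x) z).card := fun z hz => by
      obtain ⟨R, hR, hRa, hRc⟩ := alpha_outside (G := G) hz hα
      have hc := isClique_of_alpha_le_one (G := G) (X := R) (by omega)
      have : R.card ≤ 3 := by
        by_contra h4
        obtain ⟨L, hL, hLc⟩ := Finset.exists_subset_card_eq (show 4 ≤ R.card by omega)
        obtain ⟨k1, k2, k3, k4, e12, e13, e14, e23, e24, e34, rfl⟩ := Finset.card_eq_four.1 hLc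
        simp only [Finset.insert_subset_iff, Finset.singleton_subset_iff] at hL
        obtain ⟨m1, m2, m3, m4⟩ := hL
        exact no_five h (mem_out.1 (hR m1)).1 (mem_out.1 (hR m2)).1 (mem_out.1 (hR m3)).1
          (mem_out.1 (hR m4)).1 (hc m1 m2 e12) (hc m1 m3 e13) (hc m1 m4 e14) (hc m2 m3 e23)
          (hc m2 m4 e24) e34
      omega
    have next' : ∀ z ∈ S x, ∀ B : Finset V, B.card ≤ 3 →
        ∃ z' ∈ S x, G.Adj z z' ∧ z' ∉ B := fun z hz B hB => by
      obtain ⟨z', hz', hn⟩ := Finset.exists_mem_notMem_of_card_lt_card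
        (show B.card < (nb G (S x) z).card from lt_of_le_of_lt hB (hdeg z hz))
      exact ⟨z', (mem_nb.1 hz').1, (mem_nb.1 hz').2, hn⟩
    obtain ⟨z1, m1⟩ := Finset.card_pos.1 (show 0 < (S x).card by omega)
    obtain ⟨z2, m2, e1, -⟩ := next' z1 m1 ∅ (by simp)
    obtain ⟨z3, m3, e2, n3⟩ := next' z2 m2 {z1} (by simp)
    obtain ⟨z4, m4, e3, n4⟩ := next' z3 m3 {z1, z2} (Finset.card_le_two.trans (by norm_num))
    obtain ⟨z5, m5, e4, n5⟩ := next' z4 m4 {z1, z2, z3} Finset.card_le_three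
    simp only [Finset.mem_insert, Finset.mem_singleton, not_or] at n3 n4 n5
    exact h.free (cyc6 (mem_out.1 m1).1 e1 e2 e3 e4 (mem_out.1 m5).1.symm (mem_out.1 m2).1.ne
      (mem_out.1 m3).1.ne (mem_out.1 m4).1.ne (Ne.symm n3) (Ne.symm n4.1) (Ne.symm n5.1)
      (Ne.symm n4.2) (Ne.symm n5.2.1) (Ne.symm n5.2.2))
  -- the corners can be named so that only the first has room
  have fin : ∀ x y z t, x ∈ K → y ∈ K → z ∈ K → t ∈ K → x ≠ y → x ≠ z → x ≠ t → y ≠ z → y ≠ t →
      z ≠ t → (∀ q ∈ K, q = x ∨ q = y ∨ q = z ∨ q = t) →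
      (∀ q ∈ K, q ≠ x → alpha G (U q) ≤ 1) → False := by
    intro x y z t hx hy hz ht nxy nxz nxt nyz nyt nzt hall hone
    set F := W.filter fun w => ∀ q ∈ K, q ≠ x → ∀ p ∈ S q, ¬G.Adj w p with hF
    have uy := hone y hy nxy.symm
    have uz := hone z hz nxz.symm
    have ut := hone t ht nxt.symm
    have pos : ∀ q ∈ K, 1 ≤ alpha G (S q) := fun q hq => by
      obtain ⟨r, h1, h2⟩ := h.exists_out q K (by omega)
      exact alpha_pos (mem_out.2 ⟨h1, h2⟩ : r ∈ S q)
    have hsum : alpha G (S x) + 3 ≤ A := by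
      have a1 := add (S x) (S y) fun p hp q hq => sep x hx y hy nxy p hp q hq
      have a2 := add (S z) (S t) fun p hp q hq => sep z hz t ht nzt p hp q hq
      have a3 := add (S x ∪ S y) (S z ∪ S t) fun p hp q hq => by
        rcases Finset.mem_union.1 hp with hp | hp <;> rcases Finset.mem_union.1 hq with hq | hq
        · exact sep x hx z hz nxz p hp q hq
        · exact sep x hx t ht nxt p hp q hq
        · exact sep y hy z hz nyz p hp q hq
        · exact sep y hy t ht nyt p hp q hq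
      have := pos y hy
      have := pos z hz
      have := pos t ht
      have := top ((S x ∪ S y) ∪ (S z ∪ S t))
      omega
    have hFa : alpha G F + 4 ≤ A := by
      have a1 := alpha_add_le (G := G) (W := insert x F) (X := {x}) (Y := F) (by simp)
        (Finset.subset_insert _ _)
        (Finset.disjoint_singleton_left.2 fun g => (hWn x (Finset.mem_filter.1 g).1).1 hx)
        (fun p hp q hq => by
          rw [Finset.mem_singleton] at hp
          exact hp ▸ ((hWn q (Finset.mem_filter.1 hq).1).2 x hx).1)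
      have side : ∀ q ∈ K, q ≠ x → ∀ p ∈ insert x F, ∀ r ∈ S q, p ≠ r ∧ ¬G.Adj p r := by
        intro q hq hqx p hp r hr
        rcases Finset.mem_insert.1 hp with rfl | hp
        · exact off p hx q hq hqx.symm r hr
        · rw [hF, Finset.mem_filter] at hp
          exact ⟨fun g => ((hWn p hp.1).2 q hq).2 (g ▸ hr), hp.2 q hq hqx r hr⟩
      have a2 := add (insert x F) (S y) (side y hy nxy.symm)
      have a3 := add (S z) (S t) fun p hp q hq => sep z hz t ht nzt p hp q hq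
      have a4 := add (insert x F ∪ S y) (S z ∪ S t) fun p hp q hq => by
        rcases Finset.mem_union.1 hp with hp | hp <;> rcases Finset.mem_union.1 hq with hq | hq
        · exact side z hz nxz.symm p hp q hq
        · exact side t ht nxt.symm p hp q hq
        · exact sep y hy z hz nyz p hp q hq
        · exact sep y hy t ht nyt p hp q hq
      have := alpha_pos (G := G) (Finset.mem_singleton_self x)
      have := pos y hy
      have := pos z hz
      have := pos t ht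
      have := top ((insert x F ∪ S y) ∪ (S z ∪ S t))
      omega
    have hall' : Finset.univ ⊆ K ∪ S x ∪ F ∪ U y ∪ U z ∪ U t := fun w _ => by
      simp only [Finset.mem_union]
      by_cases hwK : w ∈ K
      · simp [hwK]
      by_cases hwS : ∃ q ∈ K, w ∈ S q
      · obtain ⟨q, hq, hw⟩ := hwS
        rcases hall q hq with rfl | rfl | rfl | rfl <;> simp [U, hw]
      push Not at hwS
      have hwW : w ∈ W := by simp [hW, hwK]; exact hwS
      by_cases hwF : w ∈ F
      · simp [hwF]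
      simp only [hF, Finset.mem_filter, hwW, true_and] at hwF
      push Not at hwF
      obtain ⟨q, hq, hqx, p, hp, g⟩ := hwF
      have hwU : w ∈ U q := Finset.mem_union_right _ (Finset.mem_filter.2 ⟨hwW, p, hp, g⟩)
      rcases hall q hq with rfl | rfl | rfl | rfl
      · exact absurd rfl hqx
      all_goals simp [hwU]
    have hc := Finset.card_le_card hall'
    rw [Finset.card_univ] at hc
    have := Finset.card_union_le (K ∪ S x ∪ F ∪ U y ∪ U z) (U t)
    have := Finset.card_union_le (K ∪ S x ∪ F ∪ U y) (U z)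
    have := Finset.card_union_le (K ∪ S x ∪ F) (U y)
    have := Finset.card_union_le (K ∪ S x) F
    have := Finset.card_union_le K (S x)
    have := k5 (U y) uy
    have := k5 (U z) uz
    have := k5 (U t) ut
    have := k5 F (by omega)
    by_cases h1 : alpha G (S x) ≤ 1
    · have := s3 x hx h1
      by_cases hA5 : A = 5
      · omega
      · have hF0 : F = ∅ := Finset.eq_empty_of_forall_notMem fun w hw => by
          have := alpha_pos (G := G) hw
          omega
        have : F.card = 0 := Finset.card_eq_zero.2 hF0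
        omega
    · have := s7 x hx (by omega)
      -- nothing outside is attached to another corner
      have e0 : ∀ q r s, q ∈ K → r ∈ K → s ∈ K → q ≠ x → r ≠ x → s ≠ x → q ≠ r → q ≠ s → r ≠ s →
          U q = S q := by
        intro q r s hq hr hs hqx hrx hsx nqr nqs nrs
        refine (Finset.union_eq_left).2 fun w hw => absurd hw fun hw => ?_
        have hw' := hw
        simp only [E, Finset.mem_filter] at hw'
        have side : ∀ q' ∈ K, q' ≠ q → ∀ p ∈ ({w, q} : Finset V), ∀ u ∈ S q',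
            p ≠ u ∧ ¬G.Adj p u := fun q' hq' hne p hp u hu => by
          simp only [Finset.mem_insert, Finset.mem_singleton] at hp
          rcases hp with rfl | rfl
          · exact anti q hq q' hq' hne.symm p (Finset.mem_union_right _ hw) u
              (Finset.mem_union_left _ hu)
          · exact off p hq q' hq' hne.symm u hu
        have a1 := two_le_alpha (G := G) (X := ({w, q} : Finset V)) (a := w) (b := q) (by simp)
          (by simp) (fun g => (hWn w hw'.1).1 (g ▸ hq)) fun g => ((hWn w hw'.1).2 q hq).1 g.symm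
        have a2 := add {w, q} (S x) (side x hx hqx.symm)
        have a3 := add (S r) (S s) fun p hp u hu => sep r hr s hs nrs p hp u hu
        have a4 := add ({w, q} ∪ S x) (S r ∪ S s) fun p hp u hu => by
          rcases Finset.mem_union.1 hp with hp | hp <;> rcases Finset.mem_union.1 hu with hu | hu
          · exact side r hr nqr.symm p hp u hu
          · exact side s hs nqs.symm p hp u hu
          · exact sep x hx r hr hrx.symm p hp u hu
          · exact sep x hx s hs hsx.symm p hp u hu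
        have := pos r hr
        have := pos s hs
        have := top (({w, q} ∪ S x) ∪ (S r ∪ S s))
        omega
      have := congrArg Finset.card (e0 y z t hy hz ht nxy.symm nxz.symm nxt.symm nyz nyt nzt)
      have := congrArg Finset.card (e0 z y t hz hy ht nxz.symm nxy.symm nxt.symm nyz.symm nzt nyt)
      have := congrArg Finset.card (e0 t y z ht hy hz nxt.symm nxy.symm nxz.symm nyt.symm nzt.symm nyz)
      have := s3 y hy ((alpha_mono (Finset.subset_union_left : S y ⊆ U y)).trans uy)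
      have := s3 z hz ((alpha_mono (Finset.subset_union_left : S z ⊆ U z)).trans uz)
      have := s3 t ht ((alpha_mono (Finset.subset_union_left : S t ⊆ U t)).trans ut)
      omega
  have hsumU : alpha G (U a) + alpha G (U b) + (alpha G (U c) + alpha G (U d)) ≤ A := by
    have a1 := add (U a) (U b) (anti a ka b kb hab.ne)
    have a2 := add (U c) (U d) (anti c kc d kd hcd.ne)
    have a3 := add (U a ∪ U b) (U c ∪ U d) fun p hp q hq => by
      rcases Finset.mem_union.1 hp with hp | hp <;> rcases Finset.mem_union.1 hq with hq | hq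
      · exact anti a ka c kc hac.ne p hp q hq
      · exact anti a ka d kd had.ne p hp q hq
      · exact anti b kb c kc hbc.ne p hp q hq
      · exact anti b kb d kd hbd.ne p hp q hq
    have := top ((U a ∪ U b) ∪ (U c ∪ U d))
    omega
  have : 1 ≤ alpha G (U a) := alpha_pos (G := G) (Finset.mem_union_left (E a) ma)
  have : 1 ≤ alpha G (U b) := alpha_pos (G := G) (Finset.mem_union_left (E b) mb)
  have : 1 ≤ alpha G (U c) := alpha_pos (G := G) (Finset.mem_union_left (E c) mc)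
  have : 1 ≤ alpha G (U d) := alpha_pos (G := G) (Finset.mem_union_left (E d) md)
  have hall : ∀ q ∈ K, q = a ∨ q = b ∨ q = c ∨ q = d := fun q hq => by simpa [hKd] using hq
  by_cases hb2 : 2 ≤ alpha G (U b)
  · exact fin b a c d kb ka kc kd hab.ne' hbc.ne hbd.ne hac.ne had.ne hcd.ne
      (fun q hq => by have := hall q hq; tauto) fun q hq hne => by
        rcases hall q hq with rfl | rfl | rfl | rfl
        · omega
        · exact absurd rfl hne
        all_goals omega
  by_cases hc2 : 2 ≤ alpha G (U c)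
  · exact fin c a b d kc ka kb kd hac.ne' hbc.ne' hcd.ne hab.ne had.ne hbd.ne
      (fun q hq => by have := hall q hq; tauto) fun q hq hne => by
        rcases hall q hq with rfl | rfl | rfl | rfl
        · omega
        · omega
        · exact absurd rfl hne
        · omega
  by_cases hd2 : 2 ≤ alpha G (U d)
  · exact fin d a b c kd ka kb kc had.ne' hbd.ne' hcd.ne' hab.ne hac.ne hbc.ne
      (fun q hq => by have := hall q hq; tauto) fun q hq hne => by
        rcases hall q hq with rfl | rfl | rfl | rfl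
        · omega
        · omega
        · omega
        · exact absurd rfl hne
  exact fin a b c d ka kb kc kd hab.ne hac.ne had.ne hbc.ne hbd.ne hcd.ne hall
    fun q hq hne => by
      rcases hall q hq with rfl | rfl | rfl | rfl
      · exact absurd rfl hne
      all_goals omega

end Vale.Agent.P048.Full.Six
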