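import Vale.Agent.P048.Full.Assemble

/-! # Short cycles: tools for the small cases -/

namespace Vale.Agent.P048.Full

open Finset

variable {V : Type} {G : SimpleGraph V} {a b c d e : V} {m A : ℕ}

theorem cyc4 (hab : G.Adj a b) (hbc : G.Adj b c) (hcd : G.Adj c d) (hda : G.Adj d a)
    (hac : a ≠ c) (hbd : b ≠ d) : HasCyc G 4 := by
  refine ((((Pth.single a).snoc hab ?_).snoc hbc ?_).snoc hcd ?_).cycle hda (by norm_num) <;>
    simp only [Set.mem_union, Set.mem_singleton_iff, not_or]
  · exact hab.ne'
  · exact ⟨hac.symm, hbc.ne'⟩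
  · exact ⟨⟨hda.ne, hbd.symm⟩, hcd.ne'⟩

theorem cyc5 (hab : G.Adj a b) (hbc : G.Adj b c) (hcd : G.Adj c d) (hde : G.Adj d e)
    (hea : G.Adj e a) (hac : a ≠ c) (had : a ≠ d) (hbd : b ≠ d) (hbe : b ≠ e) (hce : c ≠ e) :
    HasCyc G 5 := by
  refine (((((Pth.single a).snoc hab ?_).snoc hbc ?_).snoc hcd ?_).snoc hde ?_).cycle hea
    (by norm_num) <;> simp only [Set.mem_union, Set.mem_singleton_iff, not_or]
  · exact hab.ne'
  · exact ⟨hac.symm, hbc.ne'⟩
  · exact ⟨⟨had.symm, hbd.symm⟩, hcd.ne'⟩
  · exact ⟨⟨⟨hea.ne, hbe.symm⟩, hce.symm⟩, hde.ne'⟩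

/-- Every degree is at least `m - 1` in a smallest counterexample. -/
theorem Bad.deg_ge [Fintype V] (h : Bad G m A) (x : V) :
    m ≤ (nb G Finset.univ x).card + 1 := by
  obtain ⟨U, -, hUa, hUc⟩ := alpha_outside (b := A) (Finset.mem_univ x) h.hA
  have hs := (h.small U (by omega)).trans
    (Nat.mul_le_mul_left (m - 1) (show alpha G U ≤ A - 1 by omega))
  have hb := h.big
  have hm := h.hm
  have hA2 := h.hA2
  have e : (m - 1) * (A - 1) + (m - 1) = (m - 1) * A := by
    rw [← Nat.mul_succ, show (A - 1).succ = A by omega]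
  rw [Finset.card_univ] at hUc
  omega

/-- Independence of three or four given vertices. -/
theorem indep_four [DecidableEq V] {a b c d : V} (h1 : ¬G.Adj a b) (h2 : ¬G.Adj a c)
    (h3 : ¬G.Adj a d) (h4 : ¬G.Adj b c) (h5 : ¬G.Adj b d) (h6 : ¬G.Adj c d) :
    Indep G ({a, b, c, d} : Finset V) := by
  intro x hx y hy
  simp only [Finset.mem_insert, Finset.mem_singleton] at hx hy
  rcases hx with rfl | rfl | rfl | rfl <;> rcases hy with rfl | rfl | rfl | rfl
  all_goals
    first
      | exact G.irrefl
      | assumption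
      | exact fun e => h1 e.symm
      | exact fun e => h2 e.symm
      | exact fun e => h3 e.symm
      | exact fun e => h4 e.symm
      | exact fun e => h5 e.symm
      | exact fun e => h6 e.symm

/-- A triangle-free set with independence number two has at most five vertices. -/
theorem tf_alpha_two {X : Finset V} (hX : alpha G X ≤ 2)
    (ht : ∀ x y z : V, x ∈ X → y ∈ X → z ∈ X → G.Adj x y → G.Adj y z → ¬G.Adj x z) :
    X.card ≤ 5 := by
  classical
  by_contra hbig
  obtain ⟨x, hx⟩ := Finset.card_pos.1 (show 0 < X.card by omega)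
  set N := nb G X x
  set U := X.filter fun y => y ≠ x ∧ ¬G.Adj x y
  have hN : N.card ≤ 2 := by
    refine le_trans (le_alpha (G := G) (S := N) (fun y hy => (mem_nb.1 hy).1) ?_) hX
    exact fun p hp r hr e => ht x p r hx (mem_nb.1 hp).1 (mem_nb.1 hr).1 (mem_nb.1 hp).2 e
      (mem_nb.1 hr).2
  have hU : U.card ≤ 2 := by
    by_contra h3
    obtain ⟨p, hp, q, hq, r, hr, hpq, hpr, hqr⟩ := Finset.two_lt_card.1 (show 2 < U.card by omega)
    simp only [U, Finset.mem_filter] at hp hq hr
    have key : ∀ s t, (s ∈ X ∧ s ≠ x ∧ ¬G.Adj x s) → (t ∈ X ∧ t ≠ x ∧ ¬G.Adj x t) → s ≠ t →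
        G.Adj s t := fun s t hs hts hst => by
      by_contra hn
      have h3 := le_alpha (G := G) (W := X) (S := {x} ∪ {s, t}) (by
        intro y hy
        simp only [Finset.mem_union, Finset.mem_insert, Finset.mem_singleton] at hy
        rcases hy with rfl | rfl | rfl
        · exact hx
        · exact hs.1
        · exact hts.1) ((Indep.singleton x).union (Indep.pair hn) (fun y hy z hz => by
          rw [Finset.mem_singleton] at hy
          simp only [Finset.mem_insert, Finset.mem_singleton] at hz
          rcases hz with rfl | rfl <;> rw [hy]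
          · exact hs.2.2
          · exact hts.2.2))
      rw [Finset.card_union_of_disjoint (by simp [hs.2.1.symm, hts.2.1.symm]), Finset.card_singleton,
        Finset.card_pair hst] at h3
      omega
    exact ht p q r hp.1 hq.1 hr.1 (key p q hp hq hpq) (key q r hq hr hqr) (key p r hp hr hpr)
  have hc : X.card ≤ (insert x N ∪ U).card := Finset.card_le_card fun y hy => by
    simp only [N, U, Finset.mem_union, Finset.mem_insert, mem_nb, Finset.mem_filter, hy, true_and]
    tauto
  have := Finset.card_union_le (insert x N) U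
  have := Finset.card_insert_le x N
  omega

end Vale.Agent.P048.Full
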