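import Vale.Agent.P048.Main
import Vale.Agent.P048.Full.SmallTools

/-! # Short cycles: counting tools -/

namespace Vale.Agent.P048.Full

open Finset

variable {V : Type} {G : SimpleGraph V} {a b c d e f : V} {m A : ℕ}

theorem cyc6 (hab : G.Adj a b) (hbc : G.Adj b c) (hcd : G.Adj c d) (hde : G.Adj d e)
    (hef : G.Adj e f) (hfa : G.Adj f a) (hac : a ≠ c) (had : a ≠ d) (hae : a ≠ e) (hbd : b ≠ d)
    (hbe : b ≠ e) (hbf : b ≠ f) (hce : c ≠ e) (hcf : c ≠ f) (hdf : d ≠ f) : HasCyc G 6 := by
  refine ((((((Pth.single a).snoc hab ?_).snoc hbc ?_).snoc hcd ?_).snoc hde ?_).snoc hef ?_).cycle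
    hfa (by norm_num) <;> simp only [Set.mem_union, Set.mem_singleton_iff, not_or]
  · exact hab.ne'
  · exact ⟨hac.symm, hbc.ne'⟩
  · exact ⟨⟨had.symm, hbd.symm⟩, hcd.ne'⟩
  · exact ⟨⟨⟨hae.symm, hbe.symm⟩, hce.symm⟩, hde.ne'⟩
  · exact ⟨⟨⟨⟨hfa.ne, hbf.symm⟩, hcf.symm⟩, hdf.symm⟩, hef.ne'⟩

/-- A list of distinct pairwise non-adjacent vertices has at most `A` members. -/
theorem Bad.list_le [Fintype V] (h : Bad G m A) (L : List V)
    (hL : L.Pairwise fun x y => x ≠ y ∧ ¬G.Adj x y) : L.length ≤ A := by
  classical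
  have hnd : L.Nodup := hL.imp fun h => h.1
  have hI : Indep G L.toFinset := by
    intro x hx y hy e
    rw [List.mem_toFinset] at hx hy
    have : Std.Symm fun p q : V => p ≠ q ∧ ¬G.Adj p q :=
      ⟨fun p q h => ⟨h.1.symm, fun e => h.2 e.symm⟩⟩
    exact (hL.forall hx hy e.ne).2 e
  have := (le_alpha (G := G) (Finset.subset_univ _) hI).trans h.hA
  rwa [List.toFinset_card_of_nodup hnd] at this

/-- The closed neighbourhood of an independent set is large. -/
theorem Bad.nbhd_large [Fintype V] (h : Bad G m A) {I N : Finset V} (hI : Indep G I)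
    (hne : I.Nonempty) (hIN : I ⊆ N) (hN : ∀ x ∈ I, ∀ y, G.Adj x y → y ∈ N) :
    (m - 1) * I.card < N.card := by
  classical
  set U := Finset.univ \ N
  have h1 := le_alpha (G := G) (W := I) (Finset.Subset.refl I) hI
  have h2 := (alpha_add_le (G := G) (Finset.subset_univ I) (Finset.subset_univ U)
    (Finset.disjoint_left.2 fun x hx hu => (Finset.mem_sdiff.1 hu).2 (hIN hx))
    (fun x hx y hy e => (Finset.mem_sdiff.1 hy).2 (hN x hx y e))).trans h.hA
  have h3 := hne.card_pos
  have h4 := (h.small U (by omega)).trans (Nat.mul_le_mul_left (m - 1)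
    (show alpha G U ≤ A - I.card by omega))
  have h5 : Fintype.card V ≤ N.card + U.card := by
    rw [← Finset.card_univ, ← Finset.card_union_of_disjoint
      (Finset.disjoint_sdiff : Disjoint N U)]
    exact Finset.card_le_card fun x _ => by simp
  have hbig := h.big
  have e : (m - 1) * (A - I.card) + (m - 1) * I.card = (m - 1) * A := by
    rw [← Nat.mul_add, Nat.sub_add_cancel (by omega)]
  omega

open Classical in
/-- The neighbours of `x` outside `F`. -/
noncomputable def out [Fintype V] (G : SimpleGraph V) (x : V) (F : Finset V) : Finset V :=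
  Finset.univ.filter fun y => G.Adj x y ∧ y ∉ F

theorem mem_out [Fintype V] {x y : V} {F : Finset V} : y ∈ out G x F ↔ G.Adj x y ∧ y ∉ F := by
  simp [out]

theorem Bad.out_large [Fintype V] (h : Bad G m A) (x : V) (F : Finset V) :
    m ≤ (out G x F).card + F.card + 1 := by
  classical
  have h1 : nb G Finset.univ x ⊆ out G x F ∪ F := fun y hy => by
    simp only [Finset.mem_union, mem_out, mem_nb] at hy ⊢
    tauto
  have h2 := Finset.card_le_card h1
  have := Finset.card_union_le (out G x F) F
  have := h.deg_ge x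
  omega

theorem Bad.exists_out [Fintype V] (h : Bad G m A) (x : V) (F : Finset V) (hF : F.card + 2 ≤ m) :
    ∃ p, G.Adj x p ∧ p ∉ F := by
  obtain ⟨p, hp⟩ := Finset.card_pos.1 (show 0 < (out G x F).card by
    have := h.out_large x F
    omega)
  exact ⟨p, mem_out.1 hp⟩

/-- A triangle-free set is at most quadratic in its independence number. -/
theorem tf_bound : ∀ (k : ℕ) (X : Finset V), alpha G X ≤ k →
    (∀ x y z : V, x ∈ X → y ∈ X → z ∈ X → G.Adj x y → G.Adj y z → ¬G.Adj x z) →
    2 * X.card ≤ k * (k + 3) := by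
  classical
  intro k
  induction k with
  | zero =>
    intro X hX _
    rcases X.eq_empty_or_nonempty with rfl | ⟨x, hx⟩
    · simp
    · have := alpha_pos (G := G) hx
      omega
  | succ k ih =>
    intro X hX ht
    rcases X.eq_empty_or_nonempty with rfl | ⟨x, hx⟩
    · simp
    set U := X.filter fun y => y ≠ x ∧ ¬G.Adj x y
    have hU : alpha G U ≤ k := by
      have h := alpha_add_le (G := G) (W := X) (X := {x}) (Y := U)
        (Finset.singleton_subset_iff.2 hx) (Finset.filter_subset _ _) (by simp [U])
        (fun p hp r hr => by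
          rw [Finset.mem_singleton] at hp
          simp only [U, Finset.mem_filter] at hr
          exact hp ▸ hr.2.2)
      have := alpha_pos (G := G) (Finset.mem_singleton_self x)
      omega
    have hN : (nb G X x).card ≤ k + 1 := le_trans (le_alpha (G := G)
      (fun y hy => (mem_nb.1 hy).1) fun p hp r hr e => ht x p r hx (mem_nb.1 hp).1 (mem_nb.1 hr).1
        (mem_nb.1 hp).2 e (mem_nb.1 hr).2) hX
    have h2 := ih U hU fun p q r hp hq hr => ht p q r (Finset.mem_filter.1 hp).1
      (Finset.mem_filter.1 hq).1 (Finset.mem_filter.1 hr).1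
    have hc : X.card ≤ (insert x (nb G X x) ∪ U).card := Finset.card_le_card fun y hy => by
      simp only [U, Finset.mem_union, Finset.mem_insert, mem_nb, Finset.mem_filter, hy, true_and]
      tauto
    have := Finset.card_union_le (insert x (nb G X x)) U
    have := Finset.card_insert_le x (nb G X x)
    rw [show (k + 1) * (k + 1 + 3) = k * (k + 3) + (2 * k + 4) by ring]
    omega

/-- Independence number at most half of `m`: the bound that is already proved. -/
theorem Bad.false_le_half [Fintype V] (h : Bad G m A) (hA : 2 * A + 1 ≤ m) : False := by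
  have := Vale.Agent.P048.card_le A V G m (le_trans (by omega) h.hm) hA h.free
    (fun S hS => (le_alpha (G := G) (Finset.subset_univ S) hS).trans h.hA)
  have := h.big
  omega

end Vale.Agent.P048.Full
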